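import Mathlib
import Crest.Prelude.Def_RandomSAT

-- ▼ part R153/Defs
section

/-!
Row 153 (S0217), shared definitions (helper852).

`k = j + 3` is the clause length.  Expectations over lists of independent uniform clauses are
iterated averages (`EL`).  `hit X F` is the number of prefixes (including the empty one and the
whole list) of `F` which are satisfied by some assignment of `X`.
-/

set_option autoImplicit false

open Crest.ProbabilityR.RandomSAT

namespace Crest.Agent.R153

/-- uniform average (0 for an empty type) -/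
noncomputable def avg {α : Type*} [Fintype α] (f : α → ℝ) : ℝ :=
  (∑ a, f a) / (Fintype.card α : ℝ)

/-- expectation over a list of `M` independent uniform elements of `α` -/
noncomputable def EL {α : Type*} [Fintype α] : ℕ → (List α → ℝ) → ℝ
  | 0, f => f []
  | M + 1, f => avg (fun c => EL M (fun F => f (c :: F)))

/-- assignments -/
abbrev Asg (n : ℕ) := Fin n → Bool

/-- the assignments of `X` satisfying the clause `c` -/
noncomputable def cut {k n : ℕ} (X : Finset (Asg n)) (c : Clause k n) : Finset (Asg n) :=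
  haveI := Classical.decPred (fun σ : Asg n => ClauseSat σ c)
  X.filter (fun σ => ClauseSat σ c)

/-- the assignments of `X` satisfying all clauses of the list `E` -/
noncomputable def cutL {k n : ℕ} (X : Finset (Asg n)) (E : List (Clause k n)) : Finset (Asg n) :=
  E.foldl cut X

/-- the assignments of `X` with `σ l.1 = l.2` (the literal `l` is true) -/
def cutLit {n : ℕ} (X : Finset (Asg n)) (l : Fin n × Bool) : Finset (Asg n) :=
  X.filter (fun σ => σ l.1 = l.2)

/-- `1` if `X` is nonempty, else `0` -/
noncomputable def ne {n : ℕ} (X : Finset (Asg n)) : ℝ := by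
  classical exact if X.Nonempty then 1 else 0

/-- number of prefixes of `F` (from the empty one to `F` itself) satisfiable within `X` -/
noncomputable def hit {k n : ℕ} : Finset (Asg n) → List (Clause k n) → ℝ
  | X, [] => ne X
  | X, c :: F => ne X + hit (cut X c) F

/-- frozen fraction: the proportion of literals `l` which are false on all of `X` -/
noncomputable def phi1 {n : ℕ} (X : Finset (Asg n)) : ℝ :=
  avg (fun l : Fin n × Bool => 1 - ne (cutLit X l))

/-- probability that a uniform `m`-clause kills `X` -/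
noncomputable def phi (m : ℕ) {n : ℕ} (X : Finset (Asg n)) : ℝ :=
  avg (fun q : Clause m n => 1 - ne (cut X q))

/-- indicator that `X` is nonempty and its frozen fraction exceeds `ε` -/
noncomputable def frz (ε : ℝ) {n : ℕ} (X : Finset (Asg n)) : ℝ := by
  classical exact if X.Nonempty ∧ ε < phi1 X then 1 else 0

/-- number of prefixes `F'` of `F` such that `X ∩ F'` is nonempty with frozen fraction `> ε` -/
noncomputable def Teps (ε : ℝ) {k n : ℕ} : Finset (Asg n) → List (Clause k n) → ℝ
  | X, [] => frz ε X
  | X, c :: F => frz ε X + Teps ε (cut X c) F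

/-- first literal of a clause of positive length -/
def fstLit {m n : ℕ} (q : Clause (m + 1) n) : Fin n × Bool := (q.1.1 0, q.2 0)

/-- the quantity controlled by induction on `n`: second moment of the loss caused by a random
literal, in the process with `i` random `(j+2)`-clauses present at time `0` and `M` random
`(j+3)`-clauses. -/
noncomputable def DD (j n i M : ℕ) : ℝ :=
  EL (α := Clause (j + 2) n) i (fun E => EL (α := Clause (j + 3) n) M (fun F =>
    avg (fun l : Fin n × Bool =>
      (hit (cutL Finset.univ E) F - hit (cutLit (cutL Finset.univ E) l) F) ^ 2)))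

end Crest.Agent.R153
private theorem rz_27c782f758 : type_of% @_root_.Crest.Agent.R153.EL.eq_def := @_root_.Crest.Agent.R153.EL.eq_def -- L23
private theorem rz_057f2a1fcf : type_of% @_root_.Crest.Agent.R153.EL.eq_1 := @_root_.Crest.Agent.R153.EL.eq_1 -- L23
private theorem rz_dcbd9d86be : type_of% @_root_.Crest.Agent.R153.hit.eq_def := @_root_.Crest.Agent.R153.hit.eq_def -- L48
private theorem rz_b6901e3305 : type_of% @_root_.Crest.Agent.R153.hit.eq_1 := @_root_.Crest.Agent.R153.hit.eq_1 -- L48
end

-- ▼ part R153/Basic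

/-! Row 153 (S0217): basic facts on `avg` and `EL` (helper852). -/

set_option autoImplicit false

open Crest.ProbabilityR.RandomSAT

namespace Crest.Agent.R153

section avg
variable {α β : Type*} [Fintype α] [Fintype β]

theorem avg_mono {f g : α → ℝ} (h : ∀ a, f a ≤ g a) : avg f ≤ avg g :=
  div_le_div_of_nonneg_right (Finset.sum_le_sum fun a _ => h a) (Nat.cast_nonneg _)

theorem avg_nonneg {f : α → ℝ} (h : ∀ a, 0 ≤ f a) : 0 ≤ avg f :=
  div_nonneg (Finset.sum_nonneg fun a _ => h a) (Nat.cast_nonneg _)

theorem avg_congr {f g : α → ℝ} (h : ∀ a, f a = g a) : avg f = avg g := by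
  rw [funext h]

theorem avg_zero : avg (fun _ : α => (0 : ℝ)) = 0 := by simp [avg]

theorem avg_add (f g : α → ℝ) : avg (fun a => f a + g a) = avg f + avg g := by
  unfold avg; rw [Finset.sum_add_distrib, add_div]

theorem avg_sub (f g : α → ℝ) : avg (fun a => f a - g a) = avg f - avg g := by
  unfold avg; rw [Finset.sum_sub_distrib, sub_div]

theorem avg_const_mul (c : ℝ) (f : α → ℝ) : avg (fun a => c * f a) = c * avg f := by
  unfold avg; rw [← Finset.mul_sum, mul_div_assoc]

theorem avg_mul_const (c : ℝ) (f : α → ℝ) : avg (fun a => f a * c) = avg f * c := by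
  unfold avg; rw [← Finset.sum_mul, div_mul_eq_mul_div]

theorem avg_sum {ι : Type*} (s : Finset ι) (f : ι → α → ℝ) :
    avg (fun a => ∑ i ∈ s, f i a) = ∑ i ∈ s, avg (f i) := by
  unfold avg; rw [Finset.sum_comm, Finset.sum_div]

theorem avg_const [Nonempty α] (c : ℝ) : avg (fun _ : α => c) = c := by
  unfold avg
  rw [Finset.sum_const, Finset.card_univ, nsmul_eq_mul, mul_comm, mul_div_assoc, div_self, mul_one]
  exact_mod_cast Fintype.card_ne_zero

theorem avg_const_le {c : ℝ} (hc : 0 ≤ c) : avg (fun _ : α => c) ≤ c := by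
  rcases isEmpty_or_nonempty α with h | h
  · simp [avg, hc]
  · rw [avg_const]

theorem avg_comm (f : α → β → ℝ) :
    avg (fun a => avg (fun b => f a b)) = avg (fun b => avg (fun a => f a b)) := by
  unfold avg
  rw [← Finset.sum_div, ← Finset.sum_div, Finset.sum_comm, div_div, div_div, mul_comm]

theorem avg_equiv (e : α ≃ β) (f : β → ℝ) : avg (fun a => f (e a)) = avg f := by
  unfold avg
  rw [Equiv.sum_comp e f, Fintype.card_congr e]

/-- Jensen (valid also for the empty type) -/
theorem sq_avg_le (f : α → ℝ) : (avg f) ^ 2 ≤ avg (fun a => f a ^ 2) := by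
  unfold avg
  rcases isEmpty_or_nonempty α with h | h
  · simp
  · have hc : (0 : ℝ) < Fintype.card α := by exact_mod_cast Fintype.card_pos
    rw [div_pow, div_le_div_iff₀ (by positivity) hc]
    have h2 := sq_sum_le_card_mul_sum_sq (s := (Finset.univ : Finset α)) (f := f)
    rw [Finset.card_univ] at h2
    calc (∑ a, f a) ^ 2 * (Fintype.card α : ℝ)
        ≤ ((Fintype.card α : ℝ) * ∑ a, f a ^ 2) * (Fintype.card α : ℝ) :=
          mul_le_mul_of_nonneg_right h2 hc.le
      _ = (∑ a, f a ^ 2) * (Fintype.card α : ℝ) ^ 2 := by ring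

end avg

section EL
variable {α β : Type*} [Fintype α] [Fintype β]

theorem EL_mono' {M : ℕ} : ∀ {f g : List α → ℝ}, (∀ F, F.length = M → f F ≤ g F) →
    EL M f ≤ EL M g := by
  induction M with
  | zero => intro f g h; exact h [] rfl
  | succ M ih =>
    intro f g h
    exact avg_mono fun c => ih fun F hF => h (c :: F) (by simp [hF])

theorem EL_mono {M : ℕ} {f g : List α → ℝ} (h : ∀ F, f F ≤ g F) : EL M f ≤ EL M g :=
  EL_mono' fun F _ => h F

theorem EL_congr' {M : ℕ} {f g : List α → ℝ} (h : ∀ F, F.length = M → f F = g F) :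
    EL M f = EL M g :=
  le_antisymm (EL_mono' fun F hF => (h F hF).le) (EL_mono' fun F hF => (h F hF).ge)

theorem EL_congr {M : ℕ} {f g : List α → ℝ} (h : ∀ F, f F = g F) : EL M f = EL M g := by
  rw [funext h]

theorem EL_const_le {M : ℕ} {c : ℝ} (hc : 0 ≤ c) : EL M (fun _ : List α => c) ≤ c := by
  induction M with
  | zero => exact le_rfl
  | succ M ih => exact (avg_mono fun _ => ih).trans (avg_const_le hc)

theorem EL_const [Nonempty α] (M : ℕ) (c : ℝ) : EL M (fun _ : List α => c) = c := by
  induction M with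
  | zero => rfl
  | succ M ih =>
    show avg (fun _ : α => EL M (fun _ : List α => c)) = c
    rw [ih, avg_const]

theorem EL_zero_fun (M : ℕ) : EL M (fun _ : List α => (0 : ℝ)) = 0 := by
  induction M with
  | zero => rfl
  | succ M ih =>
    show avg (fun _ : α => EL M (fun _ : List α => (0 : ℝ))) = 0
    rw [ih, avg_zero]

theorem EL_nonneg' {M : ℕ} {f : List α → ℝ} (h : ∀ F, F.length = M → 0 ≤ f F) : 0 ≤ EL M f := by
  rw [← EL_zero_fun (α := α) M]
  exact EL_mono' h

theorem EL_nonneg {M : ℕ} {f : List α → ℝ} (h : ∀ F, 0 ≤ f F) : 0 ≤ EL M f :=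
  EL_nonneg' fun F _ => h F

theorem EL_add (M : ℕ) : ∀ (f g : List α → ℝ),
    EL M (fun F => f F + g F) = EL M f + EL M g := by
  induction M with
  | zero => intro f g; rfl
  | succ M ih =>
    intro f g
    show avg (fun c => EL M (fun F => f (c :: F) + g (c :: F))) = _
    rw [avg_congr fun c => ih (fun F => f (c :: F)) (fun F => g (c :: F)), avg_add]
    rfl

theorem EL_const_mul (M : ℕ) (a : ℝ) : ∀ (f : List α → ℝ),
    EL M (fun F => a * f F) = a * EL M f := by
  induction M with
  | zero => intro f; rfl
  | succ M ih =>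
    intro f
    show avg (fun c => EL M (fun F => a * f (c :: F))) = _
    rw [avg_congr fun c => ih (fun F => f (c :: F)), avg_const_mul]
    rfl

theorem EL_mul_const (M : ℕ) (a : ℝ) (f : List α → ℝ) :
    EL M (fun F => f F * a) = EL M f * a := by
  rw [EL_congr fun F => mul_comm (f F) a, EL_const_mul, mul_comm]

theorem EL_sub (M : ℕ) (f g : List α → ℝ) :
    EL M (fun F => f F - g F) = EL M f - EL M g := by
  have h := EL_add M f (fun F => (-1) * g F)
  rw [EL_const_mul] at h
  have e : (fun F => f F - g F) = (fun F => f F + (-1) * g F) := by funext F; ring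
  rw [e, h]; ring

theorem EL_sum {ι : Type*} (s : Finset ι) (M : ℕ) (f : ι → List α → ℝ) :
    EL M (fun F => ∑ i ∈ s, f i F) = ∑ i ∈ s, EL M (f i) := by
  classical
  induction s using Finset.induction_on with
  | empty => simp [EL_zero_fun]
  | insert a s ha ih =>
    rw [Finset.sum_insert ha, ← ih, ← EL_add]
    exact EL_congr fun F => Finset.sum_insert ha

theorem EL_append (a b : ℕ) : ∀ (f : List α → ℝ),
    EL (a + b) f = EL a (fun F => EL b (fun G => f (F ++ G))) := by
  induction a with
  | zero => intro f; simp [EL]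
  | succ a ih =>
    intro f
    rw [Nat.succ_add]
    show avg (fun c => EL (a + b) (fun F => f (c :: F))) = _
    rw [avg_congr fun c => ih (fun F => f (c :: F))]
    rfl

theorem EL_avg_comm (M : ℕ) : ∀ (f : List α → β → ℝ),
    EL M (fun F => avg (fun b => f F b)) = avg (fun b => EL M (fun F => f F b)) := by
  induction M with
  | zero => intro f; rfl
  | succ M ih =>
    intro f
    show avg (fun c => EL M (fun F => avg (fun b => f (c :: F) b))) = _
    rw [avg_congr fun c => ih (fun F b => f (c :: F) b), avg_comm]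
    rfl

theorem EL_comm (a b : ℕ) : ∀ (f : List α → List β → ℝ),
    EL a (fun F => EL b (fun G => f F G)) = EL b (fun G => EL a (fun F => f F G)) := by
  induction a with
  | zero => intro f; rfl
  | succ a ih =>
    intro f
    show avg (fun c => EL a (fun F => EL b (fun G => f (c :: F) G))) = _
    rw [avg_congr fun c => ih (fun F G => f (c :: F) G), ← EL_avg_comm]
    rfl

theorem EL_one (f : List α → ℝ) : EL 1 f = avg (fun c => f [c]) := rfl

theorem EL_succ (M : ℕ) (f : List α → ℝ) :
    EL (M + 1) f = avg (fun c => EL M (fun F => f (c :: F))) := rfl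

/-- Jensen for `EL` -/
theorem sq_EL_le (M : ℕ) : ∀ (f : List α → ℝ), (EL M f) ^ 2 ≤ EL M (fun F => f F ^ 2) := by
  induction M with
  | zero => intro f; exact le_rfl
  | succ M ih =>
    intro f
    exact (sq_avg_le _).trans (avg_mono fun c => ih fun F => f (c :: F))

end EL

section sets
variable {k m n : ℕ}

theorem mem_cut {X : Finset (Asg n)} {c : Clause k n} {σ : Asg n} :
    σ ∈ cut X c ↔ σ ∈ X ∧ ClauseSat σ c := by
  unfold cut
  simp

theorem mem_cutLit {X : Finset (Asg n)} {l : Fin n × Bool} {σ : Asg n} :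
    σ ∈ cutLit X l ↔ σ ∈ X ∧ σ l.1 = l.2 := by
  unfold cutLit
  simp

theorem mem_cutL {X : Finset (Asg n)} {E : List (Clause k n)} {σ : Asg n} :
    σ ∈ cutL X E ↔ σ ∈ X ∧ ∀ c ∈ E, ClauseSat σ c := by
  induction E generalizing X with
  | nil => simp [cutL]
  | cons c E ih =>
    show σ ∈ cutL (cut X c) E ↔ _
    rw [ih, mem_cut]
    simp only [List.mem_cons, forall_eq_or_imp]
    tauto

theorem cut_subset (X : Finset (Asg n)) (c : Clause k n) : cut X c ⊆ X :=
  fun _ h => (mem_cut.1 h).1

theorem cutL_subset (X : Finset (Asg n)) (E : List (Clause k n)) : cutL X E ⊆ X :=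
  fun _ h => (mem_cutL.1 h).1

theorem cutLit_subset (X : Finset (Asg n)) (l : Fin n × Bool) : cutLit X l ⊆ X :=
  fun _ h => (mem_cutLit.1 h).1

theorem cut_mono {X Y : Finset (Asg n)} (h : X ⊆ Y) (c : Clause k n) : cut X c ⊆ cut Y c :=
  fun _ hσ => mem_cut.2 ⟨h (mem_cut.1 hσ).1, (mem_cut.1 hσ).2⟩

theorem cutLit_mono {X Y : Finset (Asg n)} (h : X ⊆ Y) (l : Fin n × Bool) :
    cutLit X l ⊆ cutLit Y l :=
  fun _ hσ => mem_cutLit.2 ⟨h (mem_cutLit.1 hσ).1, (mem_cutLit.1 hσ).2⟩

theorem cutL_mono {X Y : Finset (Asg n)} (h : X ⊆ Y) (E : List (Clause k n)) :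
    cutL X E ⊆ cutL Y E :=
  fun _ hσ => mem_cutL.2 ⟨h (mem_cutL.1 hσ).1, (mem_cutL.1 hσ).2⟩

theorem cut_comm (X : Finset (Asg n)) (c : Clause k n) (d : Clause m n) :
    cut (cut X c) d = cut (cut X d) c := by
  ext σ; simp only [mem_cut]; tauto

theorem cutLit_cut_comm (X : Finset (Asg n)) (l : Fin n × Bool) (d : Clause m n) :
    cutLit (cut X d) l = cut (cutLit X l) d := by
  ext σ; simp only [mem_cut, mem_cutLit]; tauto

theorem cutL_append (X : Finset (Asg n)) (E E' : List (Clause k n)) :
    cutL X (E ++ E') = cutL (cutL X E) E' := by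
  unfold cutL; rw [List.foldl_append]

theorem cutL_nil (X : Finset (Asg n)) : cutL X ([] : List (Clause k n)) = X := rfl

theorem cutL_cons (X : Finset (Asg n)) (c : Clause k n) (E : List (Clause k n)) :
    cutL X (c :: E) = cutL (cut X c) E := rfl

theorem cutL_cut_comm (X : Finset (Asg n)) (E : List (Clause k n)) (d : Clause m n) :
    cutL (cut X d) E = cut (cutL X E) d := by
  ext σ; simp only [mem_cut, mem_cutL]; tauto


theorem cutLit_subset_cut (X : Finset (Asg n)) (q : Clause (m + 1) n) :
    cutLit X (fstLit q) ⊆ cut X q := by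
  intro σ hσ
  rw [mem_cutLit] at hσ
  exact mem_cut.2 ⟨hσ.1, 0, hσ.2⟩

theorem ne_nonneg (X : Finset (Asg n)) : 0 ≤ ne X := by unfold ne; split_ifs <;> norm_num

theorem ne_le_one (X : Finset (Asg n)) : ne X ≤ 1 := by unfold ne; split_ifs <;> norm_num

theorem ne_of_nonempty {X : Finset (Asg n)} (h : X.Nonempty) : ne X = 1 := by
  unfold ne; rw [if_pos h]

theorem ne_empty : ne (∅ : Finset (Asg n)) = 0 := by
  unfold ne; rw [if_neg Finset.not_nonempty_empty]

theorem ne_eq_zero {X : Finset (Asg n)} (h : ¬ X.Nonempty) : ne X = 0 := by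
  unfold ne; rw [if_neg h]

theorem ne_mono {X Y : Finset (Asg n)} (h : X ⊆ Y) : ne X ≤ ne Y := by
  by_cases hX : X.Nonempty
  · rw [ne_of_nonempty hX, ne_of_nonempty (hX.mono h)]
  · rw [ne_eq_zero hX]; exact ne_nonneg Y

theorem hit_nonneg (X : Finset (Asg n)) (F : List (Clause k n)) : 0 ≤ hit X F := by
  induction F generalizing X with
  | nil => exact ne_nonneg X
  | cons c F ih => exact add_nonneg (ne_nonneg X) (ih _)

theorem hit_mono {X Y : Finset (Asg n)} (h : X ⊆ Y) (F : List (Clause k n)) :
    hit X F ≤ hit Y F := by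
  induction F generalizing X Y with
  | nil => exact ne_mono h
  | cons c F ih => exact add_le_add (ne_mono h) (ih (cut_mono h c))

theorem hit_empty (F : List (Clause k n)) : hit (∅ : Finset (Asg n)) F = 0 := by
  have h0 : ∀ c : Clause k n, cut (∅ : Finset (Asg n)) c = ∅ := fun c =>
    Finset.subset_empty.1 (cut_subset ∅ c)
  induction F with
  | nil => exact ne_empty
  | cons c F ih =>
    show ne (∅ : Finset (Asg n)) + hit (cut ∅ c) F = 0
    rw [ne_empty, h0, ih, add_zero]

theorem hit_le_length (X : Finset (Asg n)) (F : List (Clause k n)) :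
    hit X F ≤ F.length + 1 := by
  induction F generalizing X with
  | nil => simpa [hit] using ne_le_one X
  | cons c F ih =>
    show ne X + hit (cut X c) F ≤ _
    have := ne_le_one X
    have := ih (cut X c)
    push_cast [List.length_cons]
    linarith

theorem ne_le_hit (X : Finset (Asg n)) (F : List (Clause k n)) : ne X ≤ hit X F := by
  cases F with
  | nil => exact le_rfl
  | cons c F =>
    show ne X ≤ ne X + hit (cut X c) F
    linarith [hit_nonneg (cut X c) F]

end sets

end Crest.Agent.R153
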