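import Mathlib
import Crest.Prelude.Def_RandomSAT

-- ▼ part R153/InterpOp
section

/-!
Operators "add one random constraint" on functionals of the solution set.
-/

set_option autoImplicit false
set_option linter.unusedVariables false

namespace Crest.Agent.R153.Wr

open Finset

/-- expected value of `φ (S ∩ sat c)` for a random constraint `c` with weights `w`. -/
noncomputable def TT {X C : Type*} [Fintype C] (sat : C → Set X) (w : C → ℝ) :
    Module.End ℝ (Set X → ℝ) where
  toFun φ S := ∑ c, w c * φ (S ∩ sat c)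
  map_add' φ ψ := by
    funext S
    simp [mul_add, Finset.sum_add_distrib]
  map_smul' a φ := by
    funext S
    simp only [Pi.smul_apply, smul_eq_mul, RingHom.id_apply, Finset.mul_sum]
    exact Finset.sum_congr rfl fun c _ => by ring

theorem TT_apply {X C : Type*} [Fintype C] (sat : C → Set X) (w : C → ℝ) (φ : Set X → ℝ)
    (S : Set X) : TT sat w φ S = ∑ c, w c * φ (S ∩ sat c) := rfl

theorem TT_comm {X C C' : Type*} [Fintype C] [Fintype C'] (sat : C → Set X) (w : C → ℝ)
    (sat' : C' → Set X) (w' : C' → ℝ) : Commute (TT sat w) (TT sat' w') := by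
  refine LinearMap.ext fun φ => ?_
  funext S
  simp only [Module.End.mul_apply, TT_apply, Finset.mul_sum]
  rw [Finset.sum_comm]
  refine Finset.sum_congr rfl fun c' _ => Finset.sum_congr rfl fun c _ => ?_
  rw [Set.inter_right_comm]
  ring

/-- indicator of a nonempty solution set -/
noncomputable def φ0 {X : Type*} (S : Set X) : ℝ := by
  classical exact if S.Nonempty then 1 else 0

theorem φ0_of_nonempty {X : Type*} {S : Set X} (h : S.Nonempty) : φ0 S = 1 := by
  simp [φ0, h]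

theorem φ0_of_empty {X : Type*} {S : Set X} (h : ¬ S.Nonempty) : φ0 S = 0 := by
  simp [φ0, h]

theorem φ0_nonneg {X : Type*} (S : Set X) : 0 ≤ φ0 S := by
  by_cases h : S.Nonempty
  · rw [φ0_of_nonempty h]; norm_num
  · rw [φ0_of_empty h]


theorem φ0_mono {X : Type*} {S S' : Set X} (h : S ⊆ S') : φ0 S ≤ φ0 S' := by
  by_cases hS : S.Nonempty
  · rw [φ0_of_nonempty hS, φ0_of_nonempty (hS.mono h)]
  · rw [φ0_of_empty hS]; exact φ0_nonneg _

/-- a monotone operator -/
def MonoOp {X : Type*} (A : Module.End ℝ (Set X → ℝ)) : Prop :=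
  ∀ φ ψ : Set X → ℝ, φ ≤ ψ → A φ ≤ A ψ

theorem TT_mono {X C : Type*} [Fintype C] (sat : C → Set X) (w : C → ℝ) (hw : ∀ c, 0 ≤ w c) :
    MonoOp (TT sat w) := by
  intro φ ψ h S
  simp only [TT_apply]
  exact Finset.sum_le_sum fun c _ => mul_le_mul_of_nonneg_left (h _) (hw c)

theorem MonoOp.mul {X : Type*} {A B : Module.End ℝ (Set X → ℝ)} (hA : MonoOp A) (hB : MonoOp B) :
    MonoOp (A * B) := fun φ ψ h => hA _ _ (hB _ _ h)

theorem MonoOp.one {X : Type*} : MonoOp (1 : Module.End ℝ (Set X → ℝ)) := fun _ _ h => h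

theorem MonoOp.pow {X : Type*} {A : Module.End ℝ (Set X → ℝ)} (hA : MonoOp A) (m : ℕ) :
    MonoOp (A ^ m) := by
  induction m with
  | zero => simpa using MonoOp.one
  | succ m ih => rw [pow_succ]; exact ih.mul hA

theorem MonoOp.add {X : Type*} {A B : Module.End ℝ (Set X → ℝ)} (hA : MonoOp A) (hB : MonoOp B) :
    MonoOp (A + B) := fun φ ψ h S => add_le_add (hA _ _ h S) (hB _ _ h S)

theorem MonoOp.smul {X : Type*} {A : Module.End ℝ (Set X → ℝ)} (hA : MonoOp A) {a : ℝ}
    (ha : 0 ≤ a) : MonoOp (a • A) := fun φ ψ h S => mul_le_mul_of_nonneg_left (hA _ _ h S) ha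

theorem MonoOp.nonneg {X : Type*} {A : Module.End ℝ (Set X → ℝ)} (hA : MonoOp A)
    {φ : Set X → ℝ} (h : 0 ≤ φ) : 0 ≤ A φ := by
  have := hA 0 φ h
  simpa using this

/-- replacing the operators one by one -/
theorem pow_le_pow_of_comm {X : Type*} {A B : Module.End ℝ (Set X → ℝ)} (hA : MonoOp A)
    (hB : MonoOp B) (hAB : Commute A B) {φ : Set X → ℝ} (h : B φ ≤ A φ) (m : ℕ) :
    (B ^ m) φ ≤ (A ^ m) φ := by
  induction m with
  | zero => simp
  | succ m ih =>
    have h1 : (B ^ (m + 1)) φ ≤ B ((A ^ m) φ) := by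
      rw [pow_succ']
      exact hB _ _ ih
    have h2 : B ((A ^ m) φ) = (A ^ m) (B φ) := by
      have := (hAB.pow_left m).eq
      have h3 := congrArg (fun f : Module.End ℝ (Set X → ℝ) => f φ) this
      simpa [Module.End.mul_apply] using h3.symm
    have h3 : (A ^ m) (B φ) ≤ (A ^ m) (A φ) := (hA.pow m) _ _ h
    calc (B ^ (m + 1)) φ ≤ B ((A ^ m) φ) := h1
      _ = (A ^ m) (B φ) := h2
      _ ≤ (A ^ m) (A φ) := h3
      _ = (A ^ (m + 1)) φ := by rw [pow_succ]; rfl

theorem TT_pow_apply {X C : Type*} [Fintype C] (sat : C → Set X) (w : C → ℝ) (φ : Set X → ℝ)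
    (m : ℕ) (S : Set X) :
    ((TT sat w) ^ m) φ S = ∑ F : Fin m → C, (∏ j, w (F j)) * φ (S ∩ ⋂ j, sat (F j)) := by
  induction m generalizing S with
  | zero => simp
  | succ m ih =>
    rw [pow_succ']
    rw [Module.End.mul_apply, TT_apply]
    simp only [ih]
    rw [← (Fin.consEquiv (fun _ : Fin (m + 1) => C)).sum_comp]
    rw [Fintype.sum_prod_type]
    refine Finset.sum_congr rfl fun c _ => ?_
    rw [Finset.mul_sum]
    refine Finset.sum_congr rfl fun F _ => ?_
    simp only [Fin.consEquiv_apply, Fin.prod_univ_succ, Fin.cons_zero, Fin.cons_succ]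
    have : (S ∩ ⋂ j, sat ((Fin.cons c F : Fin (m + 1) → C) j)) = (S ∩ sat c) ∩ ⋂ j, sat (F j) := by
      ext x
      simp only [Set.mem_inter_iff, Set.mem_iInter, Fin.forall_fin_succ, Fin.cons_zero,
        Fin.cons_succ]
      tauto
    rw [this]
    ring

end Crest.Agent.R153.Wr
end

-- ▼ part R153/InterpWr
section

/-!
Interpolation (B1): literals with repetition.
-/

set_option autoImplicit false
set_option linter.unusedVariables false

namespace Crest.Agent.R153.Wr

open Finset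

section Gen

variable {X L : Type*}

/-- the set of points satisfying the clause `c` -/
def satL (tr : L → Set X) (k : ℕ) (c : Fin k → L) : Set X := ⋃ i, tr (c i)

/-- add one clause of `k` i.i.d. uniform literals -/
noncomputable def UU [Fintype L] (tr : L → Set X) (k : ℕ) : Module.End ℝ (Set X → ℝ) :=
  TT (satL tr k) (fun _ => 1 / (Fintype.card L : ℝ) ^ k)

theorem UU_mono [Fintype L] (tr : L → Set X) (k : ℕ) : MonoOp (UU tr k) :=
  TT_mono _ _ fun _ => by positivity

/-- fraction of frozen literals -/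
noncomputable def frz [Fintype L] (tr : L → Set X) (S : Set X) : ℕ := by
  classical exact (Finset.univ.filter fun l : L => ¬ (S ∩ tr l).Nonempty).card

theorem UU_φ0 [Fintype L] (tr : L → Set X) (k : ℕ) (hL : 0 < Fintype.card L) (S : Set X)
    (hS : S.Nonempty) :
    UU tr k φ0 S = 1 - ((frz tr S : ℝ) / (Fintype.card L : ℝ)) ^ k := by
  classical
  unfold UU
  rw [TT_apply, ← Finset.mul_sum]
  have h1 : ∀ c : Fin k → L, φ0 (S ∩ satL tr k c) =
      1 - if (∀ i, c i ∈ Finset.univ.filter fun l : L => ¬ (S ∩ tr l).Nonempty) then (1:ℝ) else 0 := by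
    intro c
    by_cases h : (S ∩ satL tr k c).Nonempty
    · rw [φ0_of_nonempty h, if_neg]
      · norm_num
      · intro hall
        obtain ⟨x, hxS, hx⟩ := h
        obtain ⟨i, hi⟩ := Set.mem_iUnion.1 hx
        have := hall i
        rw [Finset.mem_filter] at this
        exact this.2 ⟨x, hxS, hi⟩
    · rw [φ0_of_empty h, if_pos]
      · norm_num
      · intro i
        rw [Finset.mem_filter]
        refine ⟨Finset.mem_univ _, fun ⟨x, hxS, hx⟩ => h ⟨x, hxS, Set.mem_iUnion.2 ⟨i, hx⟩⟩⟩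
  rw [Finset.sum_congr rfl fun c _ => h1 c]
  rw [Finset.sum_sub_distrib]
  have h2 : (∑ c : Fin k → L, if (∀ i, c i ∈ Finset.univ.filter fun l : L => ¬ (S ∩ tr l).Nonempty)
      then (1:ℝ) else 0) = (frz tr S : ℝ) ^ k := by
    rw [Finset.sum_boole]
    have : (Finset.univ.filter fun c : Fin k → L =>
        ∀ i, c i ∈ Finset.univ.filter fun l : L => ¬ (S ∩ tr l).Nonempty) =
        Fintype.piFinset fun _ : Fin k => Finset.univ.filter fun l : L => ¬ (S ∩ tr l).Nonempty := by
      ext c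
      simp [Fintype.mem_piFinset]
    rw [this, Fintype.card_piFinset]
    simp [frz]
  rw [h2]
  have hL' : (Fintype.card L : ℝ) ≠ 0 := by positivity
  simp only [Finset.sum_const, Finset.card_univ, nsmul_eq_mul, mul_one]
  rw [Fintype.card_fun, Fintype.card_fin]
  push_cast
  rw [div_pow]
  field_simp

theorem UU_φ0_empty [Fintype L] (tr : L → Set X) (k : ℕ) (S : Set X)
    (hS : ¬ S.Nonempty) : UU tr k φ0 S = 0 := by
  unfold UU
  rw [TT_apply]
  refine Finset.sum_eq_zero fun c _ => ?_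
  rw [φ0_of_empty (fun h => hS (h.mono Set.inter_subset_left)), mul_zero]


end Gen

section Two

variable {X L₁ L₂ : Type*} [Fintype L₁] [Fintype L₂]

theorem frz_sum (tr₁ : L₁ → Set X) (tr₂ : L₂ → Set X) (S : Set X) :
    frz (Sum.elim tr₁ tr₂) S = frz tr₁ S + frz tr₂ S := by
  classical
  unfold frz
  rw [Finset.card_filter, Finset.card_filter, Finset.card_filter, Fintype.sum_sum_type]
  simp only [Sum.elim_inl, Sum.elim_inr]
  congr

/-- the key convexity inequality -/
theorem UU_local_le (tr₁ : L₁ → Set X) (tr₂ : L₂ → Set X) (k : ℕ) (h1 : 0 < Fintype.card L₁)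
    (h2 : 0 < Fintype.card L₂) (a b : ℝ)
    (ha : a = (Fintype.card L₁ : ℝ) / ((Fintype.card L₁ : ℝ) + Fintype.card L₂))
    (hb : b = (Fintype.card L₂ : ℝ) / ((Fintype.card L₁ : ℝ) + Fintype.card L₂)) :
    (a • UU tr₁ k + b • UU tr₂ k) φ0 ≤ UU (Sum.elim tr₁ tr₂) k φ0 := by
  intro S
  have h1' : (0:ℝ) < Fintype.card L₁ := by exact_mod_cast h1
  have h2' : (0:ℝ) < Fintype.card L₂ := by exact_mod_cast h2
  have hab : a + b = 1 := by rw [ha, hb]; field_simp
  have ha0 : 0 ≤ a := by rw [ha]; positivity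
  have hb0 : 0 ≤ b := by rw [hb]; positivity
  simp only [LinearMap.add_apply, LinearMap.smul_apply, Pi.add_apply, Pi.smul_apply, smul_eq_mul]
  by_cases hS : S.Nonempty
  · rw [UU_φ0 _ _ h1 _ hS, UU_φ0 _ _ h2 _ hS, UU_φ0 _ _ (by rw [Fintype.card_sum]; omega) _ hS,
      frz_sum, Fintype.card_sum]
    push_cast
    set x := (frz tr₁ S : ℝ) / Fintype.card L₁ with hx
    set y := (frz tr₂ S : ℝ) / Fintype.card L₂ with hy
    have hx0 : 0 ≤ x := by positivity
    have hy0 : 0 ≤ y := by positivity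
    have hmid : ((frz tr₁ S : ℝ) + frz tr₂ S) / ((Fintype.card L₁ : ℝ) + Fintype.card L₂)
        = a * x + b * y := by
      rw [ha, hb, hx, hy]; field_simp
    rw [hmid]
    have hconv : (a * x + b * y) ^ k ≤ a * x ^ k + b * y ^ k := by
      have := (convexOn_pow k).2 (Set.mem_Ici.2 hx0) (Set.mem_Ici.2 hy0) ha0 hb0 hab
      simpa [smul_eq_mul] using this
    nlinarith [hconv, hab]
  · rw [UU_φ0_empty _ _ _ hS, UU_φ0_empty _ _ _ hS, UU_φ0_empty _ _ _ hS]
    simp

end Two

section Prod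

variable {X₁ X₂ L₁ L₂ : Type*} [Fintype L₁] [Fintype L₂]

theorem φ0_prod (S₁ : Set X₁) (S₂ : Set X₂) : φ0 (S₁ ×ˢ S₂) = φ0 S₁ * φ0 S₂ := by
  by_cases h1 : S₁.Nonempty
  · by_cases h2 : S₂.Nonempty
    · rw [φ0_of_nonempty h1, φ0_of_nonempty h2, φ0_of_nonempty (h1.prod h2)]; norm_num
    · rw [φ0_of_empty h2, φ0_of_empty (fun h => h2 (Set.prod_nonempty_iff.1 h).2)]; ring
  · rw [φ0_of_empty h1, φ0_of_empty (fun h => h1 (Set.prod_nonempty_iff.1 h).1)]; ring

/-- lift of the truth sets to a product -/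
def trL (tr₁ : L₁ → Set X₁) : L₁ → Set (X₁ × X₂) := fun l => Prod.fst ⁻¹' tr₁ l
def trR (tr₂ : L₂ → Set X₂) : L₂ → Set (X₁ × X₂) := fun l => Prod.snd ⁻¹' tr₂ l

theorem UU_prod (tr₁ : L₁ → Set X₁) (tr₂ : L₂ → Set X₂) (k : ℕ) (i j : ℕ) (S₁ : Set X₁)
    (S₂ : Set X₂) :
    ((UU (trL (X₂ := X₂) tr₁) k) ^ i * (UU (trR (X₁ := X₁) tr₂) k) ^ j) φ0 (S₁ ×ˢ S₂) =
      ((UU tr₁ k) ^ i) φ0 S₁ * ((UU tr₂ k) ^ j) φ0 S₂ := by
  classical
  rw [Module.End.mul_apply]
  unfold UU
  rw [TT_pow_apply]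
  simp only [TT_pow_apply]
  rw [Finset.sum_mul_sum]
  refine Finset.sum_congr rfl fun F _ => ?_
  rw [Finset.mul_sum]
  refine Finset.sum_congr rfl fun G _ => ?_
  have : (S₁ ×ˢ S₂ ∩ ⋂ j, satL (trL (X₂ := X₂) tr₁) k (F j)) ∩ ⋂ j, satL (trR (X₁ := X₁) tr₂) k (G j)
      = (S₁ ∩ ⋂ j, satL tr₁ k (F j)) ×ˢ (S₂ ∩ ⋂ j, satL tr₂ k (G j)) := by
    ext ⟨x, y⟩
    simp only [satL, trL, trR, Set.mem_inter_iff, Set.mem_prod, Set.mem_iInter, Set.mem_iUnion,
      Set.mem_preimage]
    tauto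
  rw [this, φ0_prod]
  ring

/-- the value of the satisfiability functional -/
noncomputable def val {X L : Type*} [Fintype L] (tr : L → Set X) (k m : ℕ) : ℝ :=
  ((UU tr k) ^ m) φ0 Set.univ

theorem val_superadd (tr₁ : L₁ → Set X₁) (tr₂ : L₂ → Set X₂) (k m : ℕ)
    (h1 : 0 < Fintype.card L₁) (h2 : 0 < Fintype.card L₂) (a b : ℝ)
    (ha : a = (Fintype.card L₁ : ℝ) / ((Fintype.card L₁ : ℝ) + Fintype.card L₂))
    (hb : b = (Fintype.card L₂ : ℝ) / ((Fintype.card L₁ : ℝ) + Fintype.card L₂)) :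
    ∑ p ∈ Finset.HasAntidiagonal.antidiagonal m, (m.choose p.1 : ℝ) * a ^ p.1 * b ^ p.2 *
        (val tr₁ k p.1 * val tr₂ k p.2) ≤
      val (Sum.elim (trL (X₂ := X₂) tr₁) (trR (X₁ := X₁) tr₂)) k m := by
  have ha0 : 0 ≤ a := by rw [ha]; positivity
  have hb0 : 0 ≤ b := by rw [hb]; positivity
  set A := UU (Sum.elim (trL (X₂ := X₂) tr₁) (trR (X₁ := X₁) tr₂)) k with hA
  set B₁ := UU (trL (X₂ := X₂) tr₁) k with hB₁
  set B₂ := UU (trR (X₁ := X₁) tr₂) k with hB₂
  have hc12 : Commute B₁ B₂ := TT_comm _ _ _ _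
  have hcA1 : Commute A B₁ := TT_comm _ _ _ _
  have hcA2 : Commute A B₂ := TT_comm _ _ _ _
  have hle : (a • B₁ + b • B₂) φ0 ≤ A φ0 := UU_local_le _ _ k h1 h2 a b ha hb
  have hmonoB : MonoOp (a • B₁ + b • B₂) :=
    ((UU_mono _ _).smul ha0).add ((UU_mono _ _).smul hb0)
  have hcomm : Commute A (a • B₁ + b • B₂) := (hcA1.smul_right a).add_right (hcA2.smul_right b)
  have hpow := pow_le_pow_of_comm (UU_mono _ _) hmonoB hcomm hle m Set.univ
  unfold val
  refine le_trans (le_of_eq ?_) hpow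
  have hcomm' : Commute (a • B₁) (b • B₂) := (hc12.smul_left a).smul_right b
  rw [hcomm'.add_pow']
  rw [LinearMap.sum_apply, Finset.sum_apply]
  refine Finset.sum_congr rfl fun p _ => ?_
  rw [LinearMap.smul_apply]
  rw [smul_pow, smul_pow, smul_mul_smul_comm]
  rw [LinearMap.smul_apply, Pi.smul_apply, Pi.smul_apply, ← Set.univ_prod_univ, UU_prod]
  simp only [nsmul_eq_mul, smul_eq_mul]
  ring

end Prod

end Crest.Agent.R153.Wr
end

-- ▼ part R153/InterpFin
section

/-!
Interpolation (B1) on `Fin n`, Poisson form, and transfer (B2) to distinct variables.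
-/

set_option autoImplicit false
set_option linter.unusedVariables false

namespace Crest.Agent.R153.Wr

open Finset Crest.ProbabilityR.RandomSAT

/-- clause with `k` literals, repetitions allowed -/
abbrev WClause (k : ℕ) (V : Type*) : Type _ := Fin k → V × Bool

/-- the formula `F` of with-repetition clauses is satisfiable -/
def WSatisfiable {k : ℕ} {V : Type*} {m : ℕ} (F : Fin m → WClause k V) : Prop :=
  ∃ σ : V → Bool, ∀ j, ∃ i, σ (F j i).1 = (F j i).2

noncomputable def satWr (k n m : ℕ) : ℝ :=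
  Crest.FinProb.uniformProb {F : Fin m → WClause k (Fin n) | WSatisfiable F}

/-- truth set of a literal -/
def litTr {V : Type*} (l : V × Bool) : Set (V → Bool) := {σ | σ l.1 = l.2}

theorem val_eq {X L : Type*} [Fintype L] (tr : L → Set X) (k m : ℕ) :
    val tr k m = ∑ F : Fin m → (Fin k → L), (1 / (Fintype.card L : ℝ) ^ k) ^ m *
      φ0 (⋂ j, satL tr k (F j)) := by
  classical
  unfold val UU
  rw [TT_pow_apply]
  refine Finset.sum_congr rfl fun F _ => ?_
  rw [Finset.prod_const, Finset.card_univ, Fintype.card_fin, Set.univ_inter]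

theorem val_congr {X X' L L' : Type*} [Fintype L] [Fintype L'] (tr : L → Set X)
    (tr' : L' → Set X') (eX : X ≃ X') (eL : L ≃ L')
    (h : ∀ l x, x ∈ tr l ↔ eX x ∈ tr' (eL l)) (k m : ℕ) : val tr k m = val tr' k m := by
  classical
  rw [val_eq, val_eq]
  rw [← (Equiv.arrowCongr (Equiv.refl (Fin m)) (Equiv.arrowCongr (Equiv.refl (Fin k)) eL)).sum_comp]
  refine Finset.sum_congr rfl fun F _ => ?_
  rw [Fintype.card_congr eL]
  congr 1
  have hiff : (⋂ j, satL tr k (F j)).Nonempty ↔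
      (⋂ j, satL tr' k ((Equiv.arrowCongr (Equiv.refl (Fin m))
        (Equiv.arrowCongr (Equiv.refl (Fin k)) eL)) F j)).Nonempty := by
    constructor
    · rintro ⟨x, hx⟩
      refine ⟨eX x, ?_⟩
      simp only [Set.mem_iInter, satL, Set.mem_iUnion] at hx ⊢
      intro j
      obtain ⟨i, hi⟩ := hx j
      exact ⟨i, (h _ _).1 hi⟩
    · rintro ⟨x, hx⟩
      refine ⟨eX.symm x, ?_⟩
      simp only [Set.mem_iInter, satL, Set.mem_iUnion] at hx ⊢
      intro j
      obtain ⟨i, hi⟩ := hx j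
      refine ⟨i, (h _ _).2 ?_⟩
      rw [Equiv.apply_symm_apply]
      exact hi
  by_cases h1 : (⋂ j, satL tr k (F j)).Nonempty
  · rw [φ0_of_nonempty h1, φ0_of_nonempty (hiff.1 h1)]
  · rw [φ0_of_empty h1, φ0_of_empty (fun h2 => h1 (hiff.2 h2))]

theorem satWr_eq_val (k n m : ℕ) : satWr k n m = val (litTr (V := Fin n)) k m := by
  classical
  rw [val_eq, ← Finset.mul_sum]
  unfold satWr Crest.FinProb.uniformProb
  have h1 : ∀ F : Fin m → WClause k (Fin n), φ0 (⋂ j, satL (litTr (V := Fin n)) k (F j)) =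
      if WSatisfiable F then 1 else 0 := by
    intro F
    have : (⋂ j, satL (litTr (V := Fin n)) k (F j)).Nonempty ↔ WSatisfiable F := by
      unfold WSatisfiable
      constructor
      · rintro ⟨σ, hσ⟩
        refine ⟨σ, fun j => ?_⟩
        have := Set.mem_iInter.1 hσ j
        obtain ⟨i, hi⟩ := Set.mem_iUnion.1 this
        exact ⟨i, hi⟩
      · rintro ⟨σ, hσ⟩
        refine ⟨σ, Set.mem_iInter.2 fun j => Set.mem_iUnion.2 ?_⟩
        obtain ⟨i, hi⟩ := hσ j
        exact ⟨i, hi⟩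
    by_cases h : WSatisfiable F
    · rw [φ0_of_nonempty (this.2 h), if_pos h]
    · rw [φ0_of_empty (fun h' => h (this.1 h')), if_neg h]
  rw [Finset.sum_congr rfl fun F _ => h1 F]
  rw [Finset.sum_boole]
  simp only [Set.mem_ofPred_eq, Fintype.card_fun, Fintype.card_fin, Fintype.card_prod,
    Fintype.card_bool]
  push_cast
  rw [one_div, inv_pow, div_eq_inv_mul]

theorem satWr_superadd (k n₁ n₂ m : ℕ) (h1 : 0 < n₁) (h2 : 0 < n₂) :
    ∑ p ∈ Finset.HasAntidiagonal.antidiagonal m, (m.choose p.1 : ℝ) *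
        ((n₁ : ℝ) / ((n₁ : ℝ) + n₂)) ^ p.1 * ((n₂ : ℝ) / ((n₁ : ℝ) + n₂)) ^ p.2 *
        (satWr k n₁ p.1 * satWr k n₂ p.2) ≤ satWr k (n₁ + n₂) m := by
  have key := val_superadd (litTr (V := Fin n₁)) (litTr (V := Fin n₂)) k m
    (by simp; omega) (by simp; omega) ((n₁ : ℝ) / ((n₁ : ℝ) + n₂)) ((n₂ : ℝ) / ((n₁ : ℝ) + n₂))
    (by
      simp only [Fintype.card_prod, Fintype.card_fin, Fintype.card_bool]
      push_cast
      have : (0:ℝ) < n₁ := by exact_mod_cast h1
      have : (0:ℝ) < n₂ := by exact_mod_cast h2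
      field_simp)
    (by
      simp only [Fintype.card_prod, Fintype.card_fin, Fintype.card_bool]
      push_cast
      have : (0:ℝ) < n₁ := by exact_mod_cast h1
      have : (0:ℝ) < n₂ := by exact_mod_cast h2
      field_simp)
  have hval : val (Sum.elim (trL (X₂ := Fin n₂ → Bool) (litTr (V := Fin n₁)))
      (trR (X₁ := Fin n₁ → Bool) (litTr (V := Fin n₂)))) k m = val (litTr (V := Fin (n₁ + n₂))) k m := by
    symm
    refine val_congr _ _ (((Equiv.arrowCongr finSumFinEquiv.symm (Equiv.refl Bool)).trans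
      (Equiv.sumArrowEquivProdArrow _ _ _)))
      ((finSumFinEquiv.symm.prodCongr (Equiv.refl Bool)).trans (Equiv.sumProdDistrib _ _ _)) ?_ k m
    rintro ⟨v, b⟩ σ
    induction v using Fin.addCases with
    | left v =>
      simp [litTr, trL, Equiv.sumArrowEquivProdArrow, Equiv.sumProdDistrib]
    | right v =>
      simp [litTr, trR, Equiv.sumArrowEquivProdArrow, Equiv.sumProdDistrib]
  rw [hval] at key
  simpa only [satWr_eq_val] using key

/-! ### basic facts -/

theorem satWr_nonneg (k n m : ℕ) : 0 ≤ satWr k n m := by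
  unfold satWr Crest.FinProb.uniformProb
  positivity

theorem satWr_le_one (k n m : ℕ) : satWr k n m ≤ 1 := by
  classical
  unfold satWr Crest.FinProb.uniformProb
  refine div_le_one_of_le₀ ?_ (by positivity)
  exact_mod_cast Finset.card_le_univ _

theorem TT_φ0_le {X C : Type*} [Fintype C] (sat : C → Set X) (w : C → ℝ) (hw : ∀ c, 0 ≤ w c)
    {q : ℝ} (hq : ∑ c, w c ≤ q) : TT sat w φ0 ≤ q • (φ0 : Set X → ℝ) := by
  intro S
  rw [TT_apply, Pi.smul_apply, smul_eq_mul]
  calc ∑ c, w c * φ0 (S ∩ sat c) ≤ ∑ c, w c * φ0 S :=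
        Finset.sum_le_sum fun c _ => mul_le_mul_of_nonneg_left (φ0_mono Set.inter_subset_left) (hw c)
    _ = (∑ c, w c) * φ0 S := by rw [Finset.sum_mul]
    _ ≤ q * φ0 S := mul_le_mul_of_nonneg_right hq (φ0_nonneg _)

theorem sum_unif_le_one (C : Type*) [Fintype C] : ∑ _c : C, (1 / (Fintype.card C : ℝ)) ≤ 1 := by
  simp only [Finset.sum_const, Finset.card_univ, nsmul_eq_mul]
  rcases Nat.eq_zero_or_pos (Fintype.card C) with h | h
  · simp [h]
  · have : (0:ℝ) < Fintype.card C := by exact_mod_cast h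
    rw [mul_one_div_cancel this.ne']

theorem UU_φ0_le {X L : Type*} [Fintype L] (tr : L → Set X) (k : ℕ) :
    UU tr k φ0 ≤ (φ0 : Set X → ℝ) := by
  classical
  have h := TT_φ0_le (satL tr k) (fun _ => 1 / (Fintype.card L : ℝ) ^ k) (fun _ => by positivity)
    (q := 1) (by
      have := sum_unif_le_one (Fin k → L)
      rw [Fintype.card_fun, Fintype.card_fin] at this
      push_cast at this
      exact this)
  rw [one_smul] at h
  exact h

theorem pow_φ0_antitone {X : Type*} {A : Module.End ℝ (Set X → ℝ)} (hA : MonoOp A)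
    (h : A φ0 ≤ (φ0 : Set X → ℝ)) (m : ℕ) : (A ^ (m + 1)) φ0 ≤ (A ^ m) φ0 := by
  rw [pow_succ, Module.End.mul_apply]
  exact (hA.pow m) _ _ h

theorem satWr_antitone (k n : ℕ) : Antitone (satWr k n) := by
  refine antitone_nat_of_succ_le fun m => ?_
  rw [satWr_eq_val, satWr_eq_val]
  exact pow_φ0_antitone (UU_mono _ _) (UU_φ0_le _ _) m Set.univ

theorem satWr_zero (k n : ℕ) : satWr k n 0 = 1 := by
  rw [satWr_eq_val]
  unfold val
  rw [pow_zero]
  exact φ0_of_nonempty ⟨fun _ => true, trivial⟩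

end Crest.Agent.R153.Wr
end

-- ▼ part R153/InterpPoi
section

/-!
Poissonised sequences.
-/

set_option autoImplicit false
set_option linter.unusedVariables false

namespace Crest.Agent.R153.Wr

open Finset

/-- Poisson weight -/
noncomputable def pw (lam : ℝ) (m : ℕ) : ℝ := Real.exp (-lam) * lam ^ m / (m.factorial : ℝ)

theorem pw_nonneg {lam : ℝ} (h : 0 ≤ lam) (m : ℕ) : 0 ≤ pw lam m := by unfold pw; positivity

theorem pw_hasSum (lam : ℝ) : HasSum (pw lam) 1 := by
  have h := NormedSpace.expSeries_div_hasSum_exp (𝔸 := ℝ) lam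
  have h2 := h.mul_left (Real.exp (-lam))
  rw [← Real.exp_eq_exp_ℝ, ← Real.exp_add, neg_add_cancel, Real.exp_zero] at h2
  have h3 : pw lam = fun n => Real.exp (-lam) * (lam ^ n / (n.factorial : ℝ)) := by
    funext n
    unfold pw
    ring
  rw [h3]
  exact h2

theorem pw_summable (lam : ℝ) : Summable (pw lam) := (pw_hasSum lam).summable

theorem pw_tsum (lam : ℝ) : ∑' m, pw lam m = 1 := (pw_hasSum lam).tsum_eq

/-- Poisson average of the sequence `a`. -/
noncomputable def poi (a : ℕ → ℝ) (lam : ℝ) : ℝ := ∑' m, pw lam m * a m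

theorem pw_mul_summable {lam : ℝ} (h : 0 ≤ lam) {a : ℕ → ℝ} (ha0 : ∀ m, 0 ≤ a m)
    (ha1 : ∀ m, a m ≤ 1) : Summable fun m => pw lam m * a m := by
  refine Summable.of_nonneg_of_le (fun m => mul_nonneg (pw_nonneg h m) (ha0 m)) (fun m => ?_)
    (pw_summable lam)
  exact mul_le_of_le_one_right (pw_nonneg h m) (ha1 m)

theorem poi_nonneg {lam : ℝ} (h : 0 ≤ lam) {a : ℕ → ℝ} (ha0 : ∀ m, 0 ≤ a m) : 0 ≤ poi a lam :=
  tsum_nonneg fun m => mul_nonneg (pw_nonneg h m) (ha0 m)


theorem pw_mul_pw {l₁ l₂ : ℝ} (h : l₁ + l₂ ≠ 0) (i j : ℕ) :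
    pw l₁ i * pw l₂ j = pw (l₁ + l₂) (i + j) *
      (((i + j).choose i : ℝ) * (l₁ / (l₁ + l₂)) ^ i * (l₂ / (l₁ + l₂)) ^ j) := by
  unfold pw
  have hf : ((i + j).choose i : ℝ) = ((i + j).factorial : ℝ) / ((i.factorial : ℝ) * j.factorial) := by
    rw [Nat.cast_add_choose]
  rw [hf]
  have h1 : (i.factorial : ℝ) ≠ 0 := by positivity
  have h2 : (j.factorial : ℝ) ≠ 0 := by positivity
  have h3 : ((i + j).factorial : ℝ) ≠ 0 := by positivity
  rw [neg_add, Real.exp_add, pow_add, div_pow, div_pow]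
  field_simp

/-- product of Poisson averages as a double series along antidiagonals. -/
theorem poi_mul {l₁ l₂ : ℝ} (h1 : 0 ≤ l₁) (h2 : 0 ≤ l₂) {a b : ℕ → ℝ}
    (ha0 : ∀ m, 0 ≤ a m) (ha1 : ∀ m, a m ≤ 1) (hb0 : ∀ m, 0 ≤ b m) (hb1 : ∀ m, b m ≤ 1) :
    HasSum (fun m => ∑ p ∈ Finset.HasAntidiagonal.antidiagonal m,
      (pw l₁ p.1 * a p.1) * (pw l₂ p.2 * b p.2)) (poi a l₁ * poi b l₂) := by
  have hsa := pw_mul_summable h1 ha0 ha1
  have hsb := pw_mul_summable h2 hb0 hb1
  have hna : Summable fun m => ‖pw l₁ m * a m‖ := hsa.norm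
  have hnb : Summable fun m => ‖pw l₂ m * b m‖ := hsb.norm
  have hs := summable_norm_sum_mul_antidiagonal_of_summable_norm hna hnb
  have ht := tsum_mul_tsum_eq_tsum_sum_antidiagonal_of_summable_norm hna hnb
  unfold poi
  rw [ht]
  exact hs.of_norm.hasSum

theorem poi_mul_le {l₁ l₂ : ℝ} (h1 : 0 < l₁) (h2 : 0 < l₂) {a b s : ℕ → ℝ}
    (ha0 : ∀ m, 0 ≤ a m) (ha1 : ∀ m, a m ≤ 1) (hb0 : ∀ m, 0 ≤ b m) (hb1 : ∀ m, b m ≤ 1)
    (hs0 : ∀ m, 0 ≤ s m) (hs1 : ∀ m, s m ≤ 1)
    (h : ∀ m, ∑ p ∈ Finset.HasAntidiagonal.antidiagonal m, (m.choose p.1 : ℝ) *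
        (l₁ / (l₁ + l₂)) ^ p.1 * (l₂ / (l₁ + l₂)) ^ p.2 * (a p.1 * b p.2) ≤ s m) :
    poi a l₁ * poi b l₂ ≤ poi s (l₁ + l₂) := by
  refine hasSum_le ?_ (poi_mul h1.le h2.le ha0 ha1 hb0 hb1)
    (pw_mul_summable (by positivity) hs0 hs1).hasSum
  intro m
  have : ∑ p ∈ Finset.HasAntidiagonal.antidiagonal m, (pw l₁ p.1 * a p.1) * (pw l₂ p.2 * b p.2) =
      pw (l₁ + l₂) m * ∑ p ∈ Finset.HasAntidiagonal.antidiagonal m, (m.choose p.1 : ℝ) *
        (l₁ / (l₁ + l₂)) ^ p.1 * (l₂ / (l₁ + l₂)) ^ p.2 * (a p.1 * b p.2) := by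
    rw [Finset.mul_sum]
    refine Finset.sum_congr rfl fun p hp => ?_
    have hpm : p.1 + p.2 = m := Finset.HasAntidiagonal.mem_antidiagonal.1 hp
    have := pw_mul_pw (show l₁ + l₂ ≠ 0 by positivity) p.1 p.2
    rw [hpm] at this
    calc (pw l₁ p.1 * a p.1) * (pw l₂ p.2 * b p.2) = (pw l₁ p.1 * pw l₂ p.2) * (a p.1 * b p.2) := by
          ring
      _ = _ := by rw [this]; ring
  rw [this]
  exact mul_le_mul_of_nonneg_left (h m) (pw_nonneg (by positivity) m)

theorem poi_zero (a : ℕ → ℝ) : poi a 0 = a 0 := by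
  unfold poi
  rw [tsum_eq_single 0]
  · simp [pw]
  · intro m hm
    simp [pw, hm]


/-! ### the with-repetition model -/

noncomputable def poiWr (k n : ℕ) (lam : ℝ) : ℝ := poi (satWr k n) lam

theorem poiWr_nonneg (k n : ℕ) {lam : ℝ} (h : 0 ≤ lam) : 0 ≤ poiWr k n lam :=
  poi_nonneg h (satWr_nonneg k n)



theorem poiWr_mul (k n₁ n₂ : ℕ) (h1 : 0 < n₁) (h2 : 0 < n₂) {c : ℝ} (hc : 0 ≤ c) :
    poiWr k n₁ (c * n₁) * poiWr k n₂ (c * n₂) ≤ poiWr k (n₁ + n₂) (c * (n₁ + n₂)) := by
  have h1' : (0:ℝ) < n₁ := by exact_mod_cast h1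
  have h2' : (0:ℝ) < n₂ := by exact_mod_cast h2
  rcases eq_or_lt_of_le hc with h0 | h0
  · unfold poiWr
    rw [← h0]
    simp only [zero_mul, poi_zero, satWr_zero]
    norm_num
  unfold poiWr
  rw [mul_add]
  refine poi_mul_le (by positivity) (by positivity) (satWr_nonneg k n₁) (satWr_le_one k n₁)
    (satWr_nonneg k n₂) (satWr_le_one k n₂) (satWr_nonneg k _) (satWr_le_one k _) fun m => ?_
  have e1 : c * (n₁:ℝ) / (c * n₁ + c * n₂) = (n₁ : ℝ) / ((n₁ : ℝ) + n₂) := by
    rw [← mul_add, mul_div_mul_left _ _ h0.ne']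
  have e2 : c * (n₂:ℝ) / (c * n₁ + c * n₂) = (n₂ : ℝ) / ((n₁ : ℝ) + n₂) := by
    rw [← mul_add, mul_div_mul_left _ _ h0.ne']
  rw [e1, e2]
  exact satWr_superadd k n₁ n₂ m h1 h2


end Crest.Agent.R153.Wr
end

-- ▼ part R153/InterpDist
section

/-!
Transfer (B2) between the with-repetition model and the model with distinct variables.
-/

set_option autoImplicit false
set_option linter.unusedVariables false

namespace Crest.Agent.R153.Wr

open Finset Crest.ProbabilityR.RandomSAT

/-- the set of assignments satisfying a clause with distinct variables -/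
def satD (k n : ℕ) (c : Clause k n) : Set (Fin n → Bool) := {σ | ClauseSat σ c}

/-- add one uniform clause with distinct variables -/
noncomputable def DD (k n : ℕ) : Module.End ℝ (Set (Fin n → Bool) → ℝ) :=
  TT (satD k n) (fun _ => 1 / (Fintype.card (Clause k n) : ℝ))

theorem DD_mono (k n : ℕ) : MonoOp (DD k n) := TT_mono _ _ fun _ => by positivity

theorem DD_φ0_le (k n : ℕ) : DD k n φ0 ≤ φ0 := by
  have := TT_φ0_le (satD k n) (fun _ => 1 / (Fintype.card (Clause k n) : ℝ))
    (fun _ => by positivity) (q := 1) (sum_unif_le_one _)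
  rw [one_smul] at this
  exact this

theorem satProb_eq (k n m : ℕ) : satProb k n m = ((DD k n) ^ m) φ0 Set.univ := by
  classical
  unfold DD
  rw [TT_pow_apply]
  simp only [Finset.prod_const, Finset.card_univ, Fintype.card_fin, Set.univ_inter]
  rw [← Finset.mul_sum]
  unfold satProb Crest.FinProb.uniformProb
  have h1 : ∀ F : Fin m → Clause k n, φ0 (⋂ j, satD k n (F j)) =
      if Satisfiable F then 1 else 0 := by
    intro F
    have : (⋂ j, satD k n (F j)).Nonempty ↔ Satisfiable F := by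
      unfold Satisfiable
      constructor
      · rintro ⟨σ, hσ⟩
        exact ⟨σ, fun j => Set.mem_iInter.1 hσ j⟩
      · rintro ⟨σ, hσ⟩
        exact ⟨σ, Set.mem_iInter.2 fun j => hσ j⟩
    by_cases h : Satisfiable F
    · rw [φ0_of_nonempty (this.2 h), if_pos h]
    · rw [φ0_of_empty (fun h' => h (this.1 h')), if_neg h]
  rw [Finset.sum_congr rfl fun F _ => h1 F]
  rw [Finset.sum_boole]
  simp only [Set.mem_ofPred_eq]
  rw [Fintype.card_fun, Fintype.card_fin]
  push_cast
  rw [one_div, inv_pow, div_eq_inv_mul]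

theorem satProb_nonneg (k n m : ℕ) : 0 ≤ satProb k n m := by
  unfold satProb Crest.FinProb.uniformProb
  positivity

theorem satProb_le_one (k n m : ℕ) : satProb k n m ≤ 1 := by
  classical
  unfold satProb Crest.FinProb.uniformProb
  refine div_le_one_of_le₀ ?_ (by positivity)
  exact_mod_cast Finset.card_le_univ _

theorem satProb_antitone (k n : ℕ) : Antitone (satProb k n) := by
  refine antitone_nat_of_succ_le fun m => ?_
  rw [satProb_eq, satProb_eq]
  exact pow_φ0_antitone (DD_mono _ _) (DD_φ0_le _ _) m Set.univ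

theorem satProb_zero (k n : ℕ) : satProb k n 0 = 1 := by
  rw [satProb_eq, pow_zero]
  exact φ0_of_nonempty ⟨fun _ => true, trivial⟩

/-- probability that `k` uniform variables among `n` are distinct -/
noncomputable def qd (k n : ℕ) : ℝ := (n.descFactorial k : ℝ) / (n : ℝ) ^ k

/-- improper clauses -/
abbrev Impr (k n : ℕ) : Type := {c : WClause k (Fin n) // ¬ Function.Injective fun i => (c i).1}

noncomputable def RR (k n : ℕ) : Module.End ℝ (Set (Fin n → Bool) → ℝ) :=
  TT (fun c : Impr k n => satL litTr k c.1) (fun _ => 1 / (Fintype.card (Fin n × Bool) : ℝ) ^ k)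

theorem RR_mono (k n : ℕ) : MonoOp (RR k n) := TT_mono _ _ fun _ => by positivity

theorem card_clause (k n : ℕ) : Fintype.card (Clause k n) = n.descFactorial k * 2 ^ k := by
  classical
  rw [Fintype.card_prod, Fintype.card_fun, Fintype.card_bool, Fintype.card_fin]
  congr 1
  have : Fintype.card (Fin k ↪ Fin n) = n.descFactorial k := by
    rw [Fintype.card_embedding_eq, Fintype.card_fin, Fintype.card_fin]
  rw [← this]
  exact Fintype.card_congr (Equiv.subtypeInjectiveEquivEmbedding _ _)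

/-- splitting a with-repetition clause into the variable part and the sign part -/
def properEquiv (k n : ℕ) :
    {c : WClause k (Fin n) // Function.Injective fun i => (c i).1} ≃ Clause k n where
  toFun c := (⟨fun i => (c.1 i).1, c.2⟩, fun i => (c.1 i).2)
  invFun c := ⟨fun i => (c.1.1 i, c.2 i), c.1.2⟩
  left_inv c := by ext <;> rfl
  right_inv c := rfl

theorem satL_proper (k n : ℕ) (c : {c : WClause k (Fin n) // Function.Injective fun i => (c i).1}) :
    satL litTr k c.1 = satD k n (properEquiv k n c) := by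
  ext σ
  simp [satL, litTr, satD, ClauseSat, properEquiv]

theorem UU_split (k n : ℕ) (hn : k ≤ n) (hn0 : 0 < n) :
    UU (litTr (V := Fin n)) k = qd k n • DD k n + RR k n := by
  classical
  refine LinearMap.ext fun φ => ?_
  funext S
  simp only [LinearMap.add_apply, LinearMap.smul_apply, Pi.add_apply, Pi.smul_apply, smul_eq_mul]
  unfold UU RR DD
  rw [TT_apply, TT_apply, TT_apply]
  rw [← Fintype.sum_subtype_add_sum_subtype (fun c : WClause k (Fin n) =>
    Function.Injective fun i => (c i).1)]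
  congr 1
  rw [← (properEquiv k n).sum_comp, Finset.mul_sum]
  refine Finset.sum_congr rfl fun c _ => ?_
  rw [satL_proper, ← mul_assoc]
  congr 1
  rw [card_clause]
  unfold qd
  have h1 : (0:ℝ) < n.descFactorial k := by exact_mod_cast Nat.descFactorial_pos.2 hn
  have h2 : (0:ℝ) < n := by exact_mod_cast hn0
  simp only [Fintype.card_prod, Fintype.card_fin, Fintype.card_bool]
  push_cast
  rw [mul_pow]
  field_simp

theorem qd_nonneg (k n : ℕ) : 0 ≤ qd k n := by unfold qd; positivity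

theorem qd_le_one (k n : ℕ) : qd k n ≤ 1 := by
  unfold qd
  refine div_le_one_of_le₀ ?_ (by positivity)
  exact_mod_cast Nat.descFactorial_le_pow n k

theorem RR_φ0_le (k n : ℕ) (hn : k ≤ n) (hn0 : 0 < n) : RR k n φ0 ≤ (1 - qd k n) • φ0 := by
  classical
  refine TT_φ0_le _ _ (fun _ => by positivity) ?_
  -- total mass
  have hU := congrArg (fun f : Module.End ℝ (Set (Fin n → Bool) → ℝ) => f (fun _ => 1) Set.univ)
    (UU_split k n hn hn0)
  simp only [LinearMap.add_apply, LinearMap.smul_apply, Pi.add_apply, Pi.smul_apply,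
    smul_eq_mul] at hU
  unfold UU DD RR at hU
  rw [TT_apply, TT_apply, TT_apply] at hU
  simp only [mul_one] at hU
  have hL : (0:ℝ) < Fintype.card (Fin n × Bool) := by
    have : 0 < Fintype.card (Fin n × Bool) := by simp; omega
    exact_mod_cast this
  have e1 : ∑ _c : Fin k → Fin n × Bool, 1 / (Fintype.card (Fin n × Bool) : ℝ) ^ k = 1 := by
    rw [Finset.sum_const, Finset.card_univ, Fintype.card_fun, Fintype.card_fin, nsmul_eq_mul]
    push_cast
    rw [mul_one_div_cancel (by positivity)]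
  have hC : (0:ℝ) < Fintype.card (Clause k n) := by
    rw [card_clause]
    have : 0 < n.descFactorial k := Nat.descFactorial_pos.2 hn
    positivity
  have e2 : ∑ _c : Clause k n, 1 / (Fintype.card (Clause k n) : ℝ) = 1 := by
    rw [Finset.sum_const, Finset.card_univ, nsmul_eq_mul, mul_one_div_cancel hC.ne']
  rw [e1, e2] at hU
  linarith

/-- powers of `RR` on `φ0` -/
theorem RR_pow_le (k n : ℕ) (hn : k ≤ n) (hn0 : 0 < n) (m : ℕ) :
    ((RR k n) ^ m) φ0 ≤ (1 - qd k n) ^ m • φ0 := by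
  induction m with
  | zero => simp
  | succ m ih =>
    rw [pow_succ, Module.End.mul_apply]
    refine ((RR_mono k n).pow m _ _ (RR_φ0_le k n hn hn0)).trans ?_
    rw [map_smul, pow_succ', mul_smul]
    intro S
    rw [Pi.smul_apply, Pi.smul_apply, smul_eq_mul, smul_eq_mul]
    exact mul_le_mul_of_nonneg_left (ih S) (by linarith [qd_le_one k n])

/-- upper transfer, fixed number of clauses. -/
theorem satWr_le_sum (k n m : ℕ) (hn : k ≤ n) (hn0 : 0 < n) :
    satWr k n m ≤ ∑ p ∈ Finset.HasAntidiagonal.antidiagonal m, (m.choose p.1 : ℝ) *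
      (qd k n) ^ p.1 * (1 - qd k n) ^ p.2 * satProb k n p.1 := by
  rw [satWr_eq_val]
  unfold val
  rw [UU_split k n hn hn0]
  have hc : Commute (DD k n) (RR k n) := TT_comm _ _ _ _
  have hc' : Commute (qd k n • DD k n) (RR k n) := hc.smul_left _
  rw [hc'.add_pow', LinearMap.sum_apply, Finset.sum_apply]
  refine Finset.sum_le_sum fun p hp => ?_
  rw [LinearMap.smul_apply, Pi.smul_apply, nsmul_eq_mul, smul_pow, smul_mul_assoc,
    LinearMap.smul_apply, Pi.smul_apply, smul_eq_mul, Module.End.mul_apply]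
  have h1 := (DD_mono k n).pow p.1 _ _ (RR_pow_le k n hn hn0 p.2) Set.univ
  rw [map_smul, Pi.smul_apply, smul_eq_mul, ← satProb_eq] at h1
  calc (m.choose p.1 : ℝ) * (qd k n ^ p.1 * ((DD k n) ^ p.1) (((RR k n) ^ p.2) φ0) Set.univ)
      ≤ (m.choose p.1 : ℝ) * (qd k n ^ p.1 * ((1 - qd k n) ^ p.2 * satProb k n p.1)) := by
        have := qd_nonneg k n
        gcongr
    _ = _ := by ring

/-- lower transfer -/
theorem satWr_ge (k n m : ℕ) (hn : k ≤ n) (hn0 : 0 < n) :
    (qd k n) ^ m * satProb k n m ≤ satWr k n m := by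
  rw [satWr_eq_val]
  unfold val
  rw [UU_split k n hn hn0]
  have hc : Commute (DD k n) (RR k n) := TT_comm _ _ _ _
  have hle : (qd k n • DD k n) φ0 ≤ (qd k n • DD k n + RR k n) φ0 := by
    intro S
    rw [LinearMap.add_apply, Pi.add_apply]
    have := (RR_mono k n).nonneg (φ := φ0) (fun S => φ0_nonneg S) S
    simp only [Pi.zero_apply] at this
    linarith
  have hcomm : Commute (qd k n • DD k n + RR k n) (qd k n • DD k n) :=
    (Commute.refl _).add_left ((hc.smul_left _).symm)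
  have hm1 : MonoOp (qd k n • DD k n) := (DD_mono k n).smul (qd_nonneg k n)
  have hm2 : MonoOp (qd k n • DD k n + RR k n) := hm1.add (RR_mono k n)
  have := pow_le_pow_of_comm hm2 hm1 hcomm hle m Set.univ
  rw [smul_pow, LinearMap.smul_apply, Pi.smul_apply, smul_eq_mul, ← satProb_eq] at this
  exact this

/-- Poissonised satisfiability probability, distinct variables. -/
noncomputable def poiD (k n : ℕ) (lam : ℝ) : ℝ := poi (satProb k n) lam




/-- upper transfer, Poisson form: thinning. -/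
theorem poiWr_le_poiD (k n : ℕ) (hn : k ≤ n) (hn0 : 0 < n) {lam : ℝ} (h : 0 ≤ lam) :
    poiWr k n lam ≤ poiD k n (qd k n * lam) := by
  have hq0 := qd_nonneg k n
  have hq1 := qd_le_one k n
  rcases eq_or_lt_of_le h with h0 | h0
  · rw [← h0, mul_zero]
    unfold poiWr poiD
    rw [poi_zero, poi_zero, satWr_zero, satProb_zero]
  have key := poi_mul (l₁ := qd k n * lam) (l₂ := (1 - qd k n) * lam) (by positivity)
    (mul_nonneg (by linarith) h) (satProb_nonneg k n) (satProb_le_one k n) (b := fun _ => 1)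
    (fun _ => zero_le_one) (fun _ => le_refl _)
  have h1 : poi (fun _ => (1:ℝ)) ((1 - qd k n) * lam) = 1 := by
    unfold poi; simp only [mul_one]; exact pw_tsum _
  rw [h1, mul_one] at key
  refine hasSum_le ?_ (pw_mul_summable h (satWr_nonneg k n) (satWr_le_one k n)).hasSum key
  intro m
  have hsum : qd k n * lam + (1 - qd k n) * lam = lam := by ring
  calc pw lam m * satWr k n m ≤ pw lam m * ∑ p ∈ Finset.HasAntidiagonal.antidiagonal m,
        (m.choose p.1 : ℝ) * (qd k n) ^ p.1 * (1 - qd k n) ^ p.2 * satProb k n p.1 :=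
        mul_le_mul_of_nonneg_left (satWr_le_sum k n m hn hn0) (pw_nonneg h m)
    _ = ∑ p ∈ Finset.HasAntidiagonal.antidiagonal m,
        (pw (qd k n * lam) p.1 * satProb k n p.1) * (pw ((1 - qd k n) * lam) p.2 * 1) := by
        rw [Finset.mul_sum]
        refine Finset.sum_congr rfl fun p hp => ?_
        have hpm : p.1 + p.2 = m := Finset.HasAntidiagonal.mem_antidiagonal.1 hp
        have := pw_mul_pw (l₁ := qd k n * lam) (l₂ := (1 - qd k n) * lam)
          (by rw [hsum]; exact h0.ne') p.1 p.2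
        rw [hsum, hpm, mul_div_cancel_right₀ _ h0.ne', mul_div_cancel_right₀ _ h0.ne'] at this
        calc _ = (pw lam m * ((m.choose p.1 : ℝ) * qd k n ^ p.1 * (1 - qd k n) ^ p.2)) *
              satProb k n p.1 := by ring
          _ = _ := by rw [← this]; ring

end Crest.Agent.R153.Wr
end

-- ▼ part R153/CutTools

/-!
Tools for the left cut: Chebyshev inequalities for tail sequences and for Poisson weights,
first moment bound.
-/

set_option autoImplicit false
set_option linter.unusedVariables false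

namespace Crest.Agent.R153.Wr

open Finset Crest.ProbabilityR.RandomSAT

theorem hasSum_of_eq {f g : ℕ → ℝ} {s : ℝ} (h : HasSum g s) (e : ∀ j, f j = g j) :
    HasSum f s := by rwa [show f = g from funext e]

/-! ### summation by parts for antitone tail sequences -/

theorem parts_ge {P : ℕ → ℝ} (hP : Antitone P) (hP1 : P 0 ≤ 1) (u : ℕ → ℝ)
    (hu : ∀ j, 0 ≤ u j) (J : ℕ) :
    u J * P J ≤ u 0 + ∑ j ∈ Finset.range J, (u (j + 1) - u j) * P j := by
  induction J with
  | zero => simpa using mul_le_of_le_one_right (hu 0) hP1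
  | succ J ih =>
    rw [Finset.sum_range_succ]
    have h1 : u (J + 1) * P (J + 1) ≤ u (J + 1) * P J :=
      mul_le_mul_of_nonneg_left (hP (Nat.le_succ J)) (hu _)
    nlinarith

/-- Chebyshev, generic form -/
theorem parts_lim {P : ℕ → ℝ} (hP : Antitone P) (hP0 : ∀ m, 0 ≤ P m) (hP1 : P 0 ≤ 1) (u : ℕ → ℝ)
    (hu : ∀ j, 0 ≤ u j) {s : ℝ} (hs : HasSum (fun j => (u (j + 1) - u j) * P j) s) :
    0 ≤ u 0 + s := by
  have ht := hs.tendsto_sum_nat.const_add (u 0)
  refine ge_of_tendsto' ht fun J => ?_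
  exact le_trans (mul_nonneg (hu J) (hP0 J)) (parts_ge hP hP1 u hu J)

section Cheb

variable {P : ℕ → ℝ} (hP : Antitone P) (hP0 : ∀ m, 0 ≤ P m) (hP1 : P 0 ≤ 1)
  (hs1 : Summable P) (hs2 : Summable fun m : ℕ => (2 * (m : ℝ) + 1) * P m)

include hP hP0 hP1 hs1 hs2

theorem cheb_upper (m : ℕ) (hm : (∑' j, P j) ≤ m + 1) :
    P m * (m + 1 - ∑' j, P j) ^ 2 ≤ (∑' j : ℕ, (2 * (j : ℝ) + 1) * P j) - (∑' j, P j) ^ 2 := by
  set h := ∑' j, P j with hh
  set u : ℕ → ℝ := fun j => ((j : ℝ) - h) ^ 2 - (if m + 1 ≤ j then ((m : ℝ) + 1 - h) ^ 2 else 0)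
    with hu
  have hu0 : ∀ j, 0 ≤ u j := by
    intro j
    simp only [hu]
    split_ifs with hj
    · have : ((m : ℝ) + 1) ≤ j := by exact_mod_cast hj
      nlinarith
    · nlinarith [sq_nonneg ((j : ℝ) - h)]
  have hsum : HasSum (fun j => (u (j + 1) - u j) * P j)
      ((∑' j : ℕ, (2 * (j : ℝ) + 1) * P j) - 2 * h * h - ((m : ℝ) + 1 - h) ^ 2 * P m) := by
    have e1 := (hs2.hasSum.sub (hs1.hasSum.mul_left (2 * h))).sub
      (hasSum_ite_eq m (((m : ℝ) + 1 - h) ^ 2 * P m))
    refine hasSum_of_eq e1 fun j => ?_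
    simp only [hu]
    by_cases hjm : j = m
    · subst hjm
      simp only [le_refl, if_true]
      rw [if_neg (by omega)]
      push_cast
      ring
    · rw [if_neg hjm]
      by_cases h2 : m + 1 ≤ j
      · rw [if_pos (by omega), if_pos h2]; push_cast; ring
      · rw [if_neg (by omega), if_neg h2]; push_cast; ring
  have key := parts_lim hP hP0 hP1 u hu0 hsum
  have hu00 : u 0 = h ^ 2 := by
    simp [hu]
  rw [hu00] at key
  nlinarith

theorem cheb_lower (m : ℕ) (hm : (m : ℝ) ≤ ∑' j, P j) :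
    (1 - P m) * ((∑' j, P j) - m) ^ 2 ≤ (∑' j : ℕ, (2 * (j : ℝ) + 1) * P j) - (∑' j, P j) ^ 2 := by
  set h := ∑' j, P j with hh
  set u : ℕ → ℝ := fun j => ((j : ℝ) - h) ^ 2 - (if j ≤ m then (h - (m : ℝ)) ^ 2 else 0)
    with hu
  have hu0 : ∀ j, 0 ≤ u j := by
    intro j
    simp only [hu]
    split_ifs with hj
    · have : (j : ℝ) ≤ m := by exact_mod_cast hj
      nlinarith
    · nlinarith [sq_nonneg ((j : ℝ) - h)]
  have hsum : HasSum (fun j => (u (j + 1) - u j) * P j)
      ((∑' j : ℕ, (2 * (j : ℝ) + 1) * P j) - 2 * h * h + (h - (m : ℝ)) ^ 2 * P m) := by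
    have e1 := (hs2.hasSum.sub (hs1.hasSum.mul_left (2 * h))).add
      (hasSum_ite_eq m ((h - (m : ℝ)) ^ 2 * P m))
    refine hasSum_of_eq e1 fun j => ?_
    simp only [hu]
    by_cases hjm : j = m
    · subst hjm
      simp only [le_refl, if_true]
      rw [if_neg (by omega)]
      push_cast
      ring
    · rw [if_neg hjm]
      by_cases h2 : j ≤ m
      · rw [if_pos (by omega), if_pos h2]; push_cast; ring
      · rw [if_neg (by omega), if_neg h2]; push_cast; ring
  have key := parts_lim hP hP0 hP1 u hu0 hsum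
  have hu00 : u 0 = h ^ 2 - (h - m) ^ 2 := by
    simp [hu]
  rw [hu00] at key
  nlinarith

end Cheb

/-! ### Poisson moments -/

theorem pw_succ (lam : ℝ) (i : ℕ) : pw lam (i + 1) * ((i : ℝ) + 1) = lam * pw lam i := by
  unfold pw
  rw [Nat.factorial_succ, pow_succ]
  push_cast
  have h1 : (i.factorial : ℝ) ≠ 0 := by positivity
  have h2 : (i : ℝ) + 1 ≠ 0 := by positivity
  field_simp

theorem pw_moment_one (lam : ℝ) : HasSum (fun i : ℕ => pw lam i * (i : ℝ)) lam := by
  rw [← hasSum_nat_add_iff' 1]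
  simp only [Finset.sum_range_one, Nat.cast_zero, mul_zero, sub_zero]
  have := (pw_hasSum lam).mul_left lam
  rw [mul_one] at this
  refine hasSum_of_eq this fun i => ?_
  push_cast
  exact pw_succ lam i

theorem pw_moment_two (lam : ℝ) :
    HasSum (fun i : ℕ => pw lam i * ((i : ℝ) * (i - 1))) (lam ^ 2) := by
  rw [← hasSum_nat_add_iff' 1]
  simp only [Finset.sum_range_one, Nat.cast_zero, zero_mul, mul_zero, sub_zero]
  have := (pw_moment_one lam).mul_left lam
  rw [← pow_two] at this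
  refine hasSum_of_eq this fun i => ?_
  push_cast
  have := pw_succ lam i
  calc pw lam (i + 1) * (((i : ℝ) + 1) * ((i : ℝ) + 1 - 1)) =
        (pw lam (i + 1) * ((i : ℝ) + 1)) * i := by ring
    _ = _ := by rw [this]; ring

theorem pw_var (lam : ℝ) : HasSum (fun i : ℕ => pw lam i * ((i : ℝ) - lam) ^ 2) lam := by
  have h := ((pw_moment_two lam).add ((pw_moment_one lam).mul_left (1 - 2 * lam))).add
    ((pw_hasSum lam).mul_left (lam ^ 2))
  have e : lam ^ 2 + (1 - 2 * lam) * lam + lam ^ 2 * 1 = lam := by ring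
  rw [e] at h
  refine hasSum_of_eq h fun i => ?_
  ring

/-- Poisson mass above `m`. -/
theorem pw_range_ge {lam : ℝ} (h : 0 ≤ lam) (m : ℕ) {t : ℝ} (ht : 0 < t)
    (hm : lam + t ≤ m + 1) : 1 - lam / t ^ 2 ≤ ∑ i ∈ Finset.range (m + 1), pw lam i := by
  have h1 := (pw_hasSum lam)
  have h2 := (pw_var lam).div_const (t ^ 2)
  have h3 : HasSum (fun i : ℕ => if i ∈ Finset.range (m + 1) then pw lam i else 0)
      (∑ i ∈ Finset.range (m + 1), pw lam i) := by
    have h5 : HasSum (fun i : ℕ => if i ∈ Finset.range (m + 1) then pw lam i else 0)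
        (∑ i ∈ Finset.range (m + 1), if i ∈ Finset.range (m + 1) then pw lam i else 0) :=
      hasSum_sum_of_ne_finset_zero (fun b hb => if_neg hb)
    rwa [Finset.sum_congr rfl fun i hi => if_pos hi] at h5
  have h4 := h3.add h2
  have : (1:ℝ) ≤ (∑ i ∈ Finset.range (m + 1), pw lam i) + lam / t ^ 2 := by
    refine hasSum_le (fun i => ?_) h1 h4
    by_cases hi : i ∈ Finset.range (m + 1)
    · rw [if_pos hi]
      have := pw_nonneg h i
      have : 0 ≤ pw lam i * ((i : ℝ) - lam) ^ 2 / t ^ 2 := by positivity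
      linarith
    · rw [if_neg hi, zero_add]
      have hi' : m + 1 ≤ i := by simpa using hi
      have hi'' : (m : ℝ) + 1 ≤ i := by exact_mod_cast hi'
      rw [le_div_iff₀ (by positivity)]
      refine mul_le_mul_of_nonneg_left ?_ (pw_nonneg h i)
      nlinarith
  linarith

/-- Poisson mass below `m`. -/
theorem pw_range_le {lam : ℝ} (h : 0 ≤ lam) (m : ℕ) {t : ℝ} (ht : 0 < t)
    (hm : (m : ℝ) + t ≤ lam + 1) : ∑ i ∈ Finset.range m, pw lam i ≤ lam / t ^ 2 := by
  have h2 := (pw_var lam).div_const (t ^ 2)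
  have h5 : HasSum (fun i : ℕ => if i ∈ Finset.range m then pw lam i else 0)
      (∑ i ∈ Finset.range m, if i ∈ Finset.range m then pw lam i else 0) :=
    hasSum_sum_of_ne_finset_zero (fun b hb => if_neg hb)
  rw [Finset.sum_congr rfl fun i hi => if_pos hi] at h5
  refine hasSum_le (fun i => ?_) h5 h2
  by_cases hi : i ∈ Finset.range m
  · rw [if_pos hi]
    have hi' : i + 1 ≤ m := by simpa using hi
    have hi'' : (i : ℝ) + 1 ≤ m := by exact_mod_cast hi'
    rw [le_div_iff₀ (by positivity)]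
    refine mul_le_mul_of_nonneg_left ?_ (pw_nonneg h i)
    nlinarith
  · rw [if_neg hi]
    have := pw_nonneg h i
    positivity

/-- lower bound for Poisson averages of antitone sequences -/
theorem poi_ge {lam : ℝ} (h : 0 ≤ lam) {a : ℕ → ℝ} (ha0 : ∀ m, 0 ≤ a m) (ha1 : ∀ m, a m ≤ 1)
    (ha : Antitone a) (m : ℕ) {t : ℝ} (ht : 0 < t) (hm : lam + t ≤ m + 1) :
    (1 - lam / t ^ 2) * a m ≤ poi a lam := by
  have h1 : (∑ i ∈ Finset.range (m + 1), pw lam i) * a m ≤ poi a lam := by
    rw [Finset.sum_mul]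
    refine le_trans (Finset.sum_le_sum fun i hi => ?_)
      ((pw_mul_summable h ha0 ha1).sum_le_tsum (Finset.range (m + 1))
        (fun i _ => mul_nonneg (pw_nonneg h i) (ha0 i)))
    exact mul_le_mul_of_nonneg_left (ha (by simpa [Nat.lt_succ_iff] using hi)) (pw_nonneg h i)
  exact (mul_le_mul_of_nonneg_right (pw_range_ge h m ht hm) (ha0 m)).trans h1

/-- upper bound for Poisson averages of antitone sequences -/
theorem poi_le {lam : ℝ} (h : 0 ≤ lam) {a : ℕ → ℝ} (ha0 : ∀ m, 0 ≤ a m) (ha1 : ∀ m, a m ≤ 1)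
    (ha : Antitone a) (m : ℕ) {t : ℝ} (ht : 0 < t) (hm : (m : ℝ) + t ≤ lam + 1) :
    poi a lam ≤ lam / t ^ 2 + a m := by
  have h5 : HasSum (fun i : ℕ => if i ∈ Finset.range m then pw lam i else 0)
      (∑ i ∈ Finset.range m, if i ∈ Finset.range m then pw lam i else 0) :=
    hasSum_sum_of_ne_finset_zero (fun b hb => if_neg hb)
  rw [Finset.sum_congr rfl fun i hi => if_pos hi] at h5
  have h6 := h5.add ((pw_hasSum lam).mul_right (a m))
  have h7 : poi a lam ≤ (∑ i ∈ Finset.range m, pw lam i) + 1 * a m := by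
    refine hasSum_le (fun i => ?_) (pw_mul_summable h ha0 ha1).hasSum h6
    by_cases hi : i ∈ Finset.range m
    · rw [if_pos hi]
      have h8 := pw_nonneg h i
      have := mul_le_of_le_one_right h8 (ha1 i)
      have := mul_nonneg h8 (ha0 m)
      linarith
    · rw [if_neg hi, zero_add]
      exact mul_le_mul_of_nonneg_left (ha (by simpa using hi)) (pw_nonneg h i)
  have := pw_range_le h m ht hm
  linarith

/-! ### first moment bound -/

open Classical in
/-- number of points -/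
noncomputable def cnt {X : Type*} [Fintype X] (S : Set X) : ℝ :=
  ∑ σ : X, if σ ∈ S then (1:ℝ) else 0

theorem φ0_le_cnt {X : Type*} [Fintype X] (S : Set X) : φ0 S ≤ cnt S := by
  classical
  by_cases h : S.Nonempty
  · rw [φ0_of_nonempty h]
    obtain ⟨x, hx⟩ := h
    unfold cnt
    have : (if x ∈ S then (1:ℝ) else 0) ≤ ∑ σ : X, if σ ∈ S then (1:ℝ) else 0 :=
      Finset.single_le_sum (f := fun σ => if σ ∈ S then (1:ℝ) else 0)
        (fun σ _ => by positivity) (Finset.mem_univ x)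
    rw [if_pos hx] at this
    exact this
  · rw [φ0_of_empty h]
    unfold cnt; positivity

open Classical in
theorem clause_unsat_sum (k n : ℕ) (σ : Fin n → Bool) :
    ∑ c : Clause k n, (if ClauseSat σ c then (0:ℝ) else 1) =
      (Fintype.card {v : Fin k → Fin n // Function.Injective v} : ℝ) := by
  rw [Fintype.sum_prod_type]
  have h1 : ∀ v : {v : Fin k → Fin n // Function.Injective v},
      ∑ s : Fin k → Bool, (if ClauseSat σ ((v, s) : Clause k n) then (0:ℝ) else 1) = 1 := by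
    intro v
    rw [Finset.sum_eq_single (fun i => !σ (v.1 i))]
    · rw [if_neg]
      rintro ⟨i, hi⟩
      simp at hi
    · intro s _ hs
      rw [if_pos]
      by_contra hcon
      apply hs
      funext i
      have : ¬ σ (v.1 i) = s i := fun h => hcon ⟨i, h⟩
      cases h1 : σ (v.1 i) <;> cases h2 : s i <;> simp_all
    · intro h; exact absurd (Finset.mem_univ _) h
  rw [Finset.sum_congr rfl fun v _ => h1 v]
  simp

theorem DD_cnt (k n : ℕ) (hn : k ≤ n) :
    DD k n cnt = (1 - 1 / 2 ^ k : ℝ) • (cnt : Set (Fin n → Bool) → ℝ) := by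
  classical
  funext S
  rw [Pi.smul_apply, smul_eq_mul]
  unfold DD
  rw [TT_apply]
  unfold cnt
  simp only [Finset.mul_sum]
  rw [Finset.sum_comm]
  refine Finset.sum_congr rfl fun σ _ => ?_
  by_cases hσ : σ ∈ S
  · simp only [hσ, if_true, Set.mem_inter_iff, true_and, satD, Set.mem_ofPred_eq]
    have h1 : ∀ c : Clause k n, 1 / (Fintype.card (Clause k n) : ℝ) *
        (if ClauseSat σ c then (1:ℝ) else 0) = 1 / (Fintype.card (Clause k n) : ℝ) -
        1 / (Fintype.card (Clause k n) : ℝ) * (if ClauseSat σ c then (0:ℝ) else 1) := by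
      intro c; split_ifs <;> ring
    rw [Finset.sum_congr rfl fun c _ => h1 c, Finset.sum_sub_distrib, ← Finset.mul_sum,
      clause_unsat_sum]
    have hv : (0:ℝ) < Fintype.card {v : Fin k → Fin n // Function.Injective v} := by
      have h2 := card_clause k n
      rw [Fintype.card_prod, Fintype.card_fun, Fintype.card_bool, Fintype.card_fin] at h2
      have h3 : 0 < n.descFactorial k := Nat.descFactorial_pos.2 hn
      have : Fintype.card {v : Fin k → Fin n // Function.Injective v} = n.descFactorial k :=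
        Nat.eq_of_mul_eq_mul_right (by positivity) h2
      rw [this]; exact_mod_cast h3
    have hc : (Fintype.card (Clause k n) : ℝ) =
        Fintype.card {v : Fin k → Fin n // Function.Injective v} * 2 ^ k := by
      rw [Fintype.card_prod, Fintype.card_fun, Fintype.card_bool, Fintype.card_fin]
      push_cast; ring
    rw [Finset.sum_const, Finset.card_univ, nsmul_eq_mul, hc]
    field_simp
  · simp [hσ]

theorem satProb_le_first (k n m : ℕ) (hn : k ≤ n) :
    satProb k n m ≤ 2 ^ n * (1 - 1 / 2 ^ k : ℝ) ^ m := by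
  classical
  rw [satProb_eq]
  have h1 : ((DD k n) ^ m) φ0 ≤ ((DD k n) ^ m) cnt :=
    (DD_mono k n).pow m _ _ (fun S => φ0_le_cnt S)
  have h2 : ((DD k n) ^ m) cnt = (1 - 1 / 2 ^ k : ℝ) ^ m • (cnt : Set (Fin n → Bool) → ℝ) := by
    clear h1
    induction m with
    | zero => simp
    | succ m ih =>
      rw [pow_succ, Module.End.mul_apply, DD_cnt k n hn, map_smul, ih, smul_smul, pow_succ, mul_comm]
  have h3 := h1 Set.univ
  rw [h2, Pi.smul_apply, smul_eq_mul] at h3
  refine h3.trans (le_of_eq ?_)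
  unfold cnt
  simp [mul_comm]

/-- the mean hitting time is at most `9 n` for `k = 3`. -/
theorem tsum_satProb_le (n : ℕ) (hn : 3 ≤ n) : ∑' m, satProb 3 n m ≤ 9 * n := by
  have hb : ∀ m, satProb 3 n (m + 6 * n) ≤ (7 / 8 : ℝ) ^ m := by
    intro m
    refine (satProb_le_first 3 n _ hn).trans ?_
    have e : (1 - 1 / 2 ^ 3 : ℝ) = 7 / 8 := by norm_num
    rw [e, pow_add, pow_mul]
    have : (2:ℝ) ^ n * ((7 / 8) ^ m * ((7 / 8) ^ 6) ^ n) = (7 / 8) ^ m * (2 * (7 / 8) ^ 6) ^ n := by
      rw [mul_pow 2]; ring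
    rw [this]
    refine mul_le_of_le_one_right (by positivity) (pow_le_one₀ (by positivity) (by norm_num))
  have hsg : Summable fun m : ℕ => (7 / 8 : ℝ) ^ m :=
    summable_geometric_of_lt_one (by norm_num) (by norm_num)
  have hs' : Summable fun m => satProb 3 n (m + 6 * n) :=
    Summable.of_nonneg_of_le (fun m => satProb_nonneg _ _ _) hb hsg
  have hs : Summable fun m => satProb 3 n m := (summable_nat_add_iff (6 * n)).1 hs'
  rw [← hs.sum_add_tsum_nat_add (6 * n)]
  have h1 : ∑ i ∈ Finset.range (6 * n), satProb 3 n i ≤ 6 * n := by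
    calc ∑ i ∈ Finset.range (6 * n), satProb 3 n i ≤ ∑ i ∈ Finset.range (6 * n), (1:ℝ) :=
          Finset.sum_le_sum fun i _ => satProb_le_one _ _ _
      _ = 6 * n := by simp
  have h2 : ∑' m, satProb 3 n (m + 6 * n) ≤ 8 := by
    calc ∑' m, satProb 3 n (m + 6 * n) ≤ ∑' m : ℕ, (7 / 8 : ℝ) ^ m := hs'.tsum_le_tsum hb hsg
      _ = 8 := by rw [tsum_geometric_of_lt_one (by norm_num) (by norm_num)]; norm_num
  have h3 : (3:ℝ) ≤ n := by exact_mod_cast hn
  linarith

end Crest.Agent.R153.Wr
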