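import Mathlib
import Crest.Prelude.Def_DilutedSpinGlass
import Crest.Agent.R141.Red0

/-!
# Row 153: the interaction law of (soft) 3-SAT (helper354)

`satInter β J` penalises the spin pattern `J` (the one violating the clause) by `-β`;
`muSAT β` is the uniform law over the eight patterns.
-/

set_option autoImplicit false

open MeasureTheory Crest.ProbabilityR.Diluted Crest.Agent.R141

namespace Crest.Agent.R153

/-- the interaction of a 3-clause whose violating pattern is `J` -/
noncomputable def satInter (β : ℝ) (J : Fin 3 → Bool) : Inter 3 :=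
  fun s => if s = J then -β else 0

/-- law of the interaction of a uniform random 3-clause -/
noncomputable def muSAT (β : ℝ) : Measure (Inter 3) :=
  finMeasure (fun _ : Fin 3 → Bool => (1 / 8 : ℝ)) (satInter β)

theorem muSAT_eq (β : ℝ) :
    muSAT β = (8 : ENNReal)⁻¹ • ∑ J : Fin 3 → Bool, Measure.dirac (satInter β J) := by
  unfold muSAT finMeasure
  rw [Finset.smul_sum]
  refine Finset.sum_congr rfl fun J _ => ?_
  congr 1
  rw [ENNReal.ofReal_div_of_pos (by norm_num)]
  simp

instance (β : ℝ) : IsProbabilityMeasure (muSAT β) := by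
  constructor
  rw [muSAT_eq]
  simp only [Measure.smul_apply, Measure.finsetSum_apply, measure_univ, Finset.sum_const,
    Finset.card_univ, smul_eq_mul, nsmul_eq_mul, mul_one]
  have : (Fintype.card (Fin 3 → Bool)) = 8 := by simp
  rw [this]
  exact ENNReal.inv_mul_cancel (by norm_num) (by norm_num)

/-- integral against `muSAT` is a finite average -/
theorem integral_muSAT (β : ℝ) (f : Inter 3 → ℝ) :
    ∫ θ, f θ ∂(muSAT β) = (1 / 8) * ∑ J : Fin 3 → Bool, f (satInter β J) := by
  rw [muSAT_eq, integral_smul_measure, integral_finsetSum_measure]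
  · simp only [integral_dirac, smul_eq_mul]
    norm_num
  · intro i _
    exact integrable_dirac (by simp)



theorem integrable_muSAT (β : ℝ) (f : Inter 3 → ℝ) : Integrable f (muSAT β) := by
  rw [muSAT_eq]
  refine Integrable.smul_measure ?_ (by simp)
  rw [integrable_finsetSum_measure]
  intro i _
  exact integrable_dirac (by simp)

theorem satInter_comp (β : ℝ) (J : Fin 3 → Bool) (e : Equiv.Perm (Fin 3)) (he : e * e = 1) :
    (fun s : Fin 3 → Bool => satInter β J (fun i => s (e i))) = satInter β (fun i => J (e i)) := by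
  funext s
  unfold satInter
  have : ((fun i => s (e i)) = J) ↔ (s = fun i => J (e i)) := by
    constructor
    · intro h
      funext i
      have := congrFun h (e i)
      rw [← this]
      have h2 : e (e i) = i := by
        have := congrArg (fun f : Equiv.Perm (Fin 3) => f i) he
        simpa using this
      simp only [h2]
    · intro h
      subst h
      funext i
      have h2 : e (e i) = i := by
        have := congrArg (fun f : Equiv.Perm (Fin 3) => f i) he
        simpa using this
      simp only [h2]
  simp only [this]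

/-- the symmetrized law of `muSAT` is `muSAT` -/
theorem symMeasure_muSAT (β : ℝ) :
    symMeasure (fun _ : Fin 3 → Bool => (1 / 8 : ℝ)) (satInter β) = muSAT β := by
  unfold symMeasure muSAT finMeasure
  rw [Fintype.sum_prod_type, Finset.sum_comm]
  have hl : ∀ l : Fin 3, (∑ J : Fin 3 → Bool, ENNReal.ofReal ((1 / 8 : ℝ) / (3 : ℕ)) •
      Measure.dirac (swapInter l (satInter β J))) =
      ENNReal.ofReal ((1 / 8 : ℝ) / (3 : ℕ)) • ∑ J : Fin 3 → Bool,
        Measure.dirac (satInter β J) := by
    intro l
    rw [Finset.smul_sum]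
    refine Fintype.sum_equiv
      (Equiv.arrowCongr (Equiv.swap l (lastSlot l)) (Equiv.refl Bool)) _ _ fun J => ?_
    congr 2
    unfold swapInter
    rw [satInter_comp β J (Equiv.swap l (lastSlot l)) (by ext i; simp)]
    congr 1
  simp only [hl]
  rw [Finset.sum_const, Finset.card_univ, Fintype.card_fin, Finset.smul_sum, Finset.smul_sum]
  refine Finset.sum_congr rfl fun J _ => ?_
  rw [← Nat.cast_smul_eq_nsmul ENNReal, smul_smul]
  congr 1
  rw [← ENNReal.ofReal_natCast, ← ENNReal.ofReal_mul (by norm_num)]
  congr 1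
  norm_num

/-- the trivial field law -/
theorem finMeasure_unit_zero :
    finMeasure (fun _ : Unit => (1 : ℝ)) (fun _ : Unit => (0 : ℝ)) = Measure.dirac (0 : ℝ) := by
  unfold finMeasure
  simp

/-- Part L of row 141 specialised to soft 3-SAT. -/
theorem partL_sat {a : ℝ} (hL : PartL 3 a) (β : ℝ) (c : ℝ)
    (hc : ∃ᶠ N in Filter.atTop, pressure 3 a (muSAT β) (Measure.dirac 0) N ≤ c)
    {ε : ℝ} (hε : 0 < ε) :
    ∃ (r : ℕ) (m : Fin r → ℝ) (X : (Fin (r + 1) → unitInterval) → ℝ),
      AdmissibleExponents m ∧ Measurable X ∧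
      trialFunctional 3 a (muSAT β) (Measure.dirac 0) r m X ≤ c + ε := by
  have h := hL (Fin 3 → Bool) Unit (fun _ => (1 / 8 : ℝ)) (satInter β) (fun _ => 1) (fun _ => 0)
    (fun _ => by norm_num) (by simp) (fun _ => one_pos) (by simp) c
    (by rw [finMeasure_unit_zero]; exact hc) ε hε
  obtain ⟨r, m, X, hm, hX, h⟩ := h
  refine ⟨r, m, X, hm, hX, ?_⟩
  rw [trialFunctional_eq]
  rw [symMeasure_muSAT, finMeasure_unit_zero] at h
  exact_mod_cast h

end Crest.Agent.R153
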