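import Crest.Agent.R153.GridCheck
import Crest.Prelude.Def_DilutedSpinGlass
import Crest.Agent.R153.SatTrial
import Mathlib
import Crest.Agent.R153.FinApproxDefs
import Crest.Agent.R153.SatLaw

-- ▼ part R153/GridReal
section

/-!
Row 153, right certificate: the real functional of a grid trial and the soundness of the
certificate.
-/

set_option autoImplicit false

namespace Crest.Agent.R153

open Finset Crest.ProbabilityR.Diluted

/-- Nested power means on prefix codes: height `0` are the leaves. -/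
noncomputable def SM (Φ : ℕ) (μ : ℕ → ℝ) (G : ℕ → ℝ) : ℕ → ℕ → ℝ
  | 0, x => G x
  | h + 1, x => ((∑ y ∈ range Φ, SM Φ μ G h (Φ * x + y) ^ μ h) / Φ) ^ (1 / μ h)

theorem SM_bounds {Φ : ℕ} (hΦ : 0 < Φ) {μ : ℕ → ℝ} {G : ℕ → ℝ} {r : ℕ} (hμ : ∀ h < r, 0 < μ h)
    {g : ℝ} (hg : 0 < g) (hG : ∀ x, g ≤ G x ∧ G x ≤ 1) :
    ∀ h ≤ r, ∀ x, g ≤ SM Φ μ G h x ∧ SM Φ μ G h x ≤ 1 := by
  intro h
  induction h with
  | zero => intro _ x; exact hG x
  | succ h ih =>
    intro hh x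
    have ih' := ih (by omega)
    have hm : 0 < μ h := hμ h (by omega)
    have hΦ' : (0 : ℝ) < Φ := by exact_mod_cast hΦ
    have h1 : g ^ μ h ≤ (∑ y ∈ range Φ, SM Φ μ G h (Φ * x + y) ^ μ h) / Φ := by
      rw [le_div_iff₀ hΦ']
      calc g ^ μ h * Φ = ∑ _y ∈ range Φ, g ^ μ h := by simp [mul_comm]
        _ ≤ _ := Finset.sum_le_sum fun y _ =>
          Real.rpow_le_rpow hg.le (ih' (Φ * x + y)).1 hm.le
    have h2 : (∑ y ∈ range Φ, SM Φ μ G h (Φ * x + y) ^ μ h) / Φ ≤ 1 := by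
      rw [div_le_one hΦ']
      calc _ ≤ ∑ _y ∈ range Φ, (1 : ℝ) := Finset.sum_le_sum fun y _ =>
            Real.rpow_le_one (hg.le.trans (ih' (Φ * x + y)).1) (ih' (Φ * x + y)).2 hm.le
        _ = Φ := by simp
    have h0 : 0 < g ^ μ h := Real.rpow_pos_of_pos hg _
    constructor
    · calc g = (g ^ μ h) ^ (1 / μ h) := by
            rw [← Real.rpow_mul hg.le, mul_one_div_cancel hm.ne', Real.rpow_one]
        _ ≤ _ := Real.rpow_le_rpow h0.le h1 (by positivity)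
    · exact Real.rpow_le_one (h0.le.trans h1) h2 (by positivity)

theorem rpow_div_le_iff {s t : ℝ} (hs : 0 ≤ s) (ht : 0 ≤ t) {p q : ℕ} (hq : 0 < q) :
    s ^ ((p : ℝ) / q) ≤ t ↔ s ^ p ≤ t ^ q := by
  have hq' : (q : ℝ) ≠ 0 := by positivity
  have h1 : (s ^ ((p : ℝ) / q)) ^ q = s ^ p := by
    rw [← Real.rpow_natCast (s ^ ((p : ℝ) / q)) q, ← Real.rpow_mul hs, div_mul_cancel₀ _ hq',
      Real.rpow_natCast]
  rw [← h1]
  exact (pow_le_pow_iff_left₀ (Real.rpow_nonneg hs _) ht hq.ne').symm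

theorem le_rpow_div_iff {s t : ℝ} (hs : 0 ≤ s) (ht : 0 ≤ t) {p q : ℕ} (hq : 0 < q) :
    t ≤ s ^ ((p : ℝ) / q) ↔ t ^ q ≤ s ^ p := by
  have hq' : (q : ℝ) ≠ 0 := by positivity
  have h1 : (s ^ ((p : ℝ) / q)) ^ q = s ^ p := by
    rw [← Real.rpow_natCast (s ^ ((p : ℝ) / q)) q, ← Real.rpow_mul hs, div_mul_cancel₀ _ hq',
      Real.rpow_natCast]
  rw [← h1]
  exact (pow_le_pow_iff_left₀ ht (Real.rpow_nonneg hs _) hq.ne').symm

/-- The powered nested mean recursion. -/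
theorem SM_succ_rpow {Φ : ℕ} {μ : ℕ → ℝ} {G : ℕ → ℝ} (h x : ℕ) {D : ℕ}
    {ε : ℕ → ℕ} (hD : 0 < D) (hε : 0 < ε h) (hμ : μ h = (ε h : ℝ) / D)
    (hSM : ∀ x, 0 ≤ SM Φ μ G h x) :
    SM Φ μ G (h + 1) x ^ ((ε (h + 1) : ℝ) / D) =
      ((∑ y ∈ range Φ, SM Φ μ G h (Φ * x + y) ^ ((ε h : ℝ) / D)) / Φ) ^
        ((ε (h + 1) : ℝ) / (ε h : ℕ)) := by
  have hD' : (D : ℝ) ≠ 0 := by positivity
  have hε' : (ε h : ℝ) ≠ 0 := by positivity
  have h0 : 0 ≤ (∑ y ∈ range Φ, SM Φ μ G h (Φ * x + y) ^ ((ε h : ℝ) / D)) / Φ :=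
    div_nonneg (Finset.sum_nonneg fun y _ => Real.rpow_nonneg (hSM _) _) (Nat.cast_nonneg _)
  simp only [SM, hμ]
  rw [← Real.rpow_mul h0]
  congr 1
  field_simp

theorem SM_nonneg {Φ : ℕ} {μ : ℕ → ℝ} {G : ℕ → ℝ} (hG : ∀ x, 0 ≤ G x) (h x : ℕ) :
    0 ≤ SM Φ μ G h x := by
  induction h generalizing x with
  | zero => exact hG x
  | succ h ih =>
    simp only [SM]
    exact Real.rpow_nonneg (div_nonneg (Finset.sum_nonneg fun y _ =>
      Real.rpow_nonneg (ih _) _) (Nat.cast_nonneg _)) _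

theorem child_lt {Φ r h x y : ℕ} (hh : h < r) (hx : x < Φ ^ (r - h)) (hy : y < Φ) :
    Φ * x + y < Φ ^ (r + 1 - h) := by
  have h1 : r + 1 - h = (r - h) + 1 := by omega
  rw [h1, pow_succ]
  calc Φ * x + y < Φ * x + Φ := by omega
    _ = (x + 1) * Φ := by ring
    _ ≤ Φ ^ (r - h) * Φ := Nat.mul_le_mul_right _ hx

theorem TreeUp.sound {Φ r D R : ℕ} {ε Vn : ℕ → ℕ} {Vd : ℕ} {Y : ℕ → ℕ → ℕ}
    (hY : TreeUp Φ r D R ε Vn Vd Y) (hD : 0 < D) (hR : 0 < R) (hVd : 0 < Vd) (hΦ : 0 < Φ)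
    (hε : ∀ h < r, 0 < ε h) {μ : ℕ → ℝ} (hμ : ∀ h < r, μ h = (ε h : ℝ) / D) :
    ∀ h ≤ r, ∀ x < Φ ^ (r + 1 - h),
      SM Φ μ (fun x => (Vn x : ℝ) / Vd) h x ^ ((ε h : ℝ) / D) ≤ (Y h x : ℝ) / R := by
  have hG : ∀ x, 0 ≤ (Vn x : ℝ) / Vd := fun x => by positivity
  have hR' : (0 : ℝ) < R := by exact_mod_cast hR
  have hVd' : (0 : ℝ) < Vd := by exact_mod_cast hVd
  have hΦ' : (0 : ℝ) < Φ := by exact_mod_cast hΦ
  intro h
  induction h with
  | zero =>
    intro _ x hx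
    show ((Vn x : ℝ) / Vd) ^ ((ε 0 : ℝ) / D) ≤ _
    rw [rpow_div_le_iff (hG x) (by positivity) hD]
    have h1 := hY.1 x (by simpa using hx)
    have h2 : (Vn x : ℝ) ^ ε 0 * (R : ℝ) ^ D ≤ (Vd : ℝ) ^ ε 0 * (Y 0 x : ℝ) ^ D := by
      exact_mod_cast h1
    rw [div_pow, div_pow, div_le_div_iff₀ (by positivity) (by positivity)]
    linarith
  | succ h ih =>
    intro hh x hx
    have hh' : h < r := by omega
    have hx' : x < Φ ^ (r - h) := by
      have : r + 1 - (h + 1) = r - h := by omega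
      rwa [this] at hx
    rw [SM_succ_rpow h x hD (hε h hh') (hμ h hh') (fun x => SM_nonneg hG h x)]
    have h0 : 0 ≤ (∑ y ∈ range Φ,
        SM Φ μ (fun x => (Vn x : ℝ) / Vd) h (Φ * x + y) ^ ((ε h : ℝ) / D)) / Φ :=
      div_nonneg (Finset.sum_nonneg fun y _ => Real.rpow_nonneg (SM_nonneg hG _ _) _)
        (Nat.cast_nonneg _)
    rw [rpow_div_le_iff h0 (by positivity) (hε h hh')]
    have h1 : (∑ y ∈ range Φ,
        SM Φ μ (fun x => (Vn x : ℝ) / Vd) h (Φ * x + y) ^ ((ε h : ℝ) / D)) / Φ ≤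
        (∑ y ∈ range Φ, (Y h (Φ * x + y) : ℝ)) / (R * Φ) := by
      rw [div_le_div_iff₀ hΦ' (by positivity)]
      have : ∑ y ∈ range Φ,
          SM Φ μ (fun x => (Vn x : ℝ) / Vd) h (Φ * x + y) ^ ((ε h : ℝ) / D) ≤
          ∑ y ∈ range Φ, (Y h (Φ * x + y) : ℝ) / R :=
        Finset.sum_le_sum fun y hy =>
          ih (by omega) (Φ * x + y) (child_lt hh' hx' (mem_range.1 hy))
      rw [← Finset.sum_div, le_div_iff₀ hR'] at this
      nlinarith
    calc _ ≤ ((∑ y ∈ range Φ, (Y h (Φ * x + y) : ℝ)) / (R * Φ)) ^ ε (h + 1) :=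
          pow_le_pow_left₀ h0 h1 _
      _ ≤ ((Y (h + 1) x : ℝ) / R) ^ ε h := by
          have h2 := hY.2 h hh' x hx'
          have h3 : (∑ y ∈ range Φ, (Y h (Φ * x + y) : ℝ)) ^ ε (h + 1) * (R : ℝ) ^ ε h ≤
              (Y (h + 1) x : ℝ) ^ ε h * ((R : ℝ) * Φ) ^ ε (h + 1) := by exact_mod_cast h2
          rw [div_pow, div_pow, div_le_div_iff₀ (by positivity) (by positivity)]
          exact h3

theorem TreeLo.sound {Φ r D R : ℕ} {ε Vn : ℕ → ℕ} {Vd : ℕ} {Z : ℕ → ℕ → ℕ}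
    (hZ : TreeLo Φ r D R ε Vn Vd Z) (hD : 0 < D) (hR : 0 < R) (hVd : 0 < Vd) (hΦ : 0 < Φ)
    (hε : ∀ h < r, 0 < ε h) {μ : ℕ → ℝ} (hμ : ∀ h < r, μ h = (ε h : ℝ) / D) :
    ∀ h ≤ r, ∀ x < Φ ^ (r + 1 - h),
      (Z h x : ℝ) / R ≤ SM Φ μ (fun x => (Vn x : ℝ) / Vd) h x ^ ((ε h : ℝ) / D) := by
  have hG : ∀ x, 0 ≤ (Vn x : ℝ) / Vd := fun x => by positivity
  have hR' : (0 : ℝ) < R := by exact_mod_cast hR
  have hVd' : (0 : ℝ) < Vd := by exact_mod_cast hVd
  have hΦ' : (0 : ℝ) < Φ := by exact_mod_cast hΦ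
  intro h
  induction h with
  | zero =>
    intro _ x hx
    show _ ≤ ((Vn x : ℝ) / Vd) ^ ((ε 0 : ℝ) / D)
    rw [le_rpow_div_iff (hG x) (by positivity) hD]
    have h1 := hZ.1 x (by simpa using hx)
    have h2 : (Vd : ℝ) ^ ε 0 * (Z 0 x : ℝ) ^ D ≤ (Vn x : ℝ) ^ ε 0 * (R : ℝ) ^ D := by
      exact_mod_cast h1
    rw [div_pow, div_pow, div_le_div_iff₀ (by positivity) (by positivity)]
    linarith
  | succ h ih =>
    intro hh x hx
    have hh' : h < r := by omega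
    have hx' : x < Φ ^ (r - h) := by
      have : r + 1 - (h + 1) = r - h := by omega
      rwa [this] at hx
    rw [SM_succ_rpow h x hD (hε h hh') (hμ h hh') (fun x => SM_nonneg hG h x)]
    have h0 : 0 ≤ (∑ y ∈ range Φ,
        SM Φ μ (fun x => (Vn x : ℝ) / Vd) h (Φ * x + y) ^ ((ε h : ℝ) / D)) / Φ :=
      div_nonneg (Finset.sum_nonneg fun y _ => Real.rpow_nonneg (SM_nonneg hG _ _) _)
        (Nat.cast_nonneg _)
    rw [le_rpow_div_iff h0 (by positivity) (hε h hh')]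
    have h1 : (∑ y ∈ range Φ, (Z h (Φ * x + y) : ℝ)) / (R * Φ) ≤ (∑ y ∈ range Φ,
        SM Φ μ (fun x => (Vn x : ℝ) / Vd) h (Φ * x + y) ^ ((ε h : ℝ) / D)) / Φ := by
      rw [div_le_div_iff₀ (by positivity) hΦ']
      have : ∑ y ∈ range Φ, (Z h (Φ * x + y) : ℝ) / R ≤ ∑ y ∈ range Φ,
          SM Φ μ (fun x => (Vn x : ℝ) / Vd) h (Φ * x + y) ^ ((ε h : ℝ) / D) :=
        Finset.sum_le_sum fun y hy =>
          ih (by omega) (Φ * x + y) (child_lt hh' hx' (mem_range.1 hy))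
      rw [← Finset.sum_div, div_le_iff₀ hR'] at this
      nlinarith
    have h00 : 0 ≤ (∑ y ∈ range Φ, (Z h (Φ * x + y) : ℝ)) / (R * Φ) := by positivity
    calc _ ≤ ((∑ y ∈ range Φ, (Z h (Φ * x + y) : ℝ)) / (R * Φ)) ^ ε (h + 1) := by
          have h2 := hZ.2 h hh' x hx'
          have h3 : (Z (h + 1) x : ℝ) ^ ε h * ((R : ℝ) * Φ) ^ ε (h + 1) ≤
              (∑ y ∈ range Φ, (Z h (Φ * x + y) : ℝ)) ^ ε (h + 1) * (R : ℝ) ^ ε h := by
            exact_mod_cast h2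
          rw [div_pow, div_pow, div_le_div_iff₀ (by positivity) (by positivity)]
          exact h3
      _ ≤ _ := pow_le_pow_left₀ h00 h1 _

/-! ### Bounds of the site and edge numerators -/

theorem digits_lt {K : ℕ} (d : ℕ → ℕ) (hd : ∀ i, d i < K) (n : ℕ) :
    ∑ i ∈ range n, d i * K ^ i < K ^ n := by
  induction n with
  | zero => simp
  | succ n ih =>
    rw [Finset.sum_range_succ, pow_succ]
    have h1 : d n + 1 ≤ K := hd n
    calc ∑ i ∈ range n, d i * K ^ i + d n * K ^ n < K ^ n + d n * K ^ n := by omega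
      _ = (d n + 1) * K ^ n := by ring
      _ ≤ K * K ^ n := Nat.mul_le_mul_right _ h1
      _ = K ^ n * K := by ring

theorem pathN_lt {K : ℕ} (hK : 0 < K) (nL r x l : ℕ) : pathN K nL r x l < K ^ (r + 1) :=
  digits_lt (fun i => x / (K ^ nL) ^ i % K ^ nL / K ^ l % K) (fun _ => Nat.mod_lt _ hK) (r + 1)

theorem aval_bounds {Q bit q : ℕ} (h : 0 < q ∧ q < Q) : 0 < aval Q bit q ∧ aval Q bit q < Q := by
  unfold aval Good.iteN
  split_ifs <;> omega

theorem siteA_bounds {b K Q r k : ℕ} {q : ℕ → ℕ} (hK : 0 < K)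
    (hq : ∀ i < K ^ (r + 1), 0 < q i ∧ q i < Q) (J x j : ℕ) :
    Q ^ 2 ≤ siteA b K Q r k q J x j ∧ siteA b K Q r k q J x j ≤ 2 ^ b * Q ^ 2 := by
  unfold siteA
  refine ⟨?_, Nat.sub_le _ _⟩
  have h1 : ∏ l ∈ range 2, aval Q (bitN (J / 8 ^ j % 8) l) (q (pathN K (k * 2) r x (l + 2 * j))) ≤
      ∏ _l ∈ range 2, Q := Finset.prod_le_prod' fun l _ =>
    (aval_bounds (hq _ (pathN_lt hK _ _ _ _))).2.le
  simp only [Finset.prod_const, Finset.card_range] at h1
  have h2 : (2 ^ b - 1) * ∏ l ∈ range 2,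
      aval Q (bitN (J / 8 ^ j % 8) l) (q (pathN K (k * 2) r x (l + 2 * j))) ≤
      (2 ^ b - 1) * Q ^ 2 := Nat.mul_le_mul_left _ h1
  have h3 : 2 ^ b * Q ^ 2 = (2 ^ b - 1) * Q ^ 2 + Q ^ 2 := by
    have : 0 < 2 ^ b := by positivity
    obtain ⟨t, ht⟩ : ∃ t, 2 ^ b = t + 1 := ⟨2 ^ b - 1, by omega⟩
    rw [ht]
    simp
    ring
  rw [h3]
  omega

theorem edgeNum_bounds {b K Q r : ℕ} {q : ℕ → ℕ} (hK : 0 < K)
    (hq : ∀ i < K ^ (r + 1), 0 < q i ∧ q i < Q) (J x : ℕ) :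
    Q ^ 3 ≤ edgeNum b K Q r q J x ∧ edgeNum b K Q r q J x ≤ 2 ^ b * Q ^ 3 := by
  unfold edgeNum
  refine ⟨?_, Nat.sub_le _ _⟩
  have h1 : ∏ l ∈ range 3, aval Q (bitN J l) (q (pathN K 3 r x l)) ≤
      ∏ _l ∈ range 3, Q := Finset.prod_le_prod' fun l _ =>
    (aval_bounds (hq _ (pathN_lt hK _ _ _ _))).2.le
  simp only [Finset.prod_const, Finset.card_range] at h1
  have h2 : (2 ^ b - 1) * ∏ l ∈ range 3, aval Q (bitN J l) (q (pathN K 3 r x l)) ≤
      (2 ^ b - 1) * Q ^ 3 := Nat.mul_le_mul_left _ h1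
  have h3 : 2 ^ b * Q ^ 3 = (2 ^ b - 1) * Q ^ 3 + Q ^ 3 := by
    have : 0 < 2 ^ b := by positivity
    obtain ⟨t, ht⟩ : ∃ t, 2 ^ b = t + 1 := ⟨2 ^ b - 1, by omega⟩
    rw [ht]
    simp
    ring
  rw [h3]
  omega

theorem siteNum_bounds {b K Q r k : ℕ} {q : ℕ → ℕ} (hK : 0 < K)
    (hq : ∀ i < K ^ (r + 1), 0 < q i ∧ q i < Q) (J x : ℕ) :
    2 * (Q ^ 2) ^ k ≤ siteNum b K Q r k q J x ∧
      siteNum b K Q r k q J x ≤ 2 * (2 ^ b * Q ^ 2) ^ k := by
  have hW : Q ^ 2 ≤ 2 ^ b * Q ^ 2 := Nat.le_mul_of_pos_left _ (by positivity)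
  have h1 : ∀ j, Q ^ 2 ≤ Good.iteN (bitN (J / 8 ^ j % 8) 2) (siteA b K Q r k q J x j)
      (2 ^ b * Q ^ 2) ∧ Good.iteN (bitN (J / 8 ^ j % 8) 2) (siteA b K Q r k q J x j)
      (2 ^ b * Q ^ 2) ≤ 2 ^ b * Q ^ 2 := by
    intro j
    unfold Good.iteN
    split_ifs
    · exact ⟨hW, le_rfl⟩
    · exact siteA_bounds hK hq J x j
  have h2 : ∀ j, Q ^ 2 ≤ Good.iteN (bitN (J / 8 ^ j % 8) 2) (2 ^ b * Q ^ 2)
      (siteA b K Q r k q J x j) ∧ Good.iteN (bitN (J / 8 ^ j % 8) 2) (2 ^ b * Q ^ 2)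
      (siteA b K Q r k q J x j) ≤ 2 ^ b * Q ^ 2 := by
    intro j
    unfold Good.iteN
    split_ifs
    · exact siteA_bounds hK hq J x j
    · exact ⟨hW, le_rfl⟩
  have e : ∀ c : ℕ, c ^ k = ∏ _j ∈ range k, c := fun c => by simp
  unfold siteNum
  rw [two_mul, two_mul, e (Q ^ 2), e (2 ^ b * Q ^ 2)]
  exact ⟨add_le_add (Finset.prod_le_prod' fun j _ => (h1 j).1)
      (Finset.prod_le_prod' fun j _ => (h2 j).1),
    add_le_add (Finset.prod_le_prod' fun j _ => (h1 j).2)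
      (Finset.prod_le_prod' fun j _ => (h2 j).2)⟩

/-- The site term of a leaf. -/
noncomputable def Gs (b K Q r : ℕ) (q : ℕ → ℕ) (k J x : ℕ) : ℝ :=
  (siteNum b K Q r k q J x : ℝ) / (siteDen b Q k : ℕ)

/-- The edge term of a leaf. -/
noncomputable def Ge (b K Q r : ℕ) (q : ℕ → ℕ) (J x : ℕ) : ℝ :=
  (edgeNum b K Q r q J x : ℝ) / (edgeDen b Q : ℕ)

theorem Q_pos {K Q r : ℕ} {q : ℕ → ℕ} (hK : 0 < K)
    (hq : ∀ i < K ^ (r + 1), 0 < q i ∧ q i < Q) : 0 < Q :=
  (hq 0 (by positivity)).1.trans (hq 0 (by positivity)).2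

theorem Gs_bounds {b K Q r : ℕ} {q : ℕ → ℕ} (hK : 0 < K)
    (hq : ∀ i < K ^ (r + 1), 0 < q i ∧ q i < Q) (k J x : ℕ) :
    (((2 : ℝ) ^ b)⁻¹) ^ k ≤ Gs b K Q r q k J x ∧ Gs b K Q r q k J x ≤ 1 := by
  have hQ : 0 < Q := Q_pos hK hq
  obtain ⟨h1, h2⟩ := siteNum_bounds (b := b) (k := k) hK hq J x
  have h1' : (2 : ℝ) * ((Q : ℝ) ^ 2) ^ k ≤ (siteNum b K Q r k q J x : ℝ) := by exact_mod_cast h1
  have h2' : (siteNum b K Q r k q J x : ℝ) ≤ 2 * ((2 : ℝ) ^ b * (Q : ℝ) ^ 2) ^ k := by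
    exact_mod_cast h2
  have hd : ((siteDen b Q k : ℕ) : ℝ) = 2 * ((2 : ℝ) ^ b * (Q : ℝ) ^ 2) ^ k := by
    unfold siteDen; push_cast; ring
  unfold Gs
  rw [hd]
  have hpos : (0 : ℝ) < 2 * ((2 : ℝ) ^ b * (Q : ℝ) ^ 2) ^ k := by positivity
  refine ⟨?_, (div_le_one hpos).2 h2'⟩
  rw [le_div_iff₀ hpos]
  calc (((2 : ℝ) ^ b)⁻¹) ^ k * (2 * ((2 : ℝ) ^ b * (Q : ℝ) ^ 2) ^ k) =
      2 * ((((2 : ℝ) ^ b)⁻¹) * ((2 : ℝ) ^ b * (Q : ℝ) ^ 2)) ^ k := by rw [mul_pow]; ring
    _ = 2 * ((Q : ℝ) ^ 2) ^ k := by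
      rw [inv_mul_cancel_left₀ (by positivity)]
    _ ≤ _ := h1'

theorem Ge_bounds {b K Q r : ℕ} {q : ℕ → ℕ} (hK : 0 < K)
    (hq : ∀ i < K ^ (r + 1), 0 < q i ∧ q i < Q) (J x : ℕ) :
    ((2 : ℝ) ^ b)⁻¹ ≤ Ge b K Q r q J x ∧ Ge b K Q r q J x ≤ 1 := by
  have hQ : 0 < Q := Q_pos hK hq
  obtain ⟨h1, h2⟩ := edgeNum_bounds (b := b) hK hq J x
  have h1' : ((Q : ℝ) ^ 3) ≤ (edgeNum b K Q r q J x : ℝ) := by exact_mod_cast h1
  have h2' : (edgeNum b K Q r q J x : ℝ) ≤ (2 : ℝ) ^ b * (Q : ℝ) ^ 3 := by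
    exact_mod_cast h2
  have hd : ((edgeDen b Q : ℕ) : ℝ) = (2 : ℝ) ^ b * (Q : ℝ) ^ 3 := by
    unfold edgeDen; push_cast; ring
  unfold Ge
  rw [hd]
  have hpos : (0 : ℝ) < (2 : ℝ) ^ b * (Q : ℝ) ^ 3 := by positivity
  refine ⟨?_, (div_le_one hpos).2 h2'⟩
  rw [le_div_iff₀ hpos, inv_mul_cancel_left₀ (by positivity)]
  exact h1'

/-- Average of `log T_0` over the roots. -/
noncomputable def logAvg (Φ r : ℕ) (μ : ℕ → ℝ) (G : ℕ → ℝ) : ℝ :=
  (∑ x ∈ range Φ, Real.log (SM Φ μ G r x)) / Φ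

/-- Site average for `k` clauses. -/
noncomputable def gSiteAvg (b K Q r : ℕ) (q : ℕ → ℕ) (μ : ℕ → ℝ) (k : ℕ) : ℝ :=
  (∑ J ∈ range (8 ^ k), logAvg (K ^ (k * 2)) r μ (Gs b K Q r q k J)) / 8 ^ k

/-- Edge average. -/
noncomputable def gEdgeAvg (b K Q r : ℕ) (q : ℕ → ℕ) (μ : ℕ → ℝ) : ℝ :=
  (∑ J ∈ range 8, logAvg (K ^ 3) r μ (Ge b K Q r q J)) / 8

/-- The value of the trial functional at a grid trial, at density `c`. -/
noncomputable def gridB (b K Q r : ℕ) (q : ℕ → ℕ) (μ : ℕ → ℝ) (c : ℝ) : ℝ :=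
  Real.log 2 + (∑' k : ℕ, poissonWeight (c * 3) k * gSiteAvg b K Q r q μ k) -
    c * 2 * gEdgeAvg b K Q r q μ

theorem logAvg_bounds {Φ r : ℕ} (hΦ : 0 < Φ) {μ : ℕ → ℝ} (hμ : ∀ h < r, 0 < μ h) {G : ℕ → ℝ}
    {g : ℝ} (hg : 0 < g) (hG : ∀ x, g ≤ G x ∧ G x ≤ 1) :
    Real.log g ≤ logAvg Φ r μ G ∧ logAvg Φ r μ G ≤ 0 := by
  have hΦ' : (0 : ℝ) < Φ := by exact_mod_cast hΦ
  have hb := SM_bounds hΦ hμ hg hG r le_rfl
  unfold logAvg
  constructor
  · rw [le_div_iff₀ hΦ']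
    calc Real.log g * Φ = ∑ _x ∈ range Φ, Real.log g := by simp [mul_comm]
      _ ≤ _ := Finset.sum_le_sum fun x _ => Real.log_le_log hg (hb x).1
  · refine div_nonpos_of_nonpos_of_nonneg (Finset.sum_nonpos fun x _ => ?_) hΦ'.le
    exact Real.log_nonpos (hg.le.trans (hb x).1) (hb x).2

theorem gSiteAvg_bounds {b K Q r : ℕ} {q : ℕ → ℕ} (hK : 0 < K)
    (hq : ∀ i < K ^ (r + 1), 0 < q i ∧ q i < Q) {μ : ℕ → ℝ} (hμ : ∀ h < r, 0 < μ h) (k : ℕ) :
    -(k * (b * Real.log 2)) ≤ gSiteAvg b K Q r q μ k ∧ gSiteAvg b K Q r q μ k ≤ 0 := by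
  have hg : (0 : ℝ) < (((2 : ℝ) ^ b)⁻¹) ^ k := by positivity
  have h1 : ∀ J, Real.log ((((2 : ℝ) ^ b)⁻¹) ^ k) ≤ logAvg (K ^ (k * 2)) r μ (Gs b K Q r q k J) ∧
      logAvg (K ^ (k * 2)) r μ (Gs b K Q r q k J) ≤ 0 := fun J =>
    logAvg_bounds (by positivity) hμ hg (Gs_bounds hK hq k J)
  have h2 : Real.log ((((2 : ℝ) ^ b)⁻¹) ^ k) = -(k * (b * Real.log 2)) := by
    rw [Real.log_pow, Real.log_inv, Real.log_pow]; ring
  have h8 : (0 : ℝ) < 8 ^ k := by positivity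
  unfold gSiteAvg
  constructor
  · rw [le_div_iff₀ h8, ← h2]
    calc Real.log ((((2 : ℝ) ^ b)⁻¹) ^ k) * 8 ^ k =
        ∑ _J ∈ range (8 ^ k), Real.log ((((2 : ℝ) ^ b)⁻¹) ^ k) := by
          simp [mul_comm]
      _ ≤ _ := Finset.sum_le_sum fun J _ => (h1 J).1
  · exact div_nonpos_of_nonpos_of_nonneg (Finset.sum_nonpos fun J _ => (h1 J).2) h8.le


end Crest.Agent.R153
private theorem rz_ecd173922d : type_of% @_root_.Crest.Agent.R153.SM.eq_def := @_root_.Crest.Agent.R153.SM.eq_def -- L16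
private theorem rz_dad4a658da : type_of% @_root_.Crest.Agent.R153.SM.eq_1 := @_root_.Crest.Agent.R153.SM.eq_1 -- L16
end

-- ▼ part R153/GridSound
section

/-!
Row 153, right certificate: soundness of the certificate (the grid functional is negative).
-/

set_option autoImplicit false

namespace Crest.Agent.R153

open Finset Crest.ProbabilityR.Diluted

theorem log_le_of_rpow_le {T : ℝ} (hT : 0 < T) {D : ℕ} (hD : 0 < D) {y : ℝ}
    (h : T ^ ((1 : ℝ) / D) ≤ y) : Real.log T ≤ D * (y - 1) := by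
  have hD' : (0 : ℝ) < D := by exact_mod_cast hD
  have hp : 0 < T ^ ((1 : ℝ) / D) := Real.rpow_pos_of_pos hT _
  have h1 : Real.log T = D * Real.log (T ^ ((1 : ℝ) / D)) := by
    rw [Real.log_rpow hT]; field_simp
  rw [h1]
  have h2 := Real.log_le_sub_one_of_pos hp
  exact mul_le_mul_of_nonneg_left (by linarith) hD'.le

theorem neg_log_le_of_le_rpow {T : ℝ} (hT : 0 < T) {D : ℕ} (hD : 0 < D) {z zt R : ℝ}
    (hR : 0 < R) (hzt : 0 ≤ zt) (h : z / R ≤ T ^ ((1 : ℝ) / D)) (hz : R * R ≤ zt * z) :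
    -Real.log T ≤ D * (zt / R - 1) := by
  have hD' : (0 : ℝ) < D := by exact_mod_cast hD
  have hp : 0 < T ^ ((1 : ℝ) / D) := Real.rpow_pos_of_pos hT _
  have h1 : -Real.log T = D * Real.log ((T ^ ((1 : ℝ) / D))⁻¹) := by
    rw [Real.log_inv, Real.log_rpow hT]; field_simp
  rw [h1]
  have h2 := Real.log_le_sub_one_of_pos (inv_pos.2 hp)
  have h3 : (T ^ ((1 : ℝ) / D))⁻¹ ≤ zt / R := by
    rw [inv_le_iff_one_le_mul₀ hp]
    calc (1 : ℝ) ≤ (zt * z) / (R * R) := by rw [le_div_iff₀ (by positivity)]; linarith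
      _ = zt / R * (z / R) := by field_simp
      _ ≤ zt / R * T ^ ((1 : ℝ) / D) := mul_le_mul_of_nonneg_left h (by positivity)
  exact mul_le_mul_of_nonneg_left (by linarith) hD'.le

theorem summable_poisson_mul_nat (lam : ℝ) (hlam : 0 ≤ lam) (C : ℝ) :
    Summable (fun k : ℕ => poissonWeight lam k * (k * C)) := by
  have h1 : Summable (fun k : ℕ => Real.exp (-lam) * |C| * ((2 * lam) ^ k / (k.factorial : ℝ))) :=
    (Real.summable_pow_div_factorial (2 * lam)).mul_left _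
  refine Summable.of_norm_bounded h1 fun k => ?_
  unfold poissonWeight
  rw [Real.norm_eq_abs, abs_mul, abs_mul, Nat.abs_cast,
    abs_of_nonneg (by positivity : 0 ≤ Real.exp (-lam) * lam ^ k / (k.factorial : ℝ))]
  have h2 : (k : ℝ) ≤ 2 ^ k := by exact_mod_cast Nat.lt_two_pow_self.le
  rw [mul_pow]
  calc Real.exp (-lam) * lam ^ k / (k.factorial : ℝ) * (k * |C|) ≤
      Real.exp (-lam) * lam ^ k / (k.factorial : ℝ) * (2 ^ k * |C|) := by
        refine mul_le_mul_of_nonneg_left ?_ (by positivity)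
        exact mul_le_mul_of_nonneg_right h2 (abs_nonneg _)
    _ = _ := by ring

theorem summable_gSiteAvg {b K Q r : ℕ} {q : ℕ → ℕ} (hK : 0 < K)
    (hq : ∀ i < K ^ (r + 1), 0 < q i ∧ q i < Q) {μ : ℕ → ℝ} (hμ : ∀ h < r, 0 < μ h)
    {lam : ℝ} (hlam : 0 ≤ lam) :
    Summable (fun k : ℕ => poissonWeight lam k * gSiteAvg b K Q r q μ k) := by
  refine Summable.of_norm_bounded (summable_poisson_mul_nat lam hlam (b * Real.log 2)) fun k => ?_
  have h := gSiteAvg_bounds (b := b) hK hq hμ k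
  have hw : 0 ≤ poissonWeight lam k := by unfold poissonWeight; positivity
  rw [Real.norm_eq_abs, abs_mul, abs_of_nonneg hw]
  refine mul_le_mul_of_nonneg_left ?_ hw
  rw [abs_le]
  have h2 : 0 ≤ (k : ℝ) * (b * Real.log 2) := by positivity
  constructor <;> linarith [h.1, h.2]

/-- Lower bound for the Poisson weight. -/
theorem poissonWeight_ge (c : ℝ) (hc : 0 ≤ c) (n : ℕ) (hn : 0 < n) (hcn : c * 3 ≤ n) (k : ℕ) :
    0 ≤ (c * 3) ^ k / (k.factorial : ℝ) * (1 - c * 3 / n) ^ n ∧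
    (c * 3) ^ k / (k.factorial : ℝ) * (1 - c * 3 / n) ^ n ≤ poissonWeight (c * 3) k := by
  have hn' : (0 : ℝ) < n := by exact_mod_cast hn
  have h0 : 0 ≤ 1 - c * 3 / n := by
    rw [sub_nonneg, div_le_one hn']; exact hcn
  refine ⟨by positivity, ?_⟩
  have h1 := Real.one_sub_div_pow_le_exp_neg hcn
  unfold poissonWeight
  calc (c * 3) ^ k / (k.factorial : ℝ) * (1 - c * 3 / n) ^ n ≤
      (c * 3) ^ k / (k.factorial : ℝ) * Real.exp (-(c * 3)) :=
        mul_le_mul_of_nonneg_left h1 (by positivity)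
    _ = _ := by ring

theorem siteDen_pos {b Q : ℕ} (hQ : 0 < Q) (k : ℕ) : 0 < siteDen b Q k := by
  unfold siteDen; positivity

theorem edgeDen_pos {b Q : ℕ} (hQ : 0 < Q) : 0 < edgeDen b Q := by
  unfold edgeDen; positivity

section

variable {c : Cert} {a κ : ℕ}

/-- exponents of the certificate -/
noncomputable def Cert.μ (c : Cert) (h : ℕ) : ℝ := (c.ε h : ℝ) / c.D

theorem Cert.Valid.μ_pos (hc : c.Valid a κ) : ∀ h < c.r, 0 < c.μ h := by
  intro h hh
  have h1 : (0 : ℝ) < c.ε h := by exact_mod_cast (hc.ε_lt h hh).1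
  have h2 : (0 : ℝ) < c.D := by exact_mod_cast hc.hD
  exact div_pos h1 h2

theorem Cert.Valid.Q_pos (hc : c.Valid a κ) : 0 < c.Q := Crest.Agent.R153.Q_pos hc.hK hc.hq

theorem Cert.Valid.logAvg_site_le (hc : c.Valid a κ) {k : ℕ} (hk : k < c.M) {J : ℕ}
    (hJ : J < 8 ^ k) :
    logAvg (c.K ^ (k * 2)) c.r c.μ (Gs c.b c.K c.Q c.r c.q k J) ≤
      c.D * ((∑ x ∈ range (c.K ^ (k * 2)), (c.Y k J c.r x : ℝ)) / (c.K ^ (k * 2) * c.R) - 1) := by
  have hK : (0 : ℝ) < (c.K : ℝ) ^ (k * 2) := by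
    have : (0 : ℝ) < c.K := by exact_mod_cast hc.hK
    positivity
  have hR : (0 : ℝ) < c.R := by exact_mod_cast hc.hR
  have hg : (0 : ℝ) < (((2 : ℝ) ^ c.b)⁻¹) ^ k := by positivity
  have hΦ : 0 < c.K ^ (k * 2) := Nat.pow_pos hc.hK
  have hb := SM_bounds hΦ hc.μ_pos hg (Gs_bounds (b := c.b) hc.hK hc.hq k J) c.r le_rfl
  have h1 : ∀ x ∈ range (c.K ^ (k * 2)),
      Real.log (SM (c.K ^ (k * 2)) c.μ (Gs c.b c.K c.Q c.r c.q k J) c.r x) ≤
        c.D * ((c.Y k J c.r x : ℝ) / c.R - 1) := by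
    intro x hx
    refine log_le_of_rpow_le (hg.trans_le (hb x).1) hc.hD ?_
    have h2 := (hc.site k hk J hJ).sound hc.hD hc.hR (siteDen_pos hc.Q_pos k) hΦ
      (fun h hh => (hc.ε_lt h hh).1) (μ := c.μ) (fun h _ => rfl) c.r le_rfl x (by
        simpa using hx)
    have h3 : SM (c.K ^ (k * 2)) c.μ (Gs c.b c.K c.Q c.r c.q k J) c.r x ^ ((c.ε c.r : ℝ) / c.D) ≤
        (c.Y k J c.r x : ℝ) / c.R := h2
    rw [hc.εr] at h3
    simpa using h3
  unfold logAvg
  push_cast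
  rw [div_le_iff₀ hK]
  calc _ ≤ ∑ x ∈ range (c.K ^ (k * 2)), c.D * ((c.Y k J c.r x : ℝ) / c.R - 1) :=
        Finset.sum_le_sum h1
    _ = _ := by
        rw [← Finset.mul_sum, Finset.sum_sub_distrib, ← Finset.sum_div]
        simp only [Finset.sum_const, card_range, nsmul_eq_mul, mul_one]
        push_cast
        field_simp

theorem Cert.Valid.gSiteAvg_le (hc : c.Valid a κ) {k : ℕ} (hk : k < c.M) :
    gSiteAvg c.b c.K c.Q c.r c.q c.μ k ≤
      c.D * ((c.A k : ℝ) / ((8 ^ k * c.K ^ (k * 2)) * c.R) - 1) := by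
  have hK : (0 : ℝ) < (c.K : ℝ) ^ (k * 2) := by
    have : (0 : ℝ) < c.K := by exact_mod_cast hc.hK
    positivity
  have hR : (0 : ℝ) < c.R := by exact_mod_cast hc.hR
  have h8 : (0 : ℝ) < 8 ^ k := by positivity
  unfold gSiteAvg
  rw [div_le_iff₀ h8]
  calc _ ≤ ∑ J ∈ range (8 ^ k), c.D * ((∑ x ∈ range (c.K ^ (k * 2)), (c.Y k J c.r x : ℝ)) /
        (c.K ^ (k * 2) * c.R) - 1) :=
        Finset.sum_le_sum fun J hJ => hc.logAvg_site_le hk (mem_range.1 hJ)
    _ = _ := by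
        rw [← Finset.mul_sum, Finset.sum_sub_distrib, ← Finset.sum_div]
        simp only [Finset.sum_const, card_range, nsmul_eq_mul, mul_one]
        unfold Cert.A
        push_cast
        field_simp

theorem Cert.Valid.neg_gEdgeAvg_le (hc : c.Valid a κ) :
    -gEdgeAvg c.b c.K c.Q c.r c.q c.μ ≤
      c.D * ((∑ J ∈ range 8, ∑ x ∈ range (c.K ^ 3), (c.zt J x : ℝ)) / (8 * c.K ^ 3 * c.R) - 1) := by
  have hK0 : (0 : ℝ) < c.K := by exact_mod_cast hc.hK
  have hK : (0 : ℝ) < (c.K : ℝ) ^ 3 := by positivity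
  have hR : (0 : ℝ) < c.R := by exact_mod_cast hc.hR
  have hg : (0 : ℝ) < ((2 : ℝ) ^ c.b)⁻¹ := by positivity
  have hΦ : 0 < c.K ^ 3 := Nat.pow_pos hc.hK
  have h1 : ∀ J ∈ range 8, ∀ x ∈ range (c.K ^ 3),
      -Real.log (SM (c.K ^ 3) c.μ (Ge c.b c.K c.Q c.r c.q J) c.r x) ≤
        c.D * ((c.zt J x : ℝ) / c.R - 1) := by
    intro J hJ x hx
    have hb := SM_bounds hΦ hc.μ_pos hg (Ge_bounds (b := c.b) hc.hK hc.hq J) c.r le_rfl
    refine neg_log_le_of_le_rpow (z := (c.Z J c.r x : ℝ)) (hg.trans_le (hb x).1) hc.hD hR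
      (Nat.cast_nonneg _) ?_ ?_
    · have h2 := (hc.edge J (mem_range.1 hJ)).sound hc.hD hc.hR (edgeDen_pos hc.Q_pos) hΦ
        (fun h hh => (hc.ε_lt h hh).1) (μ := c.μ) (fun h _ => rfl) c.r le_rfl x (by
          simpa using hx)
      have h3 : (c.Z J c.r x : ℝ) / c.R ≤
          SM (c.K ^ 3) c.μ (Ge c.b c.K c.Q c.r c.q J) c.r x ^ ((c.ε c.r : ℝ) / c.D) := h2
      rw [hc.εr] at h3
      simpa using h3
    · exact_mod_cast hc.hzt J (mem_range.1 hJ) x (mem_range.1 hx)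
  unfold gEdgeAvg logAvg
  push_cast
  have h2 : -(∑ J ∈ range 8, (∑ x ∈ range (c.K ^ 3),
      Real.log (SM (c.K ^ 3) c.μ (Ge c.b c.K c.Q c.r c.q J) c.r x)) / (c.K : ℝ) ^ 3) / 8 =
      (∑ J ∈ range 8, ∑ x ∈ range (c.K ^ 3),
        -Real.log (SM (c.K ^ 3) c.μ (Ge c.b c.K c.Q c.r c.q J) c.r x)) / (8 * c.K ^ 3) := by
    rw [← Finset.sum_div]
    simp only [Finset.sum_neg_distrib]
    field_simp
  rw [← neg_div, h2, div_le_iff₀ (by positivity)]
  calc _ ≤ ∑ J ∈ range 8, ∑ x ∈ range (c.K ^ 3), c.D * ((c.zt J x : ℝ) / c.R - 1) :=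
        Finset.sum_le_sum fun J hJ => Finset.sum_le_sum fun x hx => h1 J hJ x hx
    _ = _ := by
        simp only [← Finset.mul_sum, Finset.sum_sub_distrib, ← Finset.sum_div]
        simp only [Finset.sum_const, card_range, nsmul_eq_mul, mul_one]
        push_cast
        field_simp

/-- **Soundness**: the value of the grid trial of a valid certificate is negative. -/
theorem Cert.Valid.gridB_neg (hc : c.Valid a κ) :
    gridB c.b c.K c.Q c.r c.q c.μ ((a : ℝ) / 2 ^ κ) < 0 := by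
  have hD : (0 : ℝ) < c.D := by exact_mod_cast hc.hD
  have hR : (0 : ℝ) < c.R := by exact_mod_cast hc.hR
  have hK : (0 : ℝ) < c.K := by exact_mod_cast hc.hK
  have hn : (0 : ℝ) < c.n := by exact_mod_cast hc.hn
  have h2κ : (0 : ℝ) < 2 ^ κ := by positivity
  set cc : ℝ := (a : ℝ) / 2 ^ κ with hcc
  have hcc0 : 0 ≤ cc := by positivity
  have han : cc * 3 ≤ c.n := by
    have h := hc.han
    have h' : (3 : ℝ) * a ≤ c.n * 2 ^ κ := by exact_mod_cast h
    rw [hcc, div_mul_eq_mul_div, div_le_iff₀ h2κ]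
    linarith
  -- log 2
  have e1 : Real.log 2 ≤ c.D * ((c.τ : ℝ) / c.R - 1) := by
    refine log_le_of_rpow_le (by norm_num) hc.hD ?_
    have h : (2 : ℝ) ^ 1 ≤ ((c.τ : ℝ) / c.R) ^ c.D := by
      rw [div_pow, le_div_iff₀ (by positivity), pow_one]
      exact_mod_cast hc.hτ
    have := (rpow_div_le_iff (by norm_num : (0 : ℝ) ≤ 2) (by positivity) hc.hD).2 h
    simpa using this
  -- site
  have e2 : ∀ k ∈ range c.M, poissonWeight (cc * 3) k * gSiteAvg c.b c.K c.Q c.r c.q c.μ k ≤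
      -(c.D * ((c.v k : ℝ) / c.R)) := by
    intro k hk
    have hk' := mem_range.1 hk
    obtain ⟨w0, w1⟩ := poissonWeight_ge cc hcc0 c.n hc.hn han k
    set w : ℝ := (cc * 3) ^ k / (k.factorial : ℝ) * (1 - cc * 3 / c.n) ^ c.n with hw
    have hs0 := (gSiteAvg_bounds (b := c.b) hc.hK hc.hq hc.μ_pos k).2
    have hs1 := hc.gSiteAvg_le hk'
    have hv := hc.hv k hk'
    have hw' : w = ((3 * a) ^ k * (c.n * 2 ^ κ - 3 * a) ^ c.n : ℝ) /
        (k.factorial * (2 ^ κ) ^ k * (c.n * 2 ^ κ) ^ c.n) := by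
      rw [hw, hcc]
      have h1 : (1 - (a : ℝ) / 2 ^ κ * 3 / c.n) = (c.n * 2 ^ κ - 3 * a) / (c.n * 2 ^ κ) := by
        field_simp
      have h2 : ((a : ℝ) / 2 ^ κ * 3) ^ k = (3 * a) ^ k / (2 ^ κ) ^ k := by
        rw [div_mul_eq_mul_div, div_pow, mul_comm (a : ℝ) 3]
      rw [h1, h2, div_pow]
      field_simp
    have hv' : (c.v k : ℝ) / c.R ≤ w * (1 - (c.A k : ℝ) / ((8 ^ k * c.K ^ (k * 2)) * c.R)) := by
      have h1 : ((c.v k * ((8 ^ k * c.K ^ (k * 2)) * (k.factorial * (2 ^ κ) ^ k *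
          (c.n * 2 ^ κ) ^ c.n)) + (3 * a) ^ k * (c.n * 2 ^ κ - 3 * a) ^ c.n * c.A k : ℕ) : ℝ) ≤
          (((3 * a) ^ k * (c.n * 2 ^ κ - 3 * a) ^ c.n * ((8 ^ k * c.K ^ (k * 2)) * c.R) : ℕ) : ℝ) :=
        by exact_mod_cast hv
      have h2 : ((c.n * 2 ^ κ - 3 * a : ℕ) : ℝ) = (c.n : ℝ) * 2 ^ κ - 3 * a := by
        rw [Nat.cast_sub hc.han]; push_cast; ring
      push_cast [h2] at h1
      rw [hw', div_le_iff₀ hR]
      have h3 : ((3 * a) ^ k * (c.n * 2 ^ κ - 3 * a) ^ c.n : ℝ) /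
          (k.factorial * (2 ^ κ) ^ k * (c.n * 2 ^ κ) ^ c.n) *
          (1 - (c.A k : ℝ) / ((8 ^ k * c.K ^ (k * 2)) * c.R)) * c.R =
          (((3 * a) ^ k * (c.n * 2 ^ κ - 3 * a) ^ c.n : ℝ) * ((8 ^ k * c.K ^ (k * 2)) * c.R) -
          ((3 * a) ^ k * (c.n * 2 ^ κ - 3 * a) ^ c.n : ℝ) * c.A k) /
          ((8 ^ k * c.K ^ (k * 2)) * (k.factorial * (2 ^ κ) ^ k * (c.n * 2 ^ κ) ^ c.n)) := by
        field_simp
      rw [h3, le_div_iff₀ (by positivity)]
      linarith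
    calc poissonWeight (cc * 3) k * gSiteAvg c.b c.K c.Q c.r c.q c.μ k ≤
        w * gSiteAvg c.b c.K c.Q c.r c.q c.μ k := mul_le_mul_of_nonpos_right w1 hs0
      _ ≤ w * (c.D * ((c.A k : ℝ) / ((8 ^ k * c.K ^ (k * 2)) * c.R) - 1)) :=
          mul_le_mul_of_nonneg_left hs1 w0
      _ = -(c.D * (w * (1 - (c.A k : ℝ) / ((8 ^ k * c.K ^ (k * 2)) * c.R)))) := by ring
      _ ≤ _ := by
          rw [neg_le_neg_iff]
          exact mul_le_mul_of_nonneg_left hv' hD.le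
  have e3 : (∑' k : ℕ, poissonWeight (cc * 3) k * gSiteAvg c.b c.K c.Q c.r c.q c.μ k) ≤
      -(c.D * ((∑ k ∈ range c.M, (c.v k : ℝ)) / c.R)) := by
    have hsum := summable_gSiteAvg (b := c.b) hc.hK hc.hq hc.μ_pos (lam := cc * 3) (by positivity)
    have h1 := hsum.neg.sum_le_tsum (range c.M) (fun k _ => by
      have hw : 0 ≤ poissonWeight (cc * 3) k := by unfold poissonWeight; positivity
      have hs0 := (gSiteAvg_bounds (b := c.b) hc.hK hc.hq hc.μ_pos k).2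
      have := mul_nonpos_of_nonneg_of_nonpos hw hs0
      simpa using this)
    rw [tsum_neg, Finset.sum_neg_distrib, neg_le_neg_iff] at h1
    refine h1.trans ((Finset.sum_le_sum e2).trans_eq ?_)
    rw [Finset.sum_neg_distrib, ← Finset.mul_sum, ← Finset.sum_div]
  have e4 := hc.neg_gEdgeAvg_le
  have e5 : (c.τ : ℝ) + 2 * cc * ((∑ J ∈ range 8, ∑ x ∈ range (c.K ^ 3), (c.zt J x : ℝ)) /
      (8 * c.K ^ 3)) < c.R + (∑ k ∈ range c.M, (c.v k : ℝ)) + 2 * cc * c.R := by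
    have h := hc.final
    have h' : (c.τ : ℝ) * (2 ^ κ * (8 * c.K ^ 3)) +
      2 * a * (∑ J ∈ range 8, ∑ x ∈ range (c.K ^ 3), (c.zt J x : ℝ)) <
      (c.R + ∑ k ∈ range c.M, (c.v k : ℝ)) * (2 ^ κ * (8 * c.K ^ 3)) +
        2 * a * c.R * (8 * c.K ^ 3) := by exact_mod_cast h
    have hpos : (0 : ℝ) < 2 ^ κ * (8 * c.K ^ 3) := by positivity
    rw [hcc]
    have h1 : (c.τ : ℝ) + 2 * ((a : ℝ) / 2 ^ κ) *
        ((∑ J ∈ range 8, ∑ x ∈ range (c.K ^ 3), (c.zt J x : ℝ)) / (8 * c.K ^ 3)) =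
        (c.τ * (2 ^ κ * (8 * c.K ^ 3)) +
          2 * a * (∑ J ∈ range 8, ∑ x ∈ range (c.K ^ 3), (c.zt J x : ℝ))) /
          (2 ^ κ * (8 * c.K ^ 3)) := by
      field_simp
    have h2 : (c.R : ℝ) + (∑ k ∈ range c.M, (c.v k : ℝ)) + 2 * ((a : ℝ) / 2 ^ κ) * c.R =
        ((c.R + ∑ k ∈ range c.M, (c.v k : ℝ)) * (2 ^ κ * (8 * c.K ^ 3)) +
        2 * a * c.R * (8 * c.K ^ 3)) / (2 ^ κ * (8 * c.K ^ 3)) := by
      field_simp
    rw [h1, h2]
    exact div_lt_div_of_pos_right h' hpos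
  unfold gridB
  have e6 : -(cc * 2 * gEdgeAvg c.b c.K c.Q c.r c.q c.μ) ≤
      cc * 2 * (c.D * ((∑ J ∈ range 8, ∑ x ∈ range (c.K ^ 3), (c.zt J x : ℝ)) /
        (8 * c.K ^ 3 * c.R) - 1)) := by
    rw [← mul_neg]
    exact mul_le_mul_of_nonneg_left e4 (by positivity)
  have e7 : c.D * ((c.τ : ℝ) / c.R - 1) + -(c.D * ((∑ k ∈ range c.M, (c.v k : ℝ)) / c.R)) +
      cc * 2 * (c.D * ((∑ J ∈ range 8, ∑ x ∈ range (c.K ^ 3), (c.zt J x : ℝ)) /
        (8 * c.K ^ 3 * c.R) - 1)) =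
      c.D / c.R * ((c.τ : ℝ) + 2 * cc * ((∑ J ∈ range 8, ∑ x ∈ range (c.K ^ 3),
        (c.zt J x : ℝ)) / (8 * c.K ^ 3)) -
        (c.R + (∑ k ∈ range c.M, (c.v k : ℝ)) + 2 * cc * c.R)) := by
    field_simp
    ring
  have e8 : c.D / c.R * ((c.τ : ℝ) + 2 * cc * ((∑ J ∈ range 8, ∑ x ∈ range (c.K ^ 3),
        (c.zt J x : ℝ)) / (8 * c.K ^ 3)) -
        (c.R + (∑ k ∈ range c.M, (c.v k : ℝ)) + 2 * cc * c.R)) < 0 :=
    mul_neg_of_pos_of_neg (by positivity) (by linarith)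
  linarith

end

end Crest.Agent.R153
end

-- ▼ part R153/GridLim
section

/-!
Row 153, right certificate: greedy tables and their limits (completeness of the certificate).
-/

set_option autoImplicit false

namespace Crest.Agent.R153

open Finset Filter Topology Crest.ProbabilityR.Diluted

theorem tendsto_ceil_div {f : ℕ → ℝ} {l : ℝ} (hf : Tendsto f atTop (𝓝 l)) (hf0 : ∀ R, 0 ≤ f R) :
    Tendsto (fun R : ℕ => (⌈(R : ℝ) * f R⌉₊ : ℝ) / R) atTop (𝓝 l) := by
  have h1 : Tendsto (fun R : ℕ => f R + 1 / (R : ℝ)) atTop (𝓝 l) := by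
    simpa using hf.add tendsto_one_div_atTop_nhds_zero_nat
  refine tendsto_of_tendsto_of_tendsto_of_le_of_le' hf h1 ?_ ?_
  · filter_upwards [eventually_gt_atTop 0] with R hR
    have hR' : (0 : ℝ) < R := by exact_mod_cast hR
    rw [le_div_iff₀ hR', mul_comm]
    exact Nat.le_ceil _
  · filter_upwards [eventually_gt_atTop 0] with R hR
    have hR' : (0 : ℝ) < R := by exact_mod_cast hR
    rw [div_le_iff₀ hR']
    have := (Nat.ceil_lt_add_one (mul_nonneg hR'.le (hf0 R))).le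
    calc (⌈(R : ℝ) * f R⌉₊ : ℝ) ≤ R * f R + 1 := this
      _ = (f R + 1 / R) * R := by field_simp

theorem tendsto_floor_div {f : ℕ → ℝ} {l : ℝ} (hf : Tendsto f atTop (𝓝 l)) (hf0 : ∀ R, 0 ≤ f R) :
    Tendsto (fun R : ℕ => (⌊(R : ℝ) * f R⌋₊ : ℝ) / R) atTop (𝓝 l) := by
  have h1 : Tendsto (fun R : ℕ => f R - 1 / (R : ℝ)) atTop (𝓝 l) := by
    simpa using hf.sub tendsto_one_div_atTop_nhds_zero_nat
  refine tendsto_of_tendsto_of_tendsto_of_le_of_le' h1 hf ?_ ?_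
  · filter_upwards [eventually_gt_atTop 0] with R hR
    have hR' : (0 : ℝ) < R := by exact_mod_cast hR
    rw [le_div_iff₀ hR']
    have := (Nat.lt_floor_add_one ((R : ℝ) * f R)).le
    calc (f R - 1 / R) * R = R * f R - 1 := by field_simp
      _ ≤ _ := by linarith
  · filter_upwards [eventually_gt_atTop 0] with R hR
    have hR' : (0 : ℝ) < R := by exact_mod_cast hR
    rw [div_le_iff₀ hR', mul_comm]
    exact Nat.floor_le (mul_nonneg (hf0 R) hR'.le)

/-- `D (x^(1/D) - 1) → log x`. -/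
theorem tendsto_mul_rpow_sub_one {x : ℝ} (hx : 0 < x) {D0 : ℕ} (hD0 : 0 < D0) :
    Tendsto (fun N : ℕ => ((D0 * N : ℕ) : ℝ) * (x ^ ((1 : ℝ) / ((D0 * N : ℕ) : ℝ)) - 1)) atTop
      (𝓝 (Real.log x)) := by
  have h1 : HasDerivAt (fun t : ℝ => x ^ t) (Real.log x) 0 := by
    have := (Real.hasStrictDerivAt_const_rpow hx 0).hasDerivAt
    simpa using this
  have h2 := hasDerivAt_iff_tendsto_slope_zero.1 h1
  have h3 : Tendsto (fun N : ℕ => (1 : ℝ) / ((D0 * N : ℕ) : ℝ)) atTop (𝓝[≠] 0) := by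
    refine tendsto_nhdsWithin_iff.2 ⟨?_, ?_⟩
    · have : Tendsto (fun N : ℕ => D0 * N) atTop atTop :=
        tendsto_id.const_mul_atTop' hD0
      exact tendsto_one_div_atTop_nhds_zero_nat.comp this
    · filter_upwards [eventually_gt_atTop 0] with N hN
      have : (0 : ℝ) < ((D0 * N : ℕ) : ℝ) := by exact_mod_cast Nat.mul_pos hD0 hN
      exact (one_div_pos.2 this).ne'
  refine (h2.comp h3).congr fun N => ?_
  simp [smul_eq_mul]

/-- Greedy upper table. -/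
noncomputable def Yg (Φ D R : ℕ) (ε : ℕ → ℕ) (G : ℕ → ℝ) : ℕ → ℕ → ℕ
  | 0, x => ⌈(R : ℝ) * G x ^ ((ε 0 : ℝ) / D)⌉₊
  | h + 1, x => ⌈(R : ℝ) * ((∑ y ∈ range Φ, (Yg Φ D R ε G h (Φ * x + y) : ℝ)) / (R * Φ)) ^
      ((ε (h + 1) : ℝ) / (ε h : ℕ))⌉₊

/-- Greedy lower table. -/
noncomputable def Zg (Φ D R : ℕ) (ε : ℕ → ℕ) (G : ℕ → ℝ) : ℕ → ℕ → ℕ
  | 0, x => ⌊(R : ℝ) * G x ^ ((ε 0 : ℝ) / D)⌋₊
  | h + 1, x => ⌊(R : ℝ) * ((∑ y ∈ range Φ, (Zg Φ D R ε G h (Φ * x + y) : ℝ)) / (R * Φ)) ^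
      ((ε (h + 1) : ℝ) / (ε h : ℕ))⌋₊

theorem tendsto_Yg {Φ D r : ℕ} {ε : ℕ → ℕ} {G : ℕ → ℝ} (hD : 0 < D)
    (hG : ∀ x, 0 ≤ G x) (hε : ∀ h < r, 0 < ε h) {μ : ℕ → ℝ}
    (hμ : ∀ h < r, μ h = (ε h : ℝ) / D) :
    ∀ h ≤ r, ∀ x, Tendsto (fun R : ℕ => (Yg Φ D R ε G h x : ℝ) / R) atTop
      (𝓝 (SM Φ μ G h x ^ ((ε h : ℝ) / D))) := by
  intro h
  induction h with
  | zero =>
    intro _ x
    exact tendsto_ceil_div tendsto_const_nhds fun R => Real.rpow_nonneg (hG x) _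
  | succ h ih =>
    intro hh x
    have hh' : h < r := by omega
    rw [SM_succ_rpow h x hD (hε h hh') (hμ h hh') (fun x => SM_nonneg hG h x)]
    refine tendsto_ceil_div ?_ fun R => by positivity
    have h1 : Tendsto (fun R : ℕ => (∑ y ∈ range Φ, (Yg Φ D R ε G h (Φ * x + y) : ℝ) / R) / Φ)
        atTop (𝓝 ((∑ y ∈ range Φ, SM Φ μ G h (Φ * x + y) ^ ((ε h : ℝ) / D)) / Φ)) :=
      (tendsto_finsetSum _ fun y _ => ih (by omega) (Φ * x + y)).div_const _
    have h2 : Tendsto (fun R : ℕ => (∑ y ∈ range Φ, (Yg Φ D R ε G h (Φ * x + y) : ℝ)) / (R * Φ))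
        atTop (𝓝 ((∑ y ∈ range Φ, SM Φ μ G h (Φ * x + y) ^ ((ε h : ℝ) / D)) / Φ)) := by
      refine h1.congr fun R => ?_
      rw [← Finset.sum_div, div_div]
    exact h2.rpow_const (Or.inr (by positivity))

theorem tendsto_Zg {Φ D r : ℕ} {ε : ℕ → ℕ} {G : ℕ → ℝ} (hD : 0 < D)
    (hG : ∀ x, 0 ≤ G x) (hε : ∀ h < r, 0 < ε h) {μ : ℕ → ℝ}
    (hμ : ∀ h < r, μ h = (ε h : ℝ) / D) :
    ∀ h ≤ r, ∀ x, Tendsto (fun R : ℕ => (Zg Φ D R ε G h x : ℝ) / R) atTop
      (𝓝 (SM Φ μ G h x ^ ((ε h : ℝ) / D))) := by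
  intro h
  induction h with
  | zero =>
    intro _ x
    exact tendsto_floor_div tendsto_const_nhds fun R => Real.rpow_nonneg (hG x) _
  | succ h ih =>
    intro hh x
    have hh' : h < r := by omega
    rw [SM_succ_rpow h x hD (hε h hh') (hμ h hh') (fun x => SM_nonneg hG h x)]
    refine tendsto_floor_div ?_ fun R => by positivity
    have h1 : Tendsto (fun R : ℕ => (∑ y ∈ range Φ, (Zg Φ D R ε G h (Φ * x + y) : ℝ) / R) / Φ)
        atTop (𝓝 ((∑ y ∈ range Φ, SM Φ μ G h (Φ * x + y) ^ ((ε h : ℝ) / D)) / Φ)) :=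
      (tendsto_finsetSum _ fun y _ => ih (by omega) (Φ * x + y)).div_const _
    have h2 : Tendsto (fun R : ℕ => (∑ y ∈ range Φ, (Zg Φ D R ε G h (Φ * x + y) : ℝ)) / (R * Φ))
        atTop (𝓝 ((∑ y ∈ range Φ, SM Φ μ G h (Φ * x + y) ^ ((ε h : ℝ) / D)) / Φ)) := by
      refine h1.congr fun R => ?_
      rw [← Finset.sum_div, div_div]
    exact h2.rpow_const (Or.inr (by positivity))

theorem treeUp_Yg {Φ D R r : ℕ} {ε Vn : ℕ → ℕ} {Vd : ℕ} (hD : 0 < D) (hR : 0 < R) (hVd : 0 < Vd)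
    (hΦ : 0 < Φ) (hε : ∀ h < r, 0 < ε h) :
    TreeUp Φ r D R ε Vn Vd (Yg Φ D R ε (fun x => (Vn x : ℝ) / Vd)) := by
  have hR' : (0 : ℝ) < R := by exact_mod_cast hR
  have hVd' : (0 : ℝ) < Vd := by exact_mod_cast hVd
  have hΦ' : (0 : ℝ) < Φ := by exact_mod_cast hΦ
  constructor
  · intro x _
    have h0 : (0 : ℝ) ≤ (Vn x : ℝ) / Vd := by positivity
    have h1 : ((Vn x : ℝ) / Vd) ^ ((ε 0 : ℝ) / D) ≤
        (Yg Φ D R ε (fun x => (Vn x : ℝ) / Vd) 0 x : ℝ) / R := by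
      rw [le_div_iff₀ hR', mul_comm]
      exact Nat.le_ceil _
    rw [rpow_div_le_iff h0 (by positivity) hD, div_pow, div_pow,
      div_le_div_iff₀ (by positivity) (by positivity)] at h1
    have h2 : (Vn x : ℝ) ^ ε 0 * (R : ℝ) ^ D ≤
        (Vd : ℝ) ^ ε 0 * (Yg Φ D R ε (fun x => (Vn x : ℝ) / Vd) 0 x : ℝ) ^ D := by linarith
    exact_mod_cast h2
  · intro h hh x _
    have h0 : (0 : ℝ) ≤ (∑ y ∈ range Φ, (Yg Φ D R ε (fun x => (Vn x : ℝ) / Vd) h
        (Φ * x + y) : ℝ)) / (R * Φ) := by positivity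
    have h1 : ((∑ y ∈ range Φ, (Yg Φ D R ε (fun x => (Vn x : ℝ) / Vd) h
        (Φ * x + y) : ℝ)) / (R * Φ)) ^ ((ε (h + 1) : ℝ) / (ε h : ℕ)) ≤
        (Yg Φ D R ε (fun x => (Vn x : ℝ) / Vd) (h + 1) x : ℝ) / R := by
      rw [le_div_iff₀ hR', mul_comm]
      exact Nat.le_ceil _
    rw [rpow_div_le_iff h0 (by positivity) (hε h hh), div_pow, div_pow,
      div_le_div_iff₀ (by positivity) (by positivity)] at h1
    exact_mod_cast h1

theorem treeLo_Zg {Φ D R r : ℕ} {ε Vn : ℕ → ℕ} {Vd : ℕ} (hD : 0 < D) (hR : 0 < R) (hVd : 0 < Vd)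
    (hΦ : 0 < Φ) (hε : ∀ h < r, 0 < ε h) :
    TreeLo Φ r D R ε Vn Vd (Zg Φ D R ε (fun x => (Vn x : ℝ) / Vd)) := by
  have hR' : (0 : ℝ) < R := by exact_mod_cast hR
  have hVd' : (0 : ℝ) < Vd := by exact_mod_cast hVd
  have hΦ' : (0 : ℝ) < Φ := by exact_mod_cast hΦ
  constructor
  · intro x _
    have h0 : (0 : ℝ) ≤ (Vn x : ℝ) / Vd := by positivity
    have h1 : (Zg Φ D R ε (fun x => (Vn x : ℝ) / Vd) 0 x : ℝ) / R ≤
        ((Vn x : ℝ) / Vd) ^ ((ε 0 : ℝ) / D) := by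
      rw [div_le_iff₀ hR', mul_comm]
      exact Nat.floor_le (by positivity)
    rw [le_rpow_div_iff h0 (by positivity) hD, div_pow, div_pow,
      div_le_div_iff₀ (by positivity) (by positivity)] at h1
    have h2 : (Vd : ℝ) ^ ε 0 * (Zg Φ D R ε (fun x => (Vn x : ℝ) / Vd) 0 x : ℝ) ^ D ≤
        (Vn x : ℝ) ^ ε 0 * (R : ℝ) ^ D := by linarith
    exact_mod_cast h2
  · intro h hh x _
    have h0 : (0 : ℝ) ≤ (∑ y ∈ range Φ, (Zg Φ D R ε (fun x => (Vn x : ℝ) / Vd) h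
        (Φ * x + y) : ℝ)) / (R * Φ) := by positivity
    have h1 : (Zg Φ D R ε (fun x => (Vn x : ℝ) / Vd) (h + 1) x : ℝ) / R ≤
        ((∑ y ∈ range Φ, (Zg Φ D R ε (fun x => (Vn x : ℝ) / Vd) h
        (Φ * x + y) : ℝ)) / (R * Φ)) ^ ((ε (h + 1) : ℝ) / (ε h : ℕ)) := by
      rw [div_le_iff₀ hR', mul_comm]
      exact Nat.floor_le (by positivity)
    rw [le_rpow_div_iff h0 (by positivity) (hε h hh), div_pow, div_pow,
      div_le_div_iff₀ (by positivity) (by positivity)] at h1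
    exact_mod_cast h1

theorem Yg_le {Φ D R : ℕ} {ε : ℕ → ℕ} {G : ℕ → ℝ} (hΦ : 0 < Φ) (hR : 0 < R)
    (hG : ∀ x, 0 ≤ G x ∧ G x ≤ 1) (h x : ℕ) : Yg Φ D R ε G h x ≤ R := by
  have hR' : (0 : ℝ) < R := by exact_mod_cast hR
  have hΦ' : (0 : ℝ) < Φ := by exact_mod_cast hΦ
  have key : ∀ (t s : ℝ), 0 ≤ t → t ≤ 1 → 0 ≤ s → ⌈(R : ℝ) * t ^ s⌉₊ ≤ R := by
    intro t s h0 h1 hs
    refine Nat.ceil_le.2 ?_
    calc (R : ℝ) * t ^ s ≤ R * 1 :=
          mul_le_mul_of_nonneg_left (Real.rpow_le_one h0 h1 hs) hR'.le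
      _ = R := mul_one _
  induction h generalizing x with
  | zero => exact key _ _ (hG x).1 (hG x).2 (by positivity)
  | succ h ih =>
    refine key _ _ (by positivity) ?_ (by positivity)
    rw [div_le_one (by positivity)]
    calc ∑ y ∈ range Φ, (Yg Φ D R ε G h (Φ * x + y) : ℝ) ≤ ∑ _y ∈ range Φ, (R : ℝ) :=
          Finset.sum_le_sum fun y _ => by exact_mod_cast ih (Φ * x + y)
      _ = R * Φ := by simp [mul_comm]

end Crest.Agent.R153
end

-- ▼ part R153/GridComplete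
section

/-!
Row 153, right certificate: completeness of the certificate.
-/

set_option autoImplicit false

namespace Crest.Agent.R153

open Finset Filter Topology Crest.ProbabilityR.Diluted

/-- Lower bound of the Poisson weight used in the certificate. -/
noncomputable def wt (c : ℝ) (n k : ℕ) : ℝ :=
  (c * 3) ^ k / (k.factorial : ℝ) * (1 - c * 3 / n) ^ n

theorem tendsto_wt (c : ℝ) (k : ℕ) :
    Tendsto (fun n : ℕ => wt c n k) atTop (𝓝 (poissonWeight (c * 3) k)) := by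
  have h1 := Real.tendsto_one_add_div_pow_exp (-(c * 3))
  have h2 : Tendsto (fun n : ℕ => (c * 3) ^ k / (k.factorial : ℝ) * (1 + -(c * 3) / n) ^ n) atTop
      (𝓝 ((c * 3) ^ k / (k.factorial : ℝ) * Real.exp (-(c * 3)))) := h1.const_mul _
  have h3 : (c * 3) ^ k / (k.factorial : ℝ) * Real.exp (-(c * 3)) = poissonWeight (c * 3) k := by
    unfold poissonWeight; ring
  rw [h3] at h2
  refine h2.congr fun n => ?_
  unfold wt
  rw [neg_div, ← sub_eq_add_neg]

theorem wt_eq {a κ n k : ℕ} (hn : 0 < n) : wt ((a : ℝ) / 2 ^ κ) n k =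
    ((3 * a) ^ k * (n * 2 ^ κ - 3 * a) ^ n : ℝ) /
        (k.factorial * (2 ^ κ) ^ k * (n * 2 ^ κ) ^ n) := by
  have hn : (0 : ℝ) < n := by exact_mod_cast hn
  unfold wt
  have h1 : (1 - (a : ℝ) / 2 ^ κ * 3 / n) = (n * 2 ^ κ - 3 * a) / (n * 2 ^ κ) := by
    field_simp
  have h2 : ((a : ℝ) / 2 ^ κ * 3) ^ k = (3 * a) ^ k / (2 ^ κ) ^ k := by
    rw [div_mul_eq_mul_div, div_pow, mul_comm (a : ℝ) 3]
  rw [h1, h2, div_pow]
  field_simp

theorem hv_of_real {v P A R a κ n k : ℕ} (hP : 0 < P) (hR : 0 < R) (hn : 0 < n)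
    (han : 3 * a ≤ n * 2 ^ κ)
    (h : (v : ℝ) / R ≤ wt ((a : ℝ) / 2 ^ κ) n k * (1 - (A : ℝ) / (P * R))) :
    v * (P * (k.factorial * (2 ^ κ) ^ k * (n * 2 ^ κ) ^ n)) +
      (3 * a) ^ k * (n * 2 ^ κ - 3 * a) ^ n * A ≤
      (3 * a) ^ k * (n * 2 ^ κ - 3 * a) ^ n * (P * R) := by
  have hP' : (0 : ℝ) < P := by exact_mod_cast hP
  have hR' : (0 : ℝ) < R := by exact_mod_cast hR
  have hn' : (0 : ℝ) < n := by exact_mod_cast hn
  have h2 : ((n * 2 ^ κ - 3 * a : ℕ) : ℝ) = (n : ℝ) * 2 ^ κ - 3 * a := by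
    rw [Nat.cast_sub han]; push_cast; ring
  rw [wt_eq hn, div_le_iff₀ hR'] at h
  have h3 : ((3 * a) ^ k * (n * 2 ^ κ - 3 * a) ^ n : ℝ) /
      (k.factorial * (2 ^ κ) ^ k * (n * 2 ^ κ) ^ n) *
      (1 - (A : ℝ) / (P * R)) * R =
      (((3 * a) ^ k * (n * 2 ^ κ - 3 * a) ^ n : ℝ) * (P * R) -
      ((3 * a) ^ k * (n * 2 ^ κ - 3 * a) ^ n : ℝ) * A) /
      (P * (k.factorial * (2 ^ κ) ^ k * (n * 2 ^ κ) ^ n)) := by
    field_simp
  rw [h3, le_div_iff₀ (by positivity)] at h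
  have h4 : ((v * (P * (k.factorial * (2 ^ κ) ^ k * (n * 2 ^ κ) ^ n)) +
      (3 * a) ^ k * (n * 2 ^ κ - 3 * a) ^ n * A : ℕ) : ℝ) ≤
      (((3 * a) ^ k * (n * 2 ^ κ - 3 * a) ^ n * (P * R) : ℕ) : ℝ) := by
    push_cast [h2]
    linarith
  exact_mod_cast h4

theorem exists_cert {b K Q r : ℕ} {q : ℕ → ℕ} (hK : 0 < K)
    (hq : ∀ i < K ^ (r + 1), 0 < q i ∧ q i < Q) {D0 : ℕ} (hD0 : 0 < D0) {e : ℕ → ℕ}
    (he : ∀ h < r, 0 < e h ∧ e h < D0) (he' : ∀ h < r - 1, e (h + 1) < e h) {a κ : ℕ}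
    (ha : 0 < a) (hB : gridB b K Q r q (fun h => (e h : ℝ) / D0) ((a : ℝ) / 2 ^ κ) < 0) :
    ∃ c : Cert, c.Valid a κ := by
  set μ : ℕ → ℝ := fun h => (e h : ℝ) / D0 with hμdef
  set cc : ℝ := (a : ℝ) / 2 ^ κ with hcc
  have hcc0 : 0 < cc := by
    have : (0 : ℝ) < a := by exact_mod_cast ha
    positivity
  have hD0' : (0 : ℝ) < D0 := by exact_mod_cast hD0
  have hQ : 0 < Q := Q_pos hK hq
  have hKr : (0 : ℝ) < K := by exact_mod_cast hK
  have hμ : ∀ h < r, 0 < μ h := fun h hh => by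
    have : (0 : ℝ) < e h := by exact_mod_cast (he h hh).1
    exact div_pos this hD0'
  -- values of the nested means
  have hTs : ∀ k J x, 0 < SM (K ^ (k * 2)) μ (Gs b K Q r q k J) r x := fun k J x =>
    (by positivity : (0 : ℝ) < (((2 : ℝ) ^ b)⁻¹) ^ k).trans_le
      (SM_bounds (Nat.pow_pos hK) hμ (by positivity) (Gs_bounds hK hq k J) r le_rfl x).1
  have hTe : ∀ J x, 0 < SM (K ^ 3) μ (Ge b K Q r q J) r x := fun J x =>
    (by positivity : (0 : ℝ) < ((2 : ℝ) ^ b)⁻¹).trans_le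
      (SM_bounds (Nat.pow_pos hK) hμ (by positivity) (Ge_bounds hK hq J) r le_rfl x).1
  -- stage 1
  obtain ⟨M, hM⟩ : ∃ M : ℕ, Real.log 2 +
      (∑ k ∈ range M, poissonWeight (cc * 3) k * gSiteAvg b K Q r q μ k) -
      cc * 2 * gEdgeAvg b K Q r q μ < 0 := by
    have hs := (summable_gSiteAvg (b := b) hK hq hμ (lam := cc * 3) (by positivity)).hasSum.tendsto_sum_nat
    have h1 : Tendsto (fun M : ℕ => Real.log 2 +
      (∑ k ∈ range M, poissonWeight (cc * 3) k * gSiteAvg b K Q r q μ k) -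
      cc * 2 * gEdgeAvg b K Q r q μ) atTop (𝓝 (gridB b K Q r q μ cc)) :=
      (hs.const_add (Real.log 2)).sub_const _
    exact (h1.eventually (gt_mem_nhds hB)).exists
  -- stage 2
  obtain ⟨n, hn3, hn⟩ : ∃ n : ℕ, 3 * a ≤ n ∧ Real.log 2 +
      (∑ k ∈ range M, wt cc n k * gSiteAvg b K Q r q μ k) -
      cc * 2 * gEdgeAvg b K Q r q μ < 0 := by
    have h1 : Tendsto (fun n : ℕ => Real.log 2 +
      (∑ k ∈ range M, wt cc n k * gSiteAvg b K Q r q μ k) -
      cc * 2 * gEdgeAvg b K Q r q μ) atTop (𝓝 (Real.log 2 +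
      (∑ k ∈ range M, poissonWeight (cc * 3) k * gSiteAvg b K Q r q μ k) -
      cc * 2 * gEdgeAvg b K Q r q μ)) :=
      ((tendsto_finsetSum _ fun k _ => (tendsto_wt cc k).mul_const _).const_add _).sub_const _
    exact ((eventually_ge_atTop (3 * a)).and (h1.eventually (gt_mem_nhds hM))).exists
  have hn0 : 0 < n := by omega
  have hn0' : (0 : ℝ) < n := by exact_mod_cast hn0
  have han : 3 * a ≤ n * 2 ^ κ := hn3.trans (Nat.le_mul_of_pos_right _ (by positivity))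
  have hccn : cc * 3 ≤ n := by
    have h' : (3 : ℝ) * a ≤ n * 2 ^ κ := by exact_mod_cast han
    rw [hcc, div_mul_eq_mul_div, div_le_iff₀ (by positivity)]
    linarith
  have hwt0 : ∀ k, 0 ≤ wt cc n k := fun k => (poissonWeight_ge cc hcc0.le n hn0 hccn k).1
  -- stage 3
  set F : ℕ → ℝ → ℝ := fun N x => ((D0 * N : ℕ) : ℝ) * (x ^ ((1 : ℝ) / ((D0 * N : ℕ) : ℝ)) - 1)
    with hF
  have hFt : ∀ x : ℝ, 0 < x → Tendsto (fun N => F N x) atTop (𝓝 (Real.log x)) := fun x hx =>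
    tendsto_mul_rpow_sub_one hx hD0
  obtain ⟨N, hN0, hN⟩ : ∃ N : ℕ, 0 < N ∧ F N 2 +
      (∑ k ∈ range M, wt cc n k * ((∑ J ∈ range (8 ^ k), (∑ x ∈ range (K ^ (k * 2)),
        F N (SM (K ^ (k * 2)) μ (Gs b K Q r q k J) r x)) / ((K ^ (k * 2) : ℕ) : ℝ)) / 8 ^ k)) +
      cc * 2 * ((∑ J ∈ range 8, (∑ x ∈ range (K ^ 3),
        F N (SM (K ^ 3) μ (Ge b K Q r q J) r x)⁻¹) / ((K ^ 3 : ℕ) : ℝ)) / 8) < 0 := by
    have h1 : Tendsto (fun N : ℕ => F N 2 +
      (∑ k ∈ range M, wt cc n k * ((∑ J ∈ range (8 ^ k), (∑ x ∈ range (K ^ (k * 2)),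
        F N (SM (K ^ (k * 2)) μ (Gs b K Q r q k J) r x)) / ((K ^ (k * 2) : ℕ) : ℝ)) / 8 ^ k)) +
      cc * 2 * ((∑ J ∈ range 8, (∑ x ∈ range (K ^ 3),
        F N (SM (K ^ 3) μ (Ge b K Q r q J) r x)⁻¹) / ((K ^ 3 : ℕ) : ℝ)) / 8)) atTop
      (𝓝 (Real.log 2 +
      (∑ k ∈ range M, wt cc n k * ((∑ J ∈ range (8 ^ k), (∑ x ∈ range (K ^ (k * 2)),
        Real.log (SM (K ^ (k * 2)) μ (Gs b K Q r q k J) r x)) / ((K ^ (k * 2) : ℕ) : ℝ)) / 8 ^ k)) +
      cc * 2 * ((∑ J ∈ range 8, (∑ x ∈ range (K ^ 3),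
        Real.log (SM (K ^ 3) μ (Ge b K Q r q J) r x)⁻¹) / ((K ^ 3 : ℕ) : ℝ)) / 8))) := by
      refine ((hFt 2 (by norm_num)).add ?_).add ?_
      · refine tendsto_finsetSum _ fun k _ => Tendsto.const_mul _ (Tendsto.div_const ?_ _)
        refine tendsto_finsetSum _ fun J _ => Tendsto.div_const ?_ _
        exact tendsto_finsetSum _ fun x _ => hFt _ (hTs k J x)
      · refine Tendsto.const_mul _ (Tendsto.div_const ?_ _)
        refine tendsto_finsetSum _ fun J _ => Tendsto.div_const ?_ _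
        exact tendsto_finsetSum _ fun x _ => hFt _ (inv_pos.2 (hTe J x))
    have h2 : Real.log 2 +
      (∑ k ∈ range M, wt cc n k * ((∑ J ∈ range (8 ^ k), (∑ x ∈ range (K ^ (k * 2)),
        Real.log (SM (K ^ (k * 2)) μ (Gs b K Q r q k J) r x)) / ((K ^ (k * 2) : ℕ) : ℝ)) / 8 ^ k)) +
      cc * 2 * ((∑ J ∈ range 8, (∑ x ∈ range (K ^ 3),
        Real.log (SM (K ^ 3) μ (Ge b K Q r q J) r x)⁻¹) / ((K ^ 3 : ℕ) : ℝ)) / 8) < 0 := by
      refine lt_of_eq_of_lt ?_ hn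
      unfold gSiteAvg gEdgeAvg logAvg
      simp only [Real.log_inv, Finset.sum_neg_distrib, neg_div]
      ring
    exact ((eventually_gt_atTop 0).and (h1.eventually (gt_mem_nhds h2))).exists
  set D : ℕ := D0 * N with hDdef
  have hD : 0 < D := Nat.mul_pos hD0 hN0
  have hD' : (0 : ℝ) < D := by exact_mod_cast hD
  have hN0' : (0 : ℝ) < N := by exact_mod_cast hN0
  set ε : ℕ → ℕ := fun h => if h < r then e h * N else 1 with hε
  have hεr : ε r = 1 := by simp [hε]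
  have hεh : ∀ h < r, ε h = e h * N := fun h hh => by simp [hε, hh]
  have hε0 : ∀ h < r, 0 < ε h := fun h hh => by
    rw [hεh h hh]; exact Nat.mul_pos (he h hh).1 hN0
  have hμε : ∀ h < r, μ h = (ε h : ℝ) / D := fun h hh => by
    rw [hεh h hh, hμdef, hDdef]
    push_cast
    field_simp
  -- ideal inequality
  have hI : (2 : ℝ) ^ ((1 : ℝ) / D) + 2 * cc * ((∑ J ∈ range 8, ∑ x ∈ range (K ^ 3),
      (SM (K ^ 3) μ (Ge b K Q r q J) r x ^ ((1 : ℝ) / D))⁻¹) / (8 * K ^ 3)) <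
      1 + (∑ k ∈ range M, wt cc n k * (1 - (∑ J ∈ range (8 ^ k), ∑ x ∈ range (K ^ (k * 2)),
        SM (K ^ (k * 2)) μ (Gs b K Q r q k J) r x ^ ((1 : ℝ) / D)) / (8 ^ k * K ^ (k * 2)))) +
      2 * cc := by
    have e1 : ∀ k, ((∑ J ∈ range (8 ^ k), (∑ x ∈ range (K ^ (k * 2)),
        F N (SM (K ^ (k * 2)) μ (Gs b K Q r q k J) r x)) / ((K ^ (k * 2) : ℕ) : ℝ)) / 8 ^ k) =
        -(D * (1 - (∑ J ∈ range (8 ^ k), ∑ x ∈ range (K ^ (k * 2)),
        SM (K ^ (k * 2)) μ (Gs b K Q r q k J) r x ^ ((1 : ℝ) / D)) / (8 ^ k * K ^ (k * 2)))) := by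
      intro k
      rw [← Finset.sum_div]
      simp only [hF, ← hDdef, ← Finset.mul_sum, Finset.sum_sub_distrib]
      simp only [Finset.sum_const, card_range, nsmul_eq_mul, mul_one]
      push_cast
      field_simp
      ring
    have e2 : ((∑ J ∈ range 8, (∑ x ∈ range (K ^ 3),
        F N (SM (K ^ 3) μ (Ge b K Q r q J) r x)⁻¹) / ((K ^ 3 : ℕ) : ℝ)) / 8) =
        D * ((∑ J ∈ range 8, ∑ x ∈ range (K ^ 3),
      (SM (K ^ 3) μ (Ge b K Q r q J) r x ^ ((1 : ℝ) / D))⁻¹) / (8 * K ^ 3) - 1) := by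
      rw [← Finset.sum_div]
      have e3 : ∀ J x, ((SM (K ^ 3) μ (Ge b K Q r q J) r x)⁻¹) ^ ((1 : ℝ) / D) =
          (SM (K ^ 3) μ (Ge b K Q r q J) r x ^ ((1 : ℝ) / D))⁻¹ := fun J x =>
        Real.inv_rpow (hTe J x).le _
      simp only [hF, ← hDdef, e3, ← Finset.mul_sum, Finset.sum_sub_distrib]
      simp only [Finset.sum_const, card_range, nsmul_eq_mul, mul_one]
      push_cast
      field_simp
    simp only [e1] at hN
    rw [e2] at hN
    simp only [hF, ← hDdef] at hN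
    have e4 : (D : ℝ) * ((2 : ℝ) ^ ((1 : ℝ) / D) - 1) +
        (∑ k ∈ range M, wt cc n k * -(D * (1 - (∑ J ∈ range (8 ^ k), ∑ x ∈ range (K ^ (k * 2)),
        SM (K ^ (k * 2)) μ (Gs b K Q r q k J) r x ^ ((1 : ℝ) / D)) / (8 ^ k * K ^ (k * 2))))) +
        cc * 2 * (D * ((∑ J ∈ range 8, ∑ x ∈ range (K ^ 3),
      (SM (K ^ 3) μ (Ge b K Q r q J) r x ^ ((1 : ℝ) / D))⁻¹) / (8 * K ^ 3) - 1)) =
        D * (((2 : ℝ) ^ ((1 : ℝ) / D) + 2 * cc * ((∑ J ∈ range 8, ∑ x ∈ range (K ^ 3),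
      (SM (K ^ 3) μ (Ge b K Q r q J) r x ^ ((1 : ℝ) / D))⁻¹) / (8 * K ^ 3))) -
      (1 + (∑ k ∈ range M, wt cc n k * (1 - (∑ J ∈ range (8 ^ k), ∑ x ∈ range (K ^ (k * 2)),
        SM (K ^ (k * 2)) μ (Gs b K Q r q k J) r x ^ ((1 : ℝ) / D)) / (8 ^ k * K ^ (k * 2)))) +
      2 * cc)) := by
      have e5 : (∑ k ∈ range M, wt cc n k * -(D * (1 - (∑ J ∈ range (8 ^ k),
        ∑ x ∈ range (K ^ (k * 2)), SM (K ^ (k * 2)) μ (Gs b K Q r q k J) r x ^ ((1 : ℝ) / D)) /
          (8 ^ k * K ^ (k * 2))))) =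
          -(D * ∑ k ∈ range M, wt cc n k * (1 - (∑ J ∈ range (8 ^ k), ∑ x ∈ range (K ^ (k * 2)),
        SM (K ^ (k * 2)) μ (Gs b K Q r q k J) r x ^ ((1 : ℝ) / D)) / (8 ^ k * K ^ (k * 2)))) := by
        rw [Finset.mul_sum, ← Finset.sum_neg_distrib]
        exact Finset.sum_congr rfl fun k _ => by ring
      rw [e5]
      ring
    rw [e4] at hN
    have := (pos_iff_neg_of_mul_neg hN).1 hD'
    linarith
  -- stage 4: the tables
  set Y : ℕ → ℕ → ℕ → ℕ → ℕ → ℕ := fun R k J => Yg (K ^ (k * 2)) D R ε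
    (fun x => (siteNum b K Q r k q J x : ℝ) / (siteDen b Q k : ℕ)) with hY
  set Z : ℕ → ℕ → ℕ → ℕ → ℕ := fun R J => Zg (K ^ 3) D R ε
    (fun x => (edgeNum b K Q r q J x : ℝ) / (edgeDen b Q : ℕ)) with hZ
  have hYt : ∀ k J x, Tendsto (fun R : ℕ => (Y R k J r x : ℝ) / R) atTop
      (𝓝 (SM (K ^ (k * 2)) μ (Gs b K Q r q k J) r x ^ ((1 : ℝ) / D))) := by
    intro k J x
    have h1 := tendsto_Yg (Φ := K ^ (k * 2)) (ε := ε)
      (G := fun x => (siteNum b K Q r k q J x : ℝ) / (siteDen b Q k : ℕ)) hD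
      (fun x => by positivity) hε0 hμε r le_rfl x
    rw [hεr, Nat.cast_one] at h1
    exact h1
  have hZt : ∀ J x, Tendsto (fun R : ℕ => (Z R J r x : ℝ) / R) atTop
      (𝓝 (SM (K ^ 3) μ (Ge b K Q r q J) r x ^ ((1 : ℝ) / D))) := by
    intro J x
    have h1 := tendsto_Zg (Φ := K ^ 3) (ε := ε)
      (G := fun x => (edgeNum b K Q r q J x : ℝ) / (edgeDen b Q : ℕ)) hD
      (fun x => by positivity) hε0 hμε r le_rfl x
    rw [hεr, Nat.cast_one] at h1
    exact h1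
  have hTe' : ∀ J x, 0 < SM (K ^ 3) μ (Ge b K Q r q J) r x ^ ((1 : ℝ) / D) := fun J x =>
    Real.rpow_pos_of_pos (hTe J x) _
  set zt : ℕ → ℕ → ℕ → ℕ := fun R J x => ⌈(R : ℝ) * ((R : ℝ) / (Z R J r x : ℝ))⌉₊ with hzt
  have hztt : ∀ J x, Tendsto (fun R : ℕ => (zt R J x : ℝ) / R) atTop
      (𝓝 (SM (K ^ 3) μ (Ge b K Q r q J) r x ^ ((1 : ℝ) / D))⁻¹) := by
    intro J x
    refine tendsto_ceil_div (f := fun R : ℕ => (R : ℝ) / (Z R J r x : ℝ)) ?_ fun R => by positivity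
    refine ((hZt J x).inv₀ (hTe' J x).ne').congr fun R => ?_
    rw [inv_div]
  set A : ℕ → ℕ → ℕ := fun R k => ∑ J ∈ range (8 ^ k), ∑ x ∈ range (K ^ (k * 2)), Y R k J r x
    with hA
  have hAle : ∀ R, 0 < R → ∀ k, A R k ≤ (8 ^ k * K ^ (k * 2)) * R := by
    intro R hR k
    have h1 : ∀ J x, Y R k J r x ≤ R := fun J x =>
      Yg_le (Nat.pow_pos hK) hR (fun x =>
        ⟨(by positivity : (0 : ℝ) ≤ (((2 : ℝ) ^ b)⁻¹) ^ k).trans (Gs_bounds hK hq k J x).1,
          (Gs_bounds hK hq k J x).2⟩) r x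
    calc A R k ≤ ∑ J ∈ range (8 ^ k), ∑ x ∈ range (K ^ (k * 2)), R :=
          Finset.sum_le_sum fun J _ => Finset.sum_le_sum fun x _ => h1 J x
      _ = _ := by simp [mul_assoc]
  set v : ℕ → ℕ → ℕ := fun R k => ⌊(R : ℝ) * max 0 (wt cc n k *
    (1 - (A R k : ℝ) / (((8 ^ k * K ^ (k * 2) : ℕ) : ℝ) * R)))⌋₊ with hv
  have hAt : ∀ k, Tendsto (fun R : ℕ => (A R k : ℝ) / (((8 ^ k * K ^ (k * 2) : ℕ) : ℝ) * R)) atTop
      (𝓝 ((∑ J ∈ range (8 ^ k), ∑ x ∈ range (K ^ (k * 2)),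
        SM (K ^ (k * 2)) μ (Gs b K Q r q k J) r x ^ ((1 : ℝ) / D)) / (8 ^ k * K ^ (k * 2)))) := by
    intro k
    have h1 : Tendsto (fun R : ℕ => (∑ J ∈ range (8 ^ k), ∑ x ∈ range (K ^ (k * 2)),
        (Y R k J r x : ℝ) / R) / (8 ^ k * K ^ (k * 2))) atTop
      (𝓝 ((∑ J ∈ range (8 ^ k), ∑ x ∈ range (K ^ (k * 2)),
        SM (K ^ (k * 2)) μ (Gs b K Q r q k J) r x ^ ((1 : ℝ) / D)) / (8 ^ k * K ^ (k * 2)))) :=
      (tendsto_finsetSum _ fun J _ => tendsto_finsetSum _ fun x _ => hYt k J x).div_const _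
    refine h1.congr fun R => ?_
    rw [hA]
    simp only [← Finset.sum_div]
    push_cast
    rw [div_div, mul_comm (R : ℝ)]
  have hvt : ∀ k, Tendsto (fun R : ℕ => (v R k : ℝ) / R) atTop
      (𝓝 (wt cc n k * (1 - (∑ J ∈ range (8 ^ k), ∑ x ∈ range (K ^ (k * 2)),
        SM (K ^ (k * 2)) μ (Gs b K Q r q k J) r x ^ ((1 : ℝ) / D)) / (8 ^ k * K ^ (k * 2))))) := by
    intro k
    refine tendsto_floor_div ?_ fun R => le_max_left _ _
    have h1 : Tendsto (fun R : ℕ => wt cc n k *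
        (1 - (A R k : ℝ) / (((8 ^ k * K ^ (k * 2) : ℕ) : ℝ) * R))) atTop
        (𝓝 (wt cc n k * (1 - (∑ J ∈ range (8 ^ k), ∑ x ∈ range (K ^ (k * 2)),
        SM (K ^ (k * 2)) μ (Gs b K Q r q k J) r x ^ ((1 : ℝ) / D)) / (8 ^ k * K ^ (k * 2))))) :=
      ((hAt k).const_sub 1).const_mul _
    refine h1.congr' ?_
    filter_upwards [eventually_gt_atTop 0] with R hR
    rw [max_eq_right]
    refine mul_nonneg (hwt0 k) ?_
    have hR' : (0 : ℝ) < R := by exact_mod_cast hR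
    have h2 : (A R k : ℝ) ≤ ((8 ^ k * K ^ (k * 2) : ℕ) : ℝ) * R := by exact_mod_cast hAle R hR k
    have h3 : (0 : ℝ) < ((8 ^ k * K ^ (k * 2) : ℕ) : ℝ) * R := by
      have : 0 < 8 ^ k * K ^ (k * 2) := by positivity
      have : (0 : ℝ) < ((8 ^ k * K ^ (k * 2) : ℕ) : ℝ) := by exact_mod_cast this
      positivity
    rw [sub_nonneg, div_le_one h3]
    exact h2
  set τ : ℕ → ℕ := fun R => ⌈(R : ℝ) * (2 : ℝ) ^ ((1 : ℝ) / D)⌉₊ with hτ
  have hτt : Tendsto (fun R : ℕ => (τ R : ℝ) / R) atTop (𝓝 ((2 : ℝ) ^ ((1 : ℝ) / D))) :=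
    tendsto_ceil_div tendsto_const_nhds fun R => by positivity
  -- choose R
  obtain ⟨R, hR, hRZ, hRI⟩ : ∃ R : ℕ, 0 < R ∧
      (∀ J ∈ range 8, ∀ x ∈ range (K ^ 3), 0 < Z R J r x) ∧
      (τ R : ℝ) / R + 2 * cc * ((∑ J ∈ range 8, ∑ x ∈ range (K ^ 3), (zt R J x : ℝ) / R) /
        (8 * K ^ 3)) < 1 + (∑ k ∈ range M, (v R k : ℝ) / R) + 2 * cc := by
    have h1 : Tendsto (fun R : ℕ => (τ R : ℝ) / R + 2 * cc *
        ((∑ J ∈ range 8, ∑ x ∈ range (K ^ 3), (zt R J x : ℝ) / R) / (8 * K ^ 3))) atTop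
        (𝓝 ((2 : ℝ) ^ ((1 : ℝ) / D) + 2 * cc * ((∑ J ∈ range 8, ∑ x ∈ range (K ^ 3),
      (SM (K ^ 3) μ (Ge b K Q r q J) r x ^ ((1 : ℝ) / D))⁻¹) / (8 * K ^ 3)))) :=
      hτt.add (((tendsto_finsetSum _ fun J _ => tendsto_finsetSum _ fun x _ =>
        hztt J x).div_const _).const_mul _)
    have h2 : Tendsto (fun R : ℕ => 1 + (∑ k ∈ range M, (v R k : ℝ) / R) + 2 * cc) atTop
        (𝓝 (1 + (∑ k ∈ range M, wt cc n k * (1 - (∑ J ∈ range (8 ^ k), ∑ x ∈ range (K ^ (k * 2)),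
        SM (K ^ (k * 2)) μ (Gs b K Q r q k J) r x ^ ((1 : ℝ) / D)) / (8 ^ k * K ^ (k * 2)))) +
      2 * cc)) := ((tendsto_finsetSum _ fun k _ => hvt k).const_add _).add_const _
    have h3 := h1.eventually_lt h2 hI
    have h4 : ∀ᶠ R : ℕ in atTop, ∀ J ∈ range 8, ∀ x ∈ range (K ^ 3), 0 < Z R J r x := by
      rw [eventually_all_finset]
      intro J _
      rw [eventually_all_finset]
      intro x _
      filter_upwards [(hZt J x).eventually (lt_mem_nhds (hTe' J x))] with R hR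
      by_contra h0
      have : Z R J r x = 0 := by omega
      rw [this] at hR
      simp at hR
    exact ((eventually_gt_atTop 0).and (h4.and h3)).exists
  have hR' : (0 : ℝ) < R := by exact_mod_cast hR
  refine ⟨⟨b, r, K, Q, D, R, n, M, τ R, ε, q, v R, Y R, Z R, zt R⟩, ?_⟩
  refine ⟨ha, hK, hD, hR, hn0, han, hεr, fun h hh => ?_, fun h hh => ?_, hq, ?_, ?_, ?_, ?_, ?_, ?_⟩
  · refine ⟨hε0 h hh, ?_⟩
    show ε h < D
    rw [hεh h hh, hDdef]
    exact Nat.mul_lt_mul_of_pos_right (he h hh).2 hN0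
  · show ε (h + 1) < ε h
    have hh1 : h < r - 1 := hh
    rw [hεh h (by omega), hεh (h + 1) (by omega)]
    exact Nat.mul_lt_mul_of_pos_right (he' h hh1) hN0
  · show 2 * R ^ D ≤ τ R ^ D
    have h1 : (2 : ℝ) ^ (((1 : ℕ) : ℝ) / D) ≤ (τ R : ℝ) / R := by
      rw [le_div_iff₀ hR', mul_comm, Nat.cast_one]
      exact Nat.le_ceil _
    rw [rpow_div_le_iff (by norm_num) (by positivity) hD, div_pow, le_div_iff₀ (by positivity),
      pow_one] at h1
    exact_mod_cast h1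
  · intro k _ J _
    exact treeUp_Yg hD hR (siteDen_pos hQ k) (Nat.pow_pos hK) hε0
  · intro J _
    exact treeLo_Zg hD hR (edgeDen_pos hQ) (Nat.pow_pos hK) hε0
  · intro J hJ x hx
    show R * R ≤ zt R J x * Z R J r x
    have hZ0 := hRZ J (mem_range.2 hJ) x (mem_range.2 hx)
    have hZ0' : (0 : ℝ) < Z R J r x := by exact_mod_cast hZ0
    have h1 : (R : ℝ) * ((R : ℝ) / (Z R J r x : ℝ)) ≤ zt R J x := Nat.le_ceil _
    rw [mul_div_assoc', div_le_iff₀ hZ0'] at h1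
    exact_mod_cast h1
  · intro k _
    refine hv_of_real (P := 8 ^ k * K ^ (k * 2)) (A := A R k) (by positivity) hR hn0 han ?_
    show (v R k : ℝ) / R ≤ _
    have h2 : (A R k : ℝ) ≤ ((8 ^ k * K ^ (k * 2) : ℕ) : ℝ) * R := by exact_mod_cast hAle R hR k
    have h3 : (0 : ℝ) < ((8 ^ k * K ^ (k * 2) : ℕ) : ℝ) * R := by
      have : 0 < 8 ^ k * K ^ (k * 2) := by positivity
      have : (0 : ℝ) < ((8 ^ k * K ^ (k * 2) : ℕ) : ℝ) := by exact_mod_cast this
      positivity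
    have h4 : 0 ≤ wt cc n k * (1 - (A R k : ℝ) / (((8 ^ k * K ^ (k * 2) : ℕ) : ℝ) * R)) := by
      refine mul_nonneg (hwt0 k) ?_
      rw [sub_nonneg, div_le_one h3]
      exact h2
    rw [div_le_iff₀ hR', mul_comm]
    have h5 := Nat.floor_le (mul_nonneg hR'.le (le_max_left (0 : ℝ) (wt cc n k *
      (1 - (A R k : ℝ) / (((8 ^ k * K ^ (k * 2) : ℕ) : ℝ) * R)))))
    rw [max_eq_right h4] at h5
    have h6 : v R k = ⌊(R : ℝ) * (wt cc n k *
      (1 - (A R k : ℝ) / (((8 ^ k * K ^ (k * 2) : ℕ) : ℝ) * R)))⌋₊ := by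
      rw [hv]
      simp only
      rw [max_eq_right h4]
    rw [h6]
    exact h5
  · show τ R * (2 ^ κ * (8 * K ^ 3)) + 2 * a * (∑ J ∈ range 8, ∑ x ∈ range (K ^ 3), zt R J x) <
      (R + ∑ k ∈ range M, v R k) * (2 ^ κ * (8 * K ^ 3)) + 2 * a * R * (8 * K ^ 3)
    simp only [← Finset.sum_div] at hRI
    have h1 : (τ R : ℝ) / R + 2 * cc * ((∑ J ∈ range 8, ∑ x ∈ range (K ^ 3), (zt R J x : ℝ)) / R /
        (8 * K ^ 3)) = ((τ R : ℝ) * (2 ^ κ * (8 * K ^ 3)) +
        2 * a * (∑ J ∈ range 8, ∑ x ∈ range (K ^ 3), (zt R J x : ℝ))) /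
        (R * (2 ^ κ * (8 * K ^ 3))) := by
      rw [hcc]
      field_simp
    have h2 : 1 + (∑ k ∈ range M, (v R k : ℝ)) / R + 2 * cc =
        ((R + ∑ k ∈ range M, (v R k : ℝ)) * (2 ^ κ * (8 * K ^ 3)) + 2 * a * R * (8 * K ^ 3)) /
        (R * (2 ^ κ * (8 * K ^ 3))) := by
      rw [hcc]
      field_simp
    rw [h1, h2, div_lt_div_iff_of_pos_right (by positivity)] at hRI
    exact_mod_cast hRI

end Crest.Agent.R153
end

-- ▼ part R153/GridEval
section

/-!
Row 153, right certificate: the trial functional of a grid trial is `gridB`.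
-/

set_option autoImplicit false

namespace Crest.Agent.R153

open MeasureTheory Finset Crest.ProbabilityR.Diluted

theorem finFun_digit {m n : ℕ} (f : Fin n → Fin m) (b : Fin n) :
    (finFunctionFinEquiv f : ℕ) / m ^ (b : ℕ) % m = f b := by
  have h := congrFun (finFunctionFinEquiv.symm_apply_apply f) b
  exact congrArg Fin.val h

section code

variable {L : Type} [Fintype L] [DecidableEq L] {nL : ℕ} (e : L ≃ Fin nL) {K r : ℕ}

/-- Code of a word indexed by the labels. -/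
def lcode (v : L → Fin (K + 1)) : ℕ := (finFunctionFinEquiv (fun i => v (e.symm i)) : Fin _)

omit [Fintype L] [DecidableEq L] in
theorem lcode_lt (v : L → Fin (K + 1)) : lcode e v < (K + 1) ^ nL := Fin.is_lt _

omit [Fintype L] [DecidableEq L] in
theorem lcode_digit (v : L → Fin (K + 1)) (ω : L) :
    lcode e v / (K + 1) ^ (e ω : ℕ) % (K + 1) = v ω := by
  unfold lcode
  rw [finFun_digit]
  simp

theorem sum_lcode (F : ℕ → ℝ) :
    ∑ v : L → Fin (K + 1), F (lcode e v) = ∑ y ∈ range ((K + 1) ^ nL), F y := by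
  rw [Finset.sum_range]
  have := Equiv.sum_comp ((Equiv.arrowCongr e (Equiv.refl (Fin (K + 1)))).trans
    finFunctionFinEquiv) (fun i : Fin ((K + 1) ^ nL) => F i)
  rw [← this]
  rfl

/-- Level code of an array of letters. -/
def lev (c : L → Fin (r + 1) → Fin (K + 1)) (j : ℕ) : ℕ :=
  if h : j < r + 1 then lcode e (fun ω => c ω ⟨j, h⟩) else 0

/-- Prefix code. -/
def pc (c : L → Fin (r + 1) → Fin (K + 1)) : ℕ → ℕ
  | 0 => lev e c 0
  | j + 1 => (K + 1) ^ nL * pc c j + lev e c (j + 1)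

omit [Fintype L] [DecidableEq L] in
theorem lev_lt (c : L → Fin (r + 1) → Fin (K + 1)) (j : ℕ) : lev e c j < (K + 1) ^ nL := by
  unfold lev
  split_ifs
  · exact lcode_lt e _
  · positivity

omit [Fintype L] [DecidableEq L] in
theorem pc_congr (c c' : L → Fin (r + 1) → Fin (K + 1)) (j : ℕ)
    (h : ∀ i : Fin (r + 1), i.val ≤ j → ∀ ω, c ω i = c' ω i) : pc e c j = pc e c' j := by
  have hl : ∀ i ≤ j, lev e c i = lev e c' i := by
    intro i hi
    unfold lev
    split_ifs with h1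
    · have : (fun ω => c ω ⟨i, h1⟩) = (fun ω => c' ω ⟨i, h1⟩) := by
        funext ω; exact h ⟨i, h1⟩ hi ω
      rw [this]
    · rfl
  induction j with
  | zero => exact hl 0 le_rfl
  | succ j ih =>
    simp only [pc]
    rw [ih (fun i hi => h i (by omega)) (fun i hi => hl i (by omega)), hl (j + 1) le_rfl]

omit [Fintype L] [DecidableEq L] in
theorem pc_digit (c : L → Fin (r + 1) → Fin (K + 1)) (j i : ℕ) (hi : i ≤ j) :
    pc e c j / ((K + 1) ^ nL) ^ i % (K + 1) ^ nL = lev e c (j - i) := by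
  have hpos : 0 < (K + 1) ^ nL := by positivity
  induction j generalizing i with
  | zero =>
    have : i = 0 := by omega
    subst this
    simp only [pc, pow_zero, Nat.div_one]
    exact Nat.mod_eq_of_lt (lev_lt e c 0)
  | succ j ih =>
    cases i with
    | zero =>
      simp only [pc, pow_zero, Nat.div_one, Nat.mul_add_mod_self_left, tsub_zero]
      exact Nat.mod_eq_of_lt (lev_lt e c (j + 1))
    | succ i =>
      rw [pow_succ', ← Nat.div_div_eq_div_mul]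
      have h1 : pc e c (j + 1) / (K + 1) ^ nL = pc e c j := by
        simp only [pc]
        rw [Nat.mul_add_div hpos, Nat.div_eq_of_lt (lev_lt e c (j + 1)), add_zero]
      rw [h1, ih i (by omega)]
      congr 1
      omega

/-- Code of the path of one label. -/
def pathIdx (d : Fin (r + 1) → Fin (K + 1)) : ℕ :=
  ∑ i ∈ range (r + 1), (if h : r - i < r + 1 then (d ⟨r - i, h⟩ : ℕ) else 0) * (K + 1) ^ i

theorem pathIdx_lt (d : Fin (r + 1) → Fin (K + 1)) : pathIdx d < (K + 1) ^ (r + 1) := by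
  unfold pathIdx
  refine digits_lt (fun i => if h : r - i < r + 1 then (d ⟨r - i, h⟩ : ℕ) else 0)
    (fun i => ?_) (r + 1)
  split_ifs
  · exact Fin.is_lt _
  · positivity

omit [Fintype L] [DecidableEq L] in
theorem pathN_pc (c : L → Fin (r + 1) → Fin (K + 1)) (ω : L) :
    pathN (K + 1) nL r (pc e c r) (e ω) = pathIdx (c ω) := by
  unfold pathN pathIdx
  refine Finset.sum_congr rfl fun i hi => ?_
  have hi' : i ≤ r := by have := mem_range.1 hi; omega
  congr 1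
  rw [pc_digit e c r i hi']
  unfold lev
  have h : r - i < r + 1 := by omega
  rw [dif_pos h, dif_pos h, lcode_digit]

theorem fPM_eq (μ : ℕ → ℝ) (G : ℕ → ℝ) (g : (L → Fin (r + 1) → Fin (K + 1)) → ℝ)
    (hg : ∀ c, g c = G (pc e c r)) (c : L → Fin (r + 1) → Fin (K + 1)) :
    fPM (fun d : Fin r => μ (r - 1 - d)) g c = SM ((K + 1) ^ nL) μ G r (lev e c 0) := by
  have hcard : Fintype.card L = nL := by rw [Fintype.card_congr e, Fintype.card_fin]
  have key : ∀ n j : ℕ, j + n = r → ∀ c : L → Fin (r + 1) → Fin (K + 1),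
      ((List.finRange r).drop j).foldr
        (fun (d : Fin r) acc => fpmStep (μ (r - 1 - d)) d.succ acc) g c =
      SM ((K + 1) ^ nL) μ G n (pc e c j) := by
    intro n
    induction n with
    | zero =>
      intro j hj c
      have hj' : j = r := by omega
      subst hj'
      rw [List.drop_of_length_le (by simp)]
      simp only [List.foldr_nil, SM]
      exact hg c
    | succ n ih =>
      intro j hj c
      have hjr : j < (List.finRange r).length := by simp; omega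
      rw [List.drop_eq_getElem_cons hjr, List.foldr_cons]
      have hjr' : j < r := by omega
      have hget : (List.finRange r)[j] = ⟨j, hjr'⟩ := by simp
      rw [hget]
      have hμ : r - 1 - j = n := by omega
      simp only [fpmStep, SM, hμ]
      congr 1
      rw [hcard, ← sum_lcode e, inv_mul_eq_div]
      push_cast
      congr 1
      refine Finset.sum_congr rfl fun v _ => ?_
      congr 1
      rw [ih (j + 1) (by omega)]
      congr 1
      simp only [pc]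
      congr 1
      · congr 1
        refine pc_congr e _ _ j fun i hi ω => ?_
        rw [if_neg]
        intro h
        rw [h] at hi
        simp at hi
      · unfold lev
        rw [dif_pos (by omega)]
        simp
  have := key r 0 (by omega) c
  simpa [fPM, pc] using this

/-- Integral of the logarithm of nested power means of a function of the cells. -/
theorem integral_log_powerMeans_grid (μ : ℕ → ℝ) (G : ℕ → ℝ)
    (g : (L → Fin (r + 1) → Fin (K + 1)) → ℝ) (hg : ∀ c, g c = G (pc e c r)) :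
    ∫ u, Real.log (powerMeans (fun d : Fin r => μ (r - 1 - d)) (fun u' => g (cells K u')) u)
      ∂(uniformArrays L r) = logAvg ((K + 1) ^ nL) r μ G := by
  have hcard : Fintype.card L = nL := by rw [Fintype.card_congr e, Fintype.card_fin]
  simp only [powerMeans_cells, fPM_eq e μ G g hg]
  have h1 : ∀ u : L → Fin (r + 1) → unitInterval,
      lev e (cells K u) 0 = lcode e (fun ω => cell K (u ω 0)) := by
    intro u
    unfold lev cells
    rw [dif_pos (by omega)]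
    rfl
  simp only [h1]
  have hmp : MeasurePreserving (fun (u : L → Fin (r + 1) → unitInterval) (ω : L) => u ω 0)
      (uniformArrays L r) (Measure.pi fun _ : L => (volume : Measure unitInterval)) :=
    measurePreserving_pi _ _ (fun _ => measurePreserving_eval _ 0)
  have hmeas : Measurable (fun v : L → unitInterval =>
      Real.log (SM ((K + 1) ^ nL) μ G r (lcode e (fun ω => cell K (v ω))))) := by
    have h2 : Measurable (fun (v : L → unitInterval) (ω : L) => cell K (v ω)) :=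
      measurable_pi_lambda _ fun ω => (measurable_cell K).comp (measurable_pi_apply ω)
    exact (measurable_of_finite (fun s : L → Fin (K + 1) =>
      Real.log (SM ((K + 1) ^ nL) μ G r (lcode e s)))).comp h2
  have h3 := hmp.map_eq ▸ (integral_map hmp.measurable.aemeasurable
    (hmeas.aestronglyMeasurable (μ := Measure.map
      (fun (u : L → Fin (r + 1) → unitInterval) (ω : L) => u ω 0) (uniformArrays L r))))
  rw [← h3]
  rw [integral_cell (ι := L) K
    (fun s => Real.log (SM ((K + 1) ^ nL) μ G r (lcode e s))),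
    sum_lcode e (fun y => Real.log (SM ((K + 1) ^ nL) μ G r y)), hcard]
  unfold logAvg
  push_cast
  rw [inv_mul_eq_div]

end code

/-! ### Patterns -/

/-- Code of a sign pattern. -/
def eB : (Fin 3 → Bool) ≃ Fin 8 :=
  (Equiv.arrowCongr (Equiv.refl (Fin 3)) finTwoEquiv.symm).trans
    (finFunctionFinEquiv (m := 2) (n := 3))

theorem eB_bit (s : Fin 3 → Bool) (l : Fin 3) :
    bitN (eB s : ℕ) l = if s l then 1 else 0 := by
  unfold bitN eB
  have h := finFun_digit (m := 2) (n := 3)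
    ((Equiv.arrowCongr (Equiv.refl (Fin 3)) finTwoEquiv.symm) s) l
  refine h.trans ?_
  simp only [Equiv.arrowCongr_apply, Equiv.refl_symm, Equiv.coe_refl, Function.comp_id,
    Function.comp_apply]
  cases s l <;> rfl

/-- Code of a family of sign patterns. -/
def eJ (k : ℕ) : (Fin k → Fin 3 → Bool) ≃ Fin (8 ^ k) :=
  (Equiv.arrowCongr (Equiv.refl (Fin k)) eB).trans finFunctionFinEquiv

theorem eJ_digit {k : ℕ} (J : Fin k → Fin 3 → Bool) (j : Fin k) :
    (eJ k J : ℕ) / 8 ^ (j : ℕ) % 8 = eB (J j) :=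
  finFun_digit (m := 8) (n := k) ((Equiv.arrowCongr (Equiv.refl (Fin k)) eB) J) j

theorem sum_eJ {k : ℕ} (F : ℕ → ℝ) :
    ∑ J : Fin k → Fin 3 → Bool, F (eJ k J : ℕ) = ∑ J ∈ range (8 ^ k), F J := by
  rw [Finset.sum_range]
  exact Equiv.sum_comp (eJ k) (fun i : Fin (8 ^ k) => F i)

theorem sum_eB (F : ℕ → ℝ) :
    ∑ s : Fin 3 → Bool, F (eB s : ℕ) = ∑ J ∈ range 8, F J := by
  rw [Finset.sum_range]
  exact Equiv.sum_comp eB (fun i : Fin 8 => F i)

/-! ### The grid trial -/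

/-- The trial law given by the table `q` with denominator `Q`. -/
noncomputable def gX (r K Q : ℕ) (q : ℕ → ℕ) (u : Fin (r + 1) → unitInterval) : ℝ :=
  msg ((q (pathIdx (fun j => cell K (u j))) : ℝ) / Q)

theorem measurable_gX (r K Q : ℕ) (q : ℕ → ℕ) : Measurable (gX r K Q q) := by
  have h2 : Measurable (fun (u : Fin (r + 1) → unitInterval) (j : Fin (r + 1)) => cell K (u j)) :=
    measurable_pi_lambda _ fun ω => (measurable_cell K).comp (measurable_pi_apply ω)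
  exact (measurable_of_finite (fun s : Fin (r + 1) → Fin (K + 1) =>
    msg ((q (pathIdx s) : ℝ) / Q))).comp h2

theorem tilt_table {Q q : ℕ} (h : 0 < q ∧ q < Q) (s : Bool) (bit : ℕ)
    (hbit : bit = if s then 1 else 0) :
    tilt (msg ((q : ℝ) / Q)) s = (aval Q bit q : ℝ) / Q := by
  have hq : (0 : ℝ) < q := by exact_mod_cast h.1
  have hqQ : (q : ℝ) < Q := by exact_mod_cast h.2
  have hQ : (0 : ℝ) < Q := hq.trans hqQ
  have h0 : 0 < (q : ℝ) / Q := by positivity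
  have h1 : (q : ℝ) / Q < 1 := (div_lt_one hQ).2 hqQ
  cases s with
  | true =>
    rw [tilt_msg_true h0 h1, hbit]
    simp [aval, Good.iteN]
  | false =>
    rw [tilt_msg_false h0 h1, hbit]
    simp only [aval, Good.iteN, Bool.false_eq_true, if_false, if_true]
    rw [Nat.cast_sub h.2.le]
    field_simp

theorem exp_neg_b (b : ℕ) : Real.exp (-((b : ℝ) * Real.log 2)) = ((2 : ℝ) ^ b)⁻¹ := by
  rw [Real.exp_neg, mul_comm, Real.exp_mul, Real.exp_log (by norm_num), Real.rpow_natCast]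

theorem one_sub_exp (b : ℕ) : 1 - Real.exp (-((b : ℝ) * Real.log 2)) =
    ((2 : ℝ) ^ b - 1) / 2 ^ b := by
  rw [exp_neg_b]; field_simp

theorem two_pow_sub_cast (b : ℕ) : ((2 ^ b - 1 : ℕ) : ℝ) = (2 : ℝ) ^ b - 1 := by
  rw [Nat.cast_sub Nat.one_le_two_pow]; push_cast; ring

theorem edgeNum_cast {b K Q r : ℕ} {q : ℕ → ℕ} (hK : 0 < K)
    (hq : ∀ i < K ^ (r + 1), 0 < q i ∧ q i < Q) (J x : ℕ) :
    (edgeNum b K Q r q J x : ℝ) = 2 ^ b * (Q : ℝ) ^ 3 - ((2 : ℝ) ^ b - 1) *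
      ∏ l ∈ range 3, (aval Q (bitN J l) (q (pathN K 3 r x l)) : ℝ) := by
  have h1 : ∏ l ∈ range 3, aval Q (bitN J l) (q (pathN K 3 r x l)) ≤
      ∏ _l ∈ range 3, Q := Finset.prod_le_prod' fun l _ =>
    (aval_bounds (hq _ (pathN_lt hK _ _ _ _))).2.le
  simp only [Finset.prod_const, Finset.card_range] at h1
  have h2 : (2 ^ b - 1) * ∏ l ∈ range 3, aval Q (bitN J l) (q (pathN K 3 r x l)) ≤
      2 ^ b * Q ^ 3 := Nat.mul_le_mul (Nat.sub_le _ _) h1
  unfold edgeNum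
  rw [Nat.cast_sub h2, Nat.cast_mul (2 ^ b - 1), two_pow_sub_cast]
  push_cast
  ring

theorem siteA_cast {b K Q r k : ℕ} {q : ℕ → ℕ} (hK : 0 < K)
    (hq : ∀ i < K ^ (r + 1), 0 < q i ∧ q i < Q) (J x j : ℕ) :
    (siteA b K Q r k q J x j : ℝ) = 2 ^ b * (Q : ℝ) ^ 2 - ((2 : ℝ) ^ b - 1) *
      ∏ l ∈ range 2, (aval Q (bitN (J / 8 ^ j % 8) l)
        (q (pathN K (k * 2) r x (l + 2 * j))) : ℝ) := by
  have h1 : ∏ l ∈ range 2, aval Q (bitN (J / 8 ^ j % 8) l)
      (q (pathN K (k * 2) r x (l + 2 * j))) ≤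
      ∏ _l ∈ range 2, Q := Finset.prod_le_prod' fun l _ =>
    (aval_bounds (hq _ (pathN_lt hK _ _ _ _))).2.le
  simp only [Finset.prod_const, Finset.card_range] at h1
  have h2 : (2 ^ b - 1) * ∏ l ∈ range 2, aval Q (bitN (J / 8 ^ j % 8) l)
      (q (pathN K (k * 2) r x (l + 2 * j))) ≤
      2 ^ b * Q ^ 2 := Nat.mul_le_mul (Nat.sub_le _ _) h1
  unfold siteA
  rw [Nat.cast_sub h2, Nat.cast_mul (2 ^ b - 1), two_pow_sub_cast]
  push_cast
  ring

section eval

variable {b K Q r : ℕ} {q : ℕ → ℕ}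

/-- The edge term in the coded form. -/
theorem edgeTerm_eq (hq : ∀ i < (K + 1) ^ (r + 1), 0 < q i ∧ q i < Q) (s : Fin 3 → Bool)
    (c : Fin 3 → Fin (r + 1) → Fin (K + 1)) :
    edgeTerm (satInter ((b : ℝ) * Real.log 2) s)
      (fun ℓ => msg ((q (pathIdx (c ℓ)) : ℝ) / Q)) =
    Ge b (K + 1) Q r q (eB s) (pc (Equiv.refl (Fin 3)) c r) := by
  have hQ : (0 : ℝ) < Q := by exact_mod_cast Q_pos (Nat.succ_pos K) hq
  rw [edgeTerm_satInter, one_sub_exp]
  unfold Ge edgeDen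
  rw [edgeNum_cast (Nat.succ_pos K) hq, Finset.prod_range]
  have h1 : ∀ l : Fin 3, tilt (msg ((q (pathIdx (c l)) : ℝ) / Q)) (s l) =
      (aval Q (bitN (eB s : ℕ) l) (q (pathN (K + 1) 3 r (pc (Equiv.refl (Fin 3)) c r) l)) : ℝ) /
        Q := by
    intro l
    have h2 : pathN (K + 1) 3 r (pc (Equiv.refl (Fin 3)) c r) l = pathIdx (c l) :=
      pathN_pc (Equiv.refl (Fin 3)) c l
    rw [h2]
    exact tilt_table (hq _ (pathIdx_lt _)) (s l) _ (eB_bit s l)
  simp only [h1]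
  rw [Finset.prod_div_distrib]
  simp only [Finset.prod_const, Finset.card_univ, Fintype.card_fin]
  push_cast
  field_simp

/-- The site term in the coded form. -/
theorem siteTerm_eq (hq : ∀ i < (K + 1) ^ (r + 1), 0 < q i ∧ q i < Q) {k : ℕ}
    (J : Fin k → Fin 3 → Bool) (c : Fin k × Fin 2 → Fin (r + 1) → Fin (K + 1)) :
    siteTerm (p := 3) 0 (fun j => satInter ((b : ℝ) * Real.log 2) (J j))
      (fun j ℓ => msg ((q (pathIdx (c (j, ℓ))) : ℝ) / Q)) =
    Gs b (K + 1) Q r q k (eJ k J) (pc finProdFinEquiv c r) := by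
  have hQ : (0 : ℝ) < Q := by exact_mod_cast Q_pos (Nat.succ_pos K) hq
  have hW : (0 : ℝ) < 2 ^ b * (Q : ℝ) ^ 2 := by positivity
  rw [siteTerm_satInter]
  unfold Gs siteDen siteNum
  have h1 : ∀ (j : Fin k) (l : Fin 2), tilt (msg ((q (pathIdx (c (j, l))) : ℝ) / Q))
      (J j (Fin.castSucc l)) =
      (aval Q (bitN ((eJ k J : ℕ) / 8 ^ (j : ℕ) % 8) l)
        (q (pathN (K + 1) (k * 2) r (pc finProdFinEquiv c r) (l + 2 * j))) : ℝ) / Q := by
    intro j l
    have h2 : pathN (K + 1) (k * 2) r (pc finProdFinEquiv c r) (l + 2 * j) =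
        pathIdx (c (j, l)) := pathN_pc finProdFinEquiv c (j, l)
    rw [h2, eJ_digit]
    exact tilt_table (hq _ (pathIdx_lt _)) (J j (Fin.castSucc l)) _
      (eB_bit (J j) (Fin.castSucc l))
  have h2 : ∀ j : Fin k, 1 - (1 - Real.exp (-((b : ℝ) * Real.log 2))) *
      (tilt (msg ((q (pathIdx (c (j, 0))) : ℝ) / Q)) (J j 0) *
        tilt (msg ((q (pathIdx (c (j, 1))) : ℝ) / Q)) (J j 1)) =
      (siteA b (K + 1) Q r k q (eJ k J) (pc finProdFinEquiv c r) j : ℝ) /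
        (2 ^ b * (Q : ℝ) ^ 2) := by
    intro j
    have e0 := h1 j 0
    have e1 := h1 j 1
    simp only [Fin.castSucc_zero, Fin.castSucc_one] at e0 e1
    rw [siteA_cast (Nat.succ_pos K) hq, one_sub_exp, e0, e1]
    rw [Finset.prod_range_succ, Finset.prod_range_one]
    simp only [Fin.val_zero, Fin.val_one]
    field_simp
  have h3 : ∀ (j : Fin k) (ε : Bool), msgW ((b : ℝ) * Real.log 2) (J j)
      (fun ℓ => msg ((q (pathIdx (c (j, ℓ))) : ℝ) / Q)) ε =
      ((if ε = J j 2 then siteA b (K + 1) Q r k q (eJ k J) (pc finProdFinEquiv c r) j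
        else 2 ^ b * Q ^ 2 : ℕ) : ℝ) / (2 ^ b * (Q : ℝ) ^ 2) := by
    intro j ε
    unfold msgW
    split_ifs with h
    · exact h2 j
    · push_cast
      rw [div_self hW.ne']; ring
  have hbit : ∀ j : Fin k, bitN ((eJ k J : ℕ) / 8 ^ (j : ℕ) % 8) 2 =
      if J j 2 then 1 else 0 := by
    intro j
    rw [eJ_digit]
    exact eB_bit (J j) 2
  have h4 : (∏ j ∈ range k, Good.iteN (bitN ((eJ k J : ℕ) / 8 ^ j % 8) 2)
      (siteA b (K + 1) Q r k q (eJ k J) (pc finProdFinEquiv c r) j) (2 ^ b * Q ^ 2)) =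
      ∏ j : Fin k, (if true = J j 2 then siteA b (K + 1) Q r k q (eJ k J)
        (pc finProdFinEquiv c r) j else 2 ^ b * Q ^ 2) := by
    rw [Finset.prod_range]
    refine Finset.prod_congr rfl fun j _ => ?_
    rw [hbit]
    cases J j 2 <;> simp [Good.iteN]
  have h5 : (∏ j ∈ range k, Good.iteN (bitN ((eJ k J : ℕ) / 8 ^ j % 8) 2) (2 ^ b * Q ^ 2)
      (siteA b (K + 1) Q r k q (eJ k J) (pc finProdFinEquiv c r) j)) =
      ∏ j : Fin k, (if false = J j 2 then siteA b (K + 1) Q r k q (eJ k J)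
        (pc finProdFinEquiv c r) j else 2 ^ b * Q ^ 2) := by
    rw [Finset.prod_range]
    refine Finset.prod_congr rfl fun j _ => ?_
    rw [hbit]
    cases J j 2 <;> simp [Good.iteN]
  rw [h4, h5, Fintype.sum_bool]
  simp only [h3]
  rw [Finset.prod_div_distrib, Finset.prod_div_distrib]
  simp only [Finset.prod_const, Finset.card_univ, Fintype.card_fin]
  push_cast
  field_simp

/-- **Evaluation of the trial functional at a grid trial.** -/
theorem trialFunctional_grid (b K Q r : ℕ) (q : ℕ → ℕ)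
    (hq : ∀ i < (K + 1) ^ (r + 1), 0 < q i ∧ q i < Q) (μ : ℕ → ℝ) (c : ℝ) :
    trialFunctional 3 c (muSAT ((b : ℝ) * Real.log 2)) (Measure.dirac 0) r
      (fun d : Fin r => μ (r - 1 - d)) (gX r K Q q) = gridB b (K + 1) Q r q μ c := by
  rw [trialFunctional_muSAT]
  have hs : ∀ k : ℕ, siteAvg ((b : ℝ) * Real.log 2) r (fun d : Fin r => μ (r - 1 - d))
      (gX r K Q q) k = gSiteAvg b (K + 1) Q r q μ k := by
    intro k
    unfold siteAvg gSiteAvg
    rw [inv_mul_eq_div, ← sum_eJ (fun J => logAvg ((K + 1) ^ (k * 2)) r μ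
      (Gs b (K + 1) Q r q k J))]
    congr 1
    refine Finset.sum_congr rfl fun J _ => ?_
    exact integral_log_powerMeans_grid (L := Fin k × Fin 2) finProdFinEquiv μ
      (Gs b (K + 1) Q r q k (eJ k J))
      (fun c => siteTerm (p := 3) 0 (fun j => satInter ((b : ℝ) * Real.log 2) (J j))
        (fun j ℓ => msg ((q (pathIdx (c (j, ℓ))) : ℝ) / Q)))
      (fun c => siteTerm_eq hq J c)
  have he : edgeAvg ((b : ℝ) * Real.log 2) r (fun d : Fin r => μ (r - 1 - d))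
      (gX r K Q q) = gEdgeAvg b (K + 1) Q r q μ := by
    unfold edgeAvg gEdgeAvg
    rw [one_div, inv_mul_eq_div, ← sum_eB (fun J => logAvg ((K + 1) ^ 3) r μ
      (Ge b (K + 1) Q r q J))]
    congr 1
    refine Finset.sum_congr rfl fun s _ => ?_
    exact integral_log_powerMeans_grid (L := Fin 3) (Equiv.refl (Fin 3)) μ
      (Ge b (K + 1) Q r q (eB s))
      (fun c => edgeTerm (satInter ((b : ℝ) * Real.log 2) s)
        (fun ℓ => msg ((q (pathIdx (c ℓ)) : ℝ) / Q)))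
      (fun c => edgeTerm_eq hq s c)
  unfold gridB
  simp only [hs, he]
  ring

end eval

end Crest.Agent.R153
private theorem rz_735217395a : type_of% @_root_.Crest.Agent.R153.pc.eq_def := @_root_.Crest.Agent.R153.pc.eq_def -- L49
private theorem rz_cc18bc3a6d : type_of% @_root_.Crest.Agent.R153.pc.eq_1 := @_root_.Crest.Agent.R153.pc.eq_1 -- L49
end

-- ▼ part R153/PMTend
section

/-!
Row 153, part C4: continuity of the nested power means in the exponents and in the integrand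
(almost everywhere convergence of uniformly bounded, uniformly positive integrands).
-/

set_option autoImplicit false

open MeasureTheory Filter Topology Crest.ProbabilityR.Diluted

namespace Crest.Agent.R153

/-- Replace the level-`lvl` coordinate of one label. -/
def rep1 {r : ℕ} (lvl : Fin (r + 1)) (p : (Fin (r + 1) → unitInterval) × unitInterval) :
    Fin (r + 1) → unitInterval := fun j => if j = lvl then p.2 else p.1 j

lemma measurable_rep1 {r : ℕ} (lvl : Fin (r + 1)) : Measurable (rep1 lvl) := by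
  refine measurable_pi_lambda _ fun j => ?_
  by_cases h : j = lvl
  · simp only [rep1, h, if_true]; exact measurable_snd
  · simp only [rep1, h, if_false]; exact (measurable_pi_apply j).comp measurable_fst

lemma measurePreserving_rep1 {r : ℕ} (lvl : Fin (r + 1)) :
    MeasurePreserving (rep1 lvl)
      ((Measure.pi fun _ : Fin (r + 1) => (volume : Measure unitInterval)).prod
        (volume : Measure unitInterval))
      (Measure.pi fun _ : Fin (r + 1) => (volume : Measure unitInterval)) := by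
  refine ⟨measurable_rep1 lvl, ?_⟩
  symm
  refine Measure.pi_eq fun s hs => ?_
  rw [Measure.map_apply (measurable_rep1 lvl) (MeasurableSet.univ_pi hs)]
  have hpre : rep1 lvl ⁻¹' (Set.univ.pi s) =
      (Set.univ.pi fun j => if j = lvl then Set.univ else s j) ×ˢ s lvl := by
    ext ⟨x, y⟩
    simp only [Set.mem_preimage, Set.mem_univ_pi, rep1, Set.mem_prod]
    constructor
    · intro h
      refine ⟨fun j => ?_, by simpa using h lvl⟩
      by_cases hj : j = lvl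
      · simp [hj]
      · simpa [hj] using h j
    · rintro ⟨h1, h2⟩ j
      by_cases hj : j = lvl
      · subst hj; simpa using h2
      · simpa [hj] using h1 j
  rw [hpre, Measure.prod_prod, Measure.pi_pi]
  rw [← Finset.mul_prod_erase Finset.univ (fun j => volume (s j)) (Finset.mem_univ lvl),
    ← Finset.mul_prod_erase Finset.univ
      (fun j => volume (if j = lvl then Set.univ else s j)) (Finset.mem_univ lvl)]
  simp only [if_true, measure_univ, one_mul]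
  rw [mul_comm]
  congr 1
  refine Finset.prod_congr rfl fun j hj => ?_
  rw [if_neg (Finset.ne_of_mem_erase hj)]

/-- Replace the level-`lvl` coordinates of all labels. -/
def rep {L : Type*} {r : ℕ} (lvl : Fin (r + 1))
    (p : (L → Fin (r + 1) → unitInterval) × (L → unitInterval)) :
    L → Fin (r + 1) → unitInterval := fun ω j => if j = lvl then p.2 ω else p.1 ω j

lemma measurable_rep {L : Type*} {r : ℕ} (lvl : Fin (r + 1)) : Measurable (rep (L := L) lvl) := by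
  refine measurable_pi_lambda _ fun ω => measurable_pi_lambda _ fun j => ?_
  by_cases h : j = lvl
  · simp only [rep, h, if_true]; exact (measurable_pi_apply ω).comp measurable_snd
  · simp only [rep, h, if_false]
    exact (measurable_pi_apply j).comp ((measurable_pi_apply ω).comp measurable_fst)

lemma measurePreserving_rep {L : Type*} [Fintype L] {r : ℕ} (lvl : Fin (r + 1)) :
    MeasurePreserving (rep (L := L) lvl)
      ((uniformArrays L r).prod (Measure.pi fun _ : L => (volume : Measure unitInterval)))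
      (uniformArrays L r) := by
  have h1 := (measurePreserving_arrowProdEquivProdArrow (Fin (r + 1) → unitInterval)
    unitInterval L
    (fun _ => Measure.pi fun _ : Fin (r + 1) => (volume : Measure unitInterval))
    (fun _ => (volume : Measure unitInterval))).symm
  have h2 := measurePreserving_pi
    (fun _ : L => ((Measure.pi fun _ : Fin (r + 1) => (volume : Measure unitInterval)).prod
        (volume : Measure unitInterval)))
    (fun _ : L => (Measure.pi fun _ : Fin (r + 1) => (volume : Measure unitInterval)))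
    (fun _ => measurePreserving_rep1 lvl)
  exact h2.comp h1

instance {L : Type*} [Fintype L] {r : ℕ} : IsProbabilityMeasure (uniformArrays L r) := by
  unfold uniformArrays; infer_instance

/-- Almost every property of arrays holds almost surely after resampling one level. -/
lemma ae_rep {L : Type*} [Fintype L] {r : ℕ} (lvl : Fin (r + 1))
    {P : (L → Fin (r + 1) → unitInterval) → Prop} (h : ∀ᵐ u ∂(uniformArrays L r), P u) :
    ∀ᵐ u ∂(uniformArrays L r),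
      ∀ᵐ v ∂(Measure.pi fun _ : L => (volume : Measure unitInterval)), P (rep lvl (u, v)) := by
  have h1 := (measurePreserving_rep (L := L) lvl).quasiMeasurePreserving.ae h
  exact Measure.ae_ae_of_ae_prod h1

lemma pmStep_eq {L : Type*} [Fintype L] {r : ℕ} (m : ℝ) (lvl : Fin (r + 1))
    (W : (L → Fin (r + 1) → unitInterval) → ℝ) (u : L → Fin (r + 1) → unitInterval) :
    pmStep m lvl W u = (∫ v, (W (rep lvl (u, v))) ^ m
      ∂(Measure.pi fun _ : L => (volume : Measure unitInterval))) ^ (1 / m) := rfl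

lemma measurable_pmStep {L : Type*} [Fintype L] {r : ℕ} (m : ℝ) (lvl : Fin (r + 1))
    {W : (L → Fin (r + 1) → unitInterval) → ℝ} (hW : Measurable W) :
    Measurable (pmStep m lvl W) := by
  have h1 : Measurable (fun p : (L → Fin (r + 1) → unitInterval) × (L → unitInterval) =>
      (W (rep lvl p)) ^ m) := (hW.comp (measurable_rep lvl)).pow_const m
  have h2 : Measurable (fun u : L → Fin (r + 1) → unitInterval =>
      ∫ v, (W (rep lvl (u, v))) ^ m
        ∂(Measure.pi fun _ : L => (volume : Measure unitInterval))) :=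
    (h1.stronglyMeasurable.integral_prod_right (ν := Measure.pi fun _ : L =>
      (volume : Measure unitInterval))).measurable
  exact h2.pow_const (1 / m)

lemma rpow_bounds {a b x m : ℝ} (ha : 0 < a) (h1 : a ≤ x) (h2 : x ≤ b) (hm : 0 < m) :
    a ^ m ≤ x ^ m ∧ x ^ m ≤ b ^ m :=
  ⟨Real.rpow_le_rpow ha.le h1 hm.le, Real.rpow_le_rpow (ha.le.trans h1) h2 hm.le⟩

lemma integrable_rpow {L : Type*} [Fintype L] {r : ℕ} {m : ℝ} (hm : 0 < m) (lvl : Fin (r + 1))
    {W : (L → Fin (r + 1) → unitInterval) → ℝ} (hW : Measurable W) {a b : ℝ} (ha : 0 < a)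
    (hab : ∀ u, a ≤ W u ∧ W u ≤ b) (u : L → Fin (r + 1) → unitInterval) :
    Integrable (fun v => (W (rep lvl (u, v))) ^ m)
      (Measure.pi fun _ : L => (volume : Measure unitInterval)) := by
  refine Integrable.of_bound (C := b ^ m) ?_ ?_
  · exact ((hW.comp ((measurable_rep lvl).comp measurable_prodMk_left)).pow_const m).aestronglyMeasurable
  · refine ae_of_all _ fun v => ?_
    obtain ⟨h1, h2⟩ := rpow_bounds ha (hab (rep lvl (u, v))).1 (hab (rep lvl (u, v))).2 hm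
    rw [Real.norm_of_nonneg (le_trans (Real.rpow_nonneg ha.le _) h1)]
    exact h2

lemma pmStep_bounds {L : Type*} [Fintype L] {r : ℕ} {m : ℝ} (hm : 0 < m) (lvl : Fin (r + 1))
    {W : (L → Fin (r + 1) → unitInterval) → ℝ} (hW : Measurable W) {a b : ℝ} (ha : 0 < a)
    (hab : ∀ u, a ≤ W u ∧ W u ≤ b) (u : L → Fin (r + 1) → unitInterval) :
    a ≤ pmStep m lvl W u ∧ pmStep m lvl W u ≤ b := by
  have hint := integrable_rpow hm lvl hW ha hab u
  have hb : 0 < b := ha.trans_le ((hab u).1.trans (hab u).2)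
  have h1 : a ^ m ≤ ∫ v, (W (rep lvl (u, v))) ^ m
      ∂(Measure.pi fun _ : L => (volume : Measure unitInterval)) := by
    have := integral_mono (μ := Measure.pi fun _ : L => (volume : Measure unitInterval))
      (integrable_const (a ^ m)) hint
      (fun v => (rpow_bounds ha (hab (rep lvl (u, v))).1 (hab (rep lvl (u, v))).2 hm).1)
    simpa using this
  have h2 : ∫ v, (W (rep lvl (u, v))) ^ m
      ∂(Measure.pi fun _ : L => (volume : Measure unitInterval)) ≤ b ^ m := by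
    have := integral_mono (μ := Measure.pi fun _ : L => (volume : Measure unitInterval)) hint
      (integrable_const (b ^ m))
      (fun v => (rpow_bounds ha (hab (rep lvl (u, v))).1 (hab (rep lvl (u, v))).2 hm).2)
    simpa using this
  have ham : 0 < a ^ m := Real.rpow_pos_of_pos ha m
  rw [pmStep_eq]
  constructor
  · calc a = (a ^ m) ^ (1 / m) := by
          rw [← Real.rpow_mul ha.le, mul_one_div_cancel hm.ne', Real.rpow_one]
      _ ≤ _ := Real.rpow_le_rpow ham.le h1 (by positivity)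
  · calc _ ≤ (b ^ m) ^ (1 / m) := Real.rpow_le_rpow (ham.le.trans h1) h2 (by positivity)
      _ = b := by rw [← Real.rpow_mul hb.le, mul_one_div_cancel hm.ne', Real.rpow_one]

/-- Continuity of one power-mean step. -/
lemma tendsto_pmStep {L : Type*} [Fintype L] {r : ℕ} {ι : Type*} {l : Filter ι}
    [l.IsCountablyGenerated] {m : ℝ} (hm : 0 < m) {mn : ι → ℝ} (hmn : Tendsto mn l (𝓝 m))
    (lvl : Fin (r + 1)) {W : (L → Fin (r + 1) → unitInterval) → ℝ}
    {Wn : ι → (L → Fin (r + 1) → unitInterval) → ℝ} (hWn : ∀ n, Measurable (Wn n))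
    {a b : ℝ} (ha : 0 < a) (hab : ∀ u, a ≤ W u ∧ W u ≤ b)
    (habn : ∀ n u, a ≤ Wn n u ∧ Wn n u ≤ b)
    (hlim : ∀ᵐ u ∂(uniformArrays L r), Tendsto (fun n => Wn n u) l (𝓝 (W u))) (hW : Measurable W) :
    ∀ᵐ u ∂(uniformArrays L r),
      Tendsto (fun n => pmStep (mn n) lvl (Wn n) u) l (𝓝 (pmStep m lvl W u)) := by
  filter_upwards [ae_rep lvl hlim] with u hu
  have hb : 0 < b := ha.trans_le ((hab u).1.trans (hab u).2)
  have hev : ∀ᶠ n in l, m / 2 < mn n ∧ mn n < 2 * m :=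
    (hmn.eventually (lt_mem_nhds (by linarith : m / 2 < m))).and
      (hmn.eventually (gt_mem_nhds (by linarith : m < 2 * m)))
  have hI : Tendsto (fun n => ∫ v, (Wn n (rep lvl (u, v))) ^ (mn n)
      ∂(Measure.pi fun _ : L => (volume : Measure unitInterval))) l
      (𝓝 (∫ v, (W (rep lvl (u, v))) ^ m
        ∂(Measure.pi fun _ : L => (volume : Measure unitInterval)))) := by
    refine tendsto_integral_filter_of_dominated_convergence (fun _ => (max 1 b) ^ (2 * m)) ?_ ?_ ?_ ?_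
    · refine Eventually.of_forall fun n => ?_
      exact (((hWn n).comp ((measurable_rep lvl).comp measurable_prodMk_left)).pow_const _).aestronglyMeasurable
    · filter_upwards [hev] with n hn
      refine ae_of_all _ fun v => ?_
      have h0 := habn n (rep lvl (u, v))
      have hpos : 0 < Wn n (rep lvl (u, v)) := ha.trans_le h0.1
      rw [Real.norm_of_nonneg (Real.rpow_nonneg hpos.le _)]
      calc (Wn n (rep lvl (u, v))) ^ (mn n) ≤ (max 1 b) ^ (mn n) :=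
            Real.rpow_le_rpow hpos.le (h0.2.trans (le_max_right _ _)) (by linarith [hn.1])
        _ ≤ (max 1 b) ^ (2 * m) :=
            Real.rpow_le_rpow_of_exponent_le (le_max_left _ _) hn.2.le
    · exact integrable_const _
    · filter_upwards [hu] with v hv
      exact hv.rpow hmn (Or.inl (ha.trans_le (hab _).1).ne')
  rw [pmStep_eq]
  simp only [pmStep_eq]
  have hIpos : 0 < ∫ v, (W (rep lvl (u, v))) ^ m
      ∂(Measure.pi fun _ : L => (volume : Measure unitInterval)) := by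
    have hint := integrable_rpow hm lvl hW ha hab u
    have h1 : a ^ m ≤ ∫ v, (W (rep lvl (u, v))) ^ m
      ∂(Measure.pi fun _ : L => (volume : Measure unitInterval)) := by
      have := integral_mono (μ := Measure.pi fun _ : L => (volume : Measure unitInterval))
        (integrable_const (a ^ m)) hint
        (fun v => (rpow_bounds ha (hab (rep lvl (u, v))).1 (hab (rep lvl (u, v))).2 hm).1)
      simpa using this
    exact (Real.rpow_pos_of_pos ha m).trans_le h1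
  refine hI.rpow ?_ (Or.inl hIpos.ne')
  exact tendsto_const_nhds.div hmn hm.ne'

/-- Measurability and bounds of nested power means along a list of levels. -/
lemma foldr_bounds {L : Type*} [Fintype L] {r : ℕ} (m : Fin r → ℝ) (hm : ∀ d, 0 < m d)
    (ds : List (Fin r)) {W : (L → Fin (r + 1) → unitInterval) → ℝ} (hW : Measurable W) {a b : ℝ}
    (ha : 0 < a) (hab : ∀ u, a ≤ W u ∧ W u ≤ b) :
    Measurable (ds.foldr (fun d acc => pmStep (m d) d.succ acc) W) ∧
      ∀ u, a ≤ ds.foldr (fun d acc => pmStep (m d) d.succ acc) W u ∧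
        ds.foldr (fun d acc => pmStep (m d) d.succ acc) W u ≤ b := by
  induction ds with
  | nil => exact ⟨hW, hab⟩
  | cons d ds ih =>
    refine ⟨measurable_pmStep _ _ ih.1, fun u => ?_⟩
    exact pmStep_bounds (hm d) d.succ ih.1 ha ih.2 u

lemma powerMeans_bounds {L : Type*} [Fintype L] {r : ℕ} (m : Fin r → ℝ) (hm : ∀ d, 0 < m d)
    {W : (L → Fin (r + 1) → unitInterval) → ℝ} (hW : Measurable W) {a b : ℝ}
    (ha : 0 < a) (hab : ∀ u, a ≤ W u ∧ W u ≤ b) :
    Measurable (powerMeans m W) ∧ ∀ u, a ≤ powerMeans m W u ∧ powerMeans m W u ≤ b :=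
  foldr_bounds m hm _ hW ha hab

/-- Continuity of the nested power means. -/
lemma tendsto_powerMeans {L : Type*} [Fintype L] {r : ℕ} {ι : Type*} {l : Filter ι}
    [l.IsCountablyGenerated] {m : Fin r → ℝ} (hm : ∀ d, 0 < m d) {mn : ι → Fin r → ℝ}
    (hmn0 : ∀ n d, 0 < mn n d) (hmn : Tendsto mn l (𝓝 m))
    {W : (L → Fin (r + 1) → unitInterval) → ℝ} (hW : Measurable W)
    {Wn : ι → (L → Fin (r + 1) → unitInterval) → ℝ} (hWn : ∀ n, Measurable (Wn n))
    {a b : ℝ} (ha : 0 < a) (hab : ∀ u, a ≤ W u ∧ W u ≤ b)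
    (habn : ∀ n u, a ≤ Wn n u ∧ Wn n u ≤ b)
    (hlim : ∀ᵐ u ∂(uniformArrays L r), Tendsto (fun n => Wn n u) l (𝓝 (W u))) :
    ∀ᵐ u ∂(uniformArrays L r),
      Tendsto (fun n => powerMeans (mn n) (Wn n) u) l (𝓝 (powerMeans m W u)) := by
  unfold powerMeans
  generalize List.finRange r = ds
  induction ds with
  | nil => exact hlim
  | cons d ds ih =>
    have h1 := foldr_bounds m hm ds hW ha hab
    have h2 := fun n => foldr_bounds (mn n) (hmn0 n) ds (hWn n) ha (habn n)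
    exact tendsto_pmStep (hm d) ((tendsto_pi_nhds.mp hmn) d) d.succ (fun n => (h2 n).1) ha h1.2
      (fun n => (h2 n).2) ih h1.1

lemma abs_log_le_of_bounds {a b x : ℝ} (ha : 0 < a) (h1 : a ≤ x) (h2 : x ≤ b) :
    |Real.log x| ≤ max (|Real.log a|) (|Real.log b|) := by
  have hx : 0 < x := ha.trans_le h1
  have h3 : Real.log a ≤ Real.log x := Real.log_le_log ha h1
  have h4 : Real.log x ≤ Real.log b := Real.log_le_log hx h2
  rcases le_total 0 (Real.log x) with h | h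
  · rw [abs_of_nonneg h]; exact (h4.trans (le_abs_self _)).trans (le_max_right _ _)
  · rw [abs_of_nonpos h]
    exact ((neg_le_neg h3).trans (neg_le_abs _)).trans (le_max_left _ _)

/-- Continuity of the expected logarithm of the nested power means. -/
lemma tendsto_integral_log_powerMeans {L : Type*} [Fintype L] {r : ℕ} {ι : Type*} {l : Filter ι}
    [l.IsCountablyGenerated] {m : Fin r → ℝ} (hm : ∀ d, 0 < m d) {mn : ι → Fin r → ℝ}
    (hmn0 : ∀ n d, 0 < mn n d) (hmn : Tendsto mn l (𝓝 m))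
    {W : (L → Fin (r + 1) → unitInterval) → ℝ} (hW : Measurable W)
    {Wn : ι → (L → Fin (r + 1) → unitInterval) → ℝ} (hWn : ∀ n, Measurable (Wn n))
    {a b : ℝ} (ha : 0 < a) (hab : ∀ u, a ≤ W u ∧ W u ≤ b)
    (habn : ∀ n u, a ≤ Wn n u ∧ Wn n u ≤ b)
    (hlim : ∀ᵐ u ∂(uniformArrays L r), Tendsto (fun n => Wn n u) l (𝓝 (W u))) :
    Tendsto (fun n => ∫ u, Real.log (powerMeans (mn n) (Wn n) u) ∂(uniformArrays L r)) l
      (𝓝 (∫ u, Real.log (powerMeans m W u) ∂(uniformArrays L r))) := by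
  have h0 := powerMeans_bounds m hm hW ha hab
  have hn := fun n => powerMeans_bounds (mn n) (hmn0 n) (hWn n) ha (habn n)
  refine tendsto_integral_filter_of_dominated_convergence
    (fun _ => max (|Real.log a|) (|Real.log b|)) ?_ ?_ ?_ ?_
  · exact Eventually.of_forall fun n => ((hn n).1.log).aestronglyMeasurable
  · refine Eventually.of_forall fun n => ae_of_all _ fun u => ?_
    rw [Real.norm_eq_abs]
    exact abs_log_le_of_bounds ha ((hn n).2 u).1 ((hn n).2 u).2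
  · exact integrable_const _
  · filter_upwards [tendsto_powerMeans hm hmn0 hmn hW hWn ha hab habn hlim] with u hu
    exact (Real.continuousAt_log (ha.trans_le (h0.2 u).1).ne').tendsto.comp hu

lemma abs_integral_log_powerMeans_le {L : Type*} [Fintype L] {r : ℕ} {m : Fin r → ℝ}
    (hm : ∀ d, 0 < m d) {W : (L → Fin (r + 1) → unitInterval) → ℝ} (hW : Measurable W)
    {a b : ℝ} (ha : 0 < a) (hab : ∀ u, a ≤ W u ∧ W u ≤ b) :
    |∫ u, Real.log (powerMeans m W u) ∂(uniformArrays L r)| ≤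
      max (|Real.log a|) (|Real.log b|) := by
  have h0 := powerMeans_bounds m hm hW ha hab
  have := norm_integral_le_of_norm_le_const (μ := uniformArrays L r)
    (f := fun u => Real.log (powerMeans m W u)) (C := max (|Real.log a|) (|Real.log b|))
    (ae_of_all _ fun u => by
      rw [Real.norm_eq_abs]; exact abs_log_le_of_bounds ha (h0.2 u).1 (h0.2 u).2)
  simpa using this

end Crest.Agent.R153
end

-- ▼ part R153/GridDense
section

/-!
Row 153, part C4: every measurable `(0,1)`-valued function on the cube is an a.e. limit of rational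
`(0,1)`-valued functions of the grid cells.
-/

set_option autoImplicit false

open MeasureTheory Filter Topology Crest.ProbabilityR.Diluted

namespace Crest.Agent.R153

/-- A bounded measurable function on a finite-measure compact metric space is an a.e. limit of
continuous functions. -/
lemma exists_continuous_tendsto_ae {X : Type*} [MetricSpace X] [MeasurableSpace X] [BorelSpace X]
    (μ : Measure X) [IsFiniteMeasure μ] [μ.WeaklyRegular] (f : X → ℝ) (hf : Integrable f μ) :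
    ∃ g : ℕ → X → ℝ, (∀ n, Continuous (g n)) ∧
      ∀ᵐ x ∂μ, Tendsto (fun n => g n x) atTop (𝓝 (f x)) := by
  have h2 : ∀ n : ℕ, ((1 : ENNReal) / 2) ^ n ≠ 0 := fun n => by
    simp
  choose g hg hgi using fun n => hf.exists_boundedContinuous_lintegral_sub_le (h2 n)
  refine ⟨fun n => g n, fun n => (g n).continuous, ?_⟩
  have hmeas : ∀ n, AEMeasurable (fun x => ‖f x - g n x‖ₑ) μ := fun n =>
    (hf.aestronglyMeasurable.sub (hgi n).aestronglyMeasurable).enorm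
  have hsum : ∫⁻ x, ∑' n, ‖f x - g n x‖ₑ ∂μ ≠ ⊤ := by
    rw [lintegral_tsum hmeas]
    refine ne_top_of_le_ne_top ?_ (ENNReal.tsum_le_tsum hg)
    rw [ENNReal.tsum_geometric]
    have : (1 : ENNReal) - 1 / 2 ≠ 0 := by
      rw [one_div, ENNReal.one_sub_inv_two]; simp
    exact ENNReal.inv_ne_top.mpr this
  have hae : ∀ᵐ x ∂μ, ∑' n, ‖f x - g n x‖ₑ < ⊤ :=
    ae_lt_top' (AEMeasurable.tsum hmeas) hsum
  filter_upwards [hae] with x hx
  have h0 := ENNReal.tendsto_atTop_zero_of_tsum_ne_top hx.ne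
  rw [tendsto_iff_edist_tendsto_0]
  refine h0.congr fun n => ?_
  rw [edist_comm, edist_eq_enorm_sub]

/-- A grid point of the cell. -/
noncomputable def gpt (K : ℕ) (i : Fin (K + 1)) : unitInterval :=
  ⟨(i : ℝ) / ((K : ℝ) + 1), by
    have hi : (i : ℝ) ≤ K := by exact_mod_cast Nat.lt_succ_iff.mp i.2
    have hK : (0 : ℝ) < (K : ℝ) + 1 := by positivity
    exact ⟨by positivity, (div_le_one hK).mpr (by linarith)⟩⟩

lemma dist_gpt_cell (K : ℕ) (x : unitInterval) :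
    dist x (gpt K (cell K x)) ≤ 1 / ((K : ℝ) + 1) := by
  have hK : (0 : ℝ) < (K : ℝ) + 1 := by positivity
  have hx0 : (0 : ℝ) ≤ ((K : ℝ) + 1) * (x : ℝ) := mul_nonneg hK.le x.2.1
  have hx1 : (x : ℝ) ≤ 1 := x.2.2
  rw [Subtype.dist_eq, Real.dist_eq]
  simp only [gpt, cell]
  have h1 : (⌊((K : ℝ) + 1) * (x : ℝ)⌋₊ : ℝ) ≤ ((K : ℝ) + 1) * (x : ℝ) := Nat.floor_le hx0
  have h2 : ((K : ℝ) + 1) * (x : ℝ) < (⌊((K : ℝ) + 1) * (x : ℝ)⌋₊ : ℝ) + 1 := Nat.lt_floor_add_one _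
  set F : ℕ := ⌊((K : ℝ) + 1) * (x : ℝ)⌋₊ with hF
  have h3 : ((min F K : ℕ) : ℝ) ≤ ((K : ℝ) + 1) * (x : ℝ) :=
    le_trans (by exact_mod_cast min_le_left _ _) h1
  have h4 : ((K : ℝ) + 1) * (x : ℝ) ≤ ((min F K : ℕ) : ℝ) + 1 := by
    rcases min_choice F K with h | h
    · rw [h]; exact h2.le
    · rw [h]; nlinarith
  rw [abs_le]
  constructor
  · rw [neg_le_sub_iff_le_add, div_le_iff₀ hK, add_mul, one_div, inv_mul_cancel₀ hK.ne']
    linarith
  · rw [sub_le_iff_le_add, ← add_div, le_div_iff₀ hK]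
    linarith

/-- The clamp to `[1/(n+3), 1 - 1/(n+3)]`. -/
noncomputable def clampN (n : ℕ) (x : ℝ) : ℝ := max (1 / ((n : ℝ) + 3)) (min x (1 - 1 / ((n : ℝ) + 3)))

lemma clampN_lip (n : ℕ) (x y : ℝ) : |clampN n x - clampN n y| ≤ |x - y| := by
  unfold clampN
  rw [max_comm _ (min x _), max_comm _ (min y _)]
  refine (abs_max_sub_max_le_abs _ _ _).trans ?_
  exact (abs_min_sub_min_le_max _ _ _ _).trans (by simp)

lemma clampN_ge (n : ℕ) (x : ℝ) : 1 / ((n : ℝ) + 3) ≤ clampN n x := le_max_left _ _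

lemma clampN_le (n : ℕ) (x : ℝ) : clampN n x ≤ 1 - 1 / ((n : ℝ) + 3) := by
  unfold clampN
  refine max_le ?_ (min_le_right _ _)
  have h3 : (3 : ℝ) ≤ (n : ℝ) + 3 := by have := Nat.cast_nonneg (α := ℝ) n; linarith
  have : 1 / ((n : ℝ) + 3) ≤ 1 / 3 := one_div_le_one_div_of_le (by norm_num) h3
  linarith

lemma tendsto_one_div_add (c : ℝ) : Tendsto (fun n : ℕ => 1 / ((n : ℝ) + c)) atTop (𝓝 0) := by
  have h : Tendsto (fun n : ℕ => (n : ℝ) + c) atTop atTop :=
    tendsto_atTop_add_const_right _ _ tendsto_natCast_atTop_atTop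
  refine h.inv_tendsto_atTop.congr fun n => ?_
  simp [one_div]

lemma clampN_eq_eventually {x : ℝ} (h0 : 0 < x) (h1 : x < 1) :
    ∀ᶠ n : ℕ in atTop, clampN n x = x := by
  have ht := tendsto_one_div_add 3
  have e1 : ∀ᶠ n : ℕ in atTop, 1 / ((n : ℝ) + 3) < x := ht.eventually_lt_const h0
  have e2 : ∀ᶠ n : ℕ in atTop, 1 / ((n : ℝ) + 3) < 1 - x := ht.eventually_lt_const (by linarith)
  filter_upwards [e1, e2] with n hn1 hn2
  unfold clampN
  rw [min_eq_left (by linarith), max_eq_right hn1.le]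

/-- A.e. rational grid approximation of a `(0,1)`-valued measurable function. -/
theorem exists_grid_tendsto_ae {r : ℕ} (Q : (Fin (r + 1) → unitInterval) → ℝ) (hQ : Measurable Q)
    (h0 : ∀ u, 0 < Q u) (h1 : ∀ u, Q u < 1) :
    ∃ (K : ℕ → ℕ) (q : (n : ℕ) → (Fin (r + 1) → Fin (K n + 1)) → ℚ),
      (∀ n c, 0 < q n c ∧ q n c < 1) ∧
      ∀ᵐ u ∂(Measure.pi fun _ : Fin (r + 1) => (volume : Measure unitInterval)),
        Tendsto (fun n => ((q n (fun j => cell (K n) (u j)) : ℚ) : ℝ)) atTop (𝓝 (Q u)) := by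
  set μ : Measure (Fin (r + 1) → unitInterval) :=
    Measure.pi fun _ : Fin (r + 1) => (volume : Measure unitInterval) with hμ
  have hint : Integrable Q μ := by
    refine Integrable.of_bound hQ.aestronglyMeasurable 1 (ae_of_all _ fun u => ?_)
    rw [Real.norm_eq_abs, abs_of_pos (h0 u)]
    exact (h1 u).le
  obtain ⟨g, hgc, hg⟩ := exists_continuous_tendsto_ae μ Q hint
  have hunif : ∀ n : ℕ, ∃ K : ℕ, ∀ u v : Fin (r + 1) → unitInterval,
      dist u v ≤ 1 / ((K : ℝ) + 1) → |g n u - g n v| < 1 / ((n : ℝ) + 1) := by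
    intro n
    have huc := CompactSpace.uniformContinuous_of_continuous (hgc n)
    obtain ⟨δ, hδ, hδ'⟩ := Metric.uniformContinuous_iff.mp huc (1 / ((n : ℝ) + 1)) (by positivity)
    obtain ⟨K, hK⟩ := exists_nat_one_div_lt hδ
    exact ⟨K, fun u v huv => by
      have := hδ' (lt_of_le_of_lt huv hK)
      rwa [Real.dist_eq] at this⟩
  choose K hK using hunif
  have hrat : ∀ (n : ℕ) (c : Fin (r + 1) → Fin (K n + 1)), ∃ q : ℚ,
      (0 < q ∧ q < 1) ∧ |(q : ℝ) - clampN n (g n (fun j => gpt (K n) (c j)))| < 1 / ((n : ℝ) + 3) := by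
    intro n c
    set y := clampN n (g n (fun j => gpt (K n) (c j)))
    have hpos : (0 : ℝ) < 1 / ((n : ℝ) + 3) := by positivity
    obtain ⟨q, hq1, hq2⟩ := exists_rat_btwn (show y - 1 / ((n : ℝ) + 3) < y + 1 / ((n : ℝ) + 3) by
      linarith)
    have hy1 : 1 / ((n : ℝ) + 3) ≤ y := clampN_ge _ _
    have hy2 : y ≤ 1 - 1 / ((n : ℝ) + 3) := clampN_le _ _
    refine ⟨q, ⟨?_, ?_⟩, ?_⟩
    · have : (0 : ℝ) < q := by linarith
      exact_mod_cast this
    · have : (q : ℝ) < 1 := by linarith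
      exact_mod_cast this
    · rw [abs_lt]; constructor <;> linarith
  choose q hq01 hq using hrat
  refine ⟨K, q, hq01, ?_⟩
  filter_upwards [hg] with u hu
  rw [tendsto_iff_dist_tendsto_zero]
  have hb : Tendsto (fun n : ℕ => 1 / ((n : ℝ) + 3) + 1 / ((n : ℝ) + 1) + |g n u - Q u|)
      atTop (𝓝 0) := by
    have := ((tendsto_one_div_add 3).add (tendsto_one_div_add 1)).add
      ((tendsto_iff_dist_tendsto_zero.mp hu))
    simpa [Real.dist_eq] using this
  refine squeeze_zero' (Eventually.of_forall fun n => dist_nonneg) ?_ hb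
  filter_upwards [clampN_eq_eventually (h0 u) (h1 u)] with n hn
  rw [Real.dist_eq]
  set c : Fin (r + 1) → Fin (K n + 1) := fun j => cell (K n) (u j)
  have a1 := hq n c
  have hd : dist u (fun j => gpt (K n) (c j)) ≤ 1 / ((K n : ℝ) + 1) := by
    refine (dist_pi_le_iff (by positivity)).mpr fun j => ?_
    exact dist_gpt_cell (K n) (u j)
  have a2 := (clampN_lip n (g n (fun j => gpt (K n) (c j))) (g n u))
  have a3 := hK n u _ hd
  rw [abs_sub_comm] at a3
  have a4 := clampN_lip n (g n u) (Q u)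
  rw [hn] at a4
  have t1 : |(q n c : ℝ) - Q u| ≤ |(q n c : ℝ) - clampN n (g n (fun j => gpt (K n) (c j)))| +
      |clampN n (g n (fun j => gpt (K n) (c j))) - clampN n (g n u)| + |clampN n (g n u) - Q u| := by
    have := abs_sub_le (q n c : ℝ) (clampN n (g n (fun j => gpt (K n) (c j)))) (Q u)
    have := abs_sub_le (clampN n (g n (fun j => gpt (K n) (c j)))) (clampN n (g n u)) (Q u)
    linarith
  linarith

end Crest.Agent.R153
end

-- ▼ part R153/FinApprox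
section

/-!
Row 153, part C4: a negative trial for soft 3-SAT can be replaced by a negative rational grid
trial.
-/

set_option autoImplicit false

open MeasureTheory Filter Topology Crest.ProbabilityR.Diluted

namespace Crest.Agent.R153.FA

/-! ### continuity of the site and edge terms in the messages -/

lemma continuous_edgeTerm {p : ℕ} (θ : Inter p) : Continuous fun x : Fin p → ℝ => edgeTerm θ x := by
  unfold edgeTerm
  refine continuous_finsetSum _ fun s _ => continuous_const.mul ?_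
  exact continuous_finsetProd _ fun ℓ _ => (continuous_tilt _).comp (continuous_apply ℓ)

lemma continuous_siteMessage {p : ℕ} (θ : Inter p) (ε : Bool) :
    Continuous fun x : Fin (p - 1) → ℝ => siteMessage θ x ε := by
  unfold siteMessage
  refine Continuous.log ?_ fun x => ?_
  · refine continuous_finsetSum _ fun s _ => continuous_const.mul ?_
    exact continuous_finsetProd _ fun ℓ _ => (continuous_tilt _).comp (continuous_apply ℓ)
  · refine (Finset.sum_pos (fun s _ => ?_) Finset.univ_nonempty).ne'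
    exact mul_pos (Real.exp_pos _) (Finset.prod_pos fun ℓ _ => tilt_pos _ _)

lemma continuous_siteTerm {p k : ℕ} (h : ℝ) (θs : Fin k → Inter p) :
    Continuous fun x : Fin k → Fin (p - 1) → ℝ => siteTerm h θs x := by
  unfold siteTerm
  refine continuous_const.mul (continuous_finsetSum _ fun ε _ => ?_)
  refine Real.continuous_exp.comp (continuous_const.add (continuous_finsetSum _ fun j _ => ?_))
  exact (continuous_siteMessage (θs j) ε).comp (continuous_apply j)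

/-! ### the two expected logarithms of a trial -/

/-- expected logarithm of the nested power means of the site term -/
noncomputable def siteI {p k : ℕ} (h : ℝ) (θs : Fin k → Inter p) (r : ℕ) (m : Fin r → ℝ)
    (X : (Fin (r + 1) → unitInterval) → ℝ) : ℝ :=
  ∫ u, Real.log (powerMeans m
      (fun u' : (Fin k × Fin (p - 1)) → Fin (r + 1) → unitInterval =>
        siteTerm h θs (fun j ℓ => X (u' (j, ℓ)))) u)
    ∂(uniformArrays (Fin k × Fin (p - 1)) r)

/-- expected logarithm of the nested power means of the edge term -/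
noncomputable def edgeI {p : ℕ} (θ : Inter p) (r : ℕ) (m : Fin r → ℝ)
    (X : (Fin (r + 1) → unitInterval) → ℝ) : ℝ :=
  ∫ u, Real.log (powerMeans m
      (fun u' : Fin p → Fin (r + 1) → unitInterval => edgeTerm θ (fun ℓ => X (u' ℓ))) u)
    ∂(uniformArrays (Fin p) r)

lemma ae_labels {L : Type*} [Fintype L] {r : ℕ} {P : (Fin (r + 1) → unitInterval) → Prop}
    (h : ∀ᵐ x ∂(Measure.pi fun _ : Fin (r + 1) => (volume : Measure unitInterval)), P x) :
    ∀ᵐ u ∂(uniformArrays L r), ∀ ω, P (u ω) := by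
  rw [ae_all_iff]
  intro ω
  have := (Measure.quasiMeasurePreserving_eval
    (fun _ : L => Measure.pi fun _ : Fin (r + 1) => (volume : Measure unitInterval)) ω).ae h
  exact this

lemma tendsto_siteI {p k : ℕ} (h : ℝ) (θs : Fin k → Inter p) {r : ℕ} {ι : Type*} {l : Filter ι}
    [l.IsCountablyGenerated] {m : Fin r → ℝ} (hm : ∀ d, 0 < m d) {mn : ι → Fin r → ℝ}
    (hmn0 : ∀ n d, 0 < mn n d) (hmn : Tendsto mn l (𝓝 m))
    {X : (Fin (r + 1) → unitInterval) → ℝ} (hX : Measurable X)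
    {Xn : ι → (Fin (r + 1) → unitInterval) → ℝ} (hXn : ∀ n, Measurable (Xn n))
    (hlim : ∀ᵐ x ∂(Measure.pi fun _ : Fin (r + 1) => (volume : Measure unitInterval)),
      Tendsto (fun n => Xn n x) l (𝓝 (X x)))
    {a b : ℝ} (ha : 0 < a) (hab : ∀ x, a ≤ siteTerm h θs x ∧ siteTerm h θs x ≤ b) :
    Tendsto (fun n => siteI h θs r (mn n) (Xn n)) l (𝓝 (siteI h θs r m X)) := by
  unfold siteI
  have hmeas : ∀ {Y : (Fin (r + 1) → unitInterval) → ℝ}, Measurable Y →
      Measurable (fun u' : (Fin k × Fin (p - 1)) → Fin (r + 1) → unitInterval =>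
        siteTerm h θs (fun j ℓ => Y (u' (j, ℓ)))) := by
    intro Y hY
    refine (continuous_siteTerm h θs).measurable.comp ?_
    exact measurable_pi_lambda _ fun j => measurable_pi_lambda _ fun ℓ =>
      hY.comp (measurable_pi_apply _)
  refine tendsto_integral_log_powerMeans hm hmn0 hmn (hmeas hX) (fun n => hmeas (hXn n)) ha
    (fun u => hab _) (fun n u => hab _) ?_
  filter_upwards [ae_labels (L := Fin k × Fin (p - 1)) hlim] with u hu
  refine ((continuous_siteTerm h θs).tendsto _).comp ?_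
  rw [tendsto_pi_nhds]; intro j; rw [tendsto_pi_nhds]; intro ℓ
  exact hu (j, ℓ)

lemma tendsto_edgeI {p : ℕ} (θ : Inter p) {r : ℕ} {ι : Type*} {l : Filter ι}
    [l.IsCountablyGenerated] {m : Fin r → ℝ} (hm : ∀ d, 0 < m d) {mn : ι → Fin r → ℝ}
    (hmn0 : ∀ n d, 0 < mn n d) (hmn : Tendsto mn l (𝓝 m))
    {X : (Fin (r + 1) → unitInterval) → ℝ} (hX : Measurable X)
    {Xn : ι → (Fin (r + 1) → unitInterval) → ℝ} (hXn : ∀ n, Measurable (Xn n))
    (hlim : ∀ᵐ x ∂(Measure.pi fun _ : Fin (r + 1) => (volume : Measure unitInterval)),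
      Tendsto (fun n => Xn n x) l (𝓝 (X x)))
    {a b : ℝ} (ha : 0 < a) (hab : ∀ x, a ≤ edgeTerm θ x ∧ edgeTerm θ x ≤ b) :
    Tendsto (fun n => edgeI θ r (mn n) (Xn n)) l (𝓝 (edgeI θ r m X)) := by
  unfold edgeI
  have hmeas : ∀ {Y : (Fin (r + 1) → unitInterval) → ℝ}, Measurable Y →
      Measurable (fun u' : Fin p → Fin (r + 1) → unitInterval =>
        edgeTerm θ (fun ℓ => Y (u' ℓ))) := by
    intro Y hY
    refine (continuous_edgeTerm θ).measurable.comp ?_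
    exact measurable_pi_lambda _ fun j => hY.comp (measurable_pi_apply _)
  refine tendsto_integral_log_powerMeans hm hmn0 hmn (hmeas hX) (fun n => hmeas (hXn n)) ha
    (fun u => hab _) (fun n u => hab _) ?_
  filter_upwards [ae_labels (L := Fin p) hlim] with u hu
  refine ((continuous_edgeTerm θ).tendsto _).comp ?_
  rw [tendsto_pi_nhds]; intro ℓ
  exact hu ℓ

lemma abs_siteI_le {p k : ℕ} (h : ℝ) (θs : Fin k → Inter p) {r : ℕ} {m : Fin r → ℝ}
    (hm : ∀ d, 0 < m d) {X : (Fin (r + 1) → unitInterval) → ℝ} (hX : Measurable X)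
    {a b : ℝ} (ha : 0 < a) (hab : ∀ x, a ≤ siteTerm h θs x ∧ siteTerm h θs x ≤ b) :
    |siteI h θs r m X| ≤ max (|Real.log a|) (|Real.log b|) := by
  unfold siteI
  refine abs_integral_log_powerMeans_le hm ?_ ha (fun u => hab _)
  refine (continuous_siteTerm h θs).measurable.comp ?_
  exact measurable_pi_lambda _ fun j => measurable_pi_lambda _ fun ℓ =>
    hX.comp (measurable_pi_apply _)

/-! ### bounds for soft 3-SAT -/

lemma tilt_sum_prod {ι : Type*} [Fintype ι] [DecidableEq ι] (x : ι → ℝ) :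
    ∑ s : ι → Bool, ∏ ℓ, tilt (x ℓ) (s ℓ) = 1 := by
  have h := Finset.prod_univ_sum (fun _ : ι => (Finset.univ : Finset Bool))
    (fun ℓ b => tilt (x ℓ) b)
  rw [Fintype.piFinset_univ] at h
  rw [← h]
  refine Finset.prod_eq_one fun ℓ _ => ?_
  rw [Fintype.sum_bool]
  exact tilt_add _

lemma edgeTerm_bounds {β : ℝ} (hβ : 0 ≤ β) (J : Fin 3 → Bool) (x : Fin 3 → ℝ) :
    Real.exp (-β) ≤ edgeTerm (satInter β J) x ∧ edgeTerm (satInter β J) x ≤ 1 := by
  unfold edgeTerm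
  have hpos : ∀ s : Fin 3 → Bool, 0 ≤ ∏ ℓ, tilt (x ℓ) (s ℓ) := fun s =>
    Finset.prod_nonneg fun ℓ _ => (tilt_pos _ _).le
  constructor
  · calc Real.exp (-β) = ∑ s : Fin 3 → Bool, Real.exp (-β) * ∏ ℓ, tilt (x ℓ) (s ℓ) := by
          rw [← Finset.mul_sum, tilt_sum_prod, mul_one]
      _ ≤ _ := Finset.sum_le_sum fun s _ => mul_le_mul_of_nonneg_right
          (Real.exp_le_exp.mpr (by unfold satInter; split_ifs <;> linarith)) (hpos s)
  · calc _ ≤ ∑ s : Fin 3 → Bool, 1 * ∏ ℓ, tilt (x ℓ) (s ℓ) :=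
          Finset.sum_le_sum fun s _ => mul_le_mul_of_nonneg_right
            (by
              rw [← Real.exp_zero]
              exact Real.exp_le_exp.mpr (by unfold satInter; split_ifs <;> linarith)) (hpos s)
      _ = 1 := by simp only [one_mul]; exact tilt_sum_prod x

lemma siteMessage_bounds {β : ℝ} (hβ : 0 ≤ β) (J : Fin 3 → Bool) (x : Fin (3 - 1) → ℝ) (ε : Bool) :
    -β ≤ siteMessage (satInter β J) x ε ∧ siteMessage (satInter β J) x ε ≤ 0 := by
  unfold siteMessage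
  have hpos : ∀ s : Fin (3 - 1) → Bool, 0 ≤ ∏ ℓ, tilt (x ℓ) (s ℓ) := fun s =>
    Finset.prod_nonneg fun ℓ _ => (tilt_pos _ _).le
  have h1 : Real.exp (-β) ≤ ∑ s' : Fin (3 - 1) → Bool,
      Real.exp (satInter β J (fun ℓ => if h : ℓ.val < 3 - 1 then s' ⟨ℓ.val, h⟩ else ε)) *
      ∏ ℓ, tilt (x ℓ) (s' ℓ) := by
    calc Real.exp (-β) = ∑ s : Fin (3 - 1) → Bool, Real.exp (-β) * ∏ ℓ, tilt (x ℓ) (s ℓ) := by
          rw [← Finset.mul_sum, tilt_sum_prod, mul_one]
      _ ≤ _ := Finset.sum_le_sum fun s _ => mul_le_mul_of_nonneg_right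
          (Real.exp_le_exp.mpr (by unfold satInter; split_ifs <;> linarith)) (hpos s)
  have h2 : ∑ s' : Fin (3 - 1) → Bool,
      Real.exp (satInter β J (fun ℓ => if h : ℓ.val < 3 - 1 then s' ⟨ℓ.val, h⟩ else ε)) *
      ∏ ℓ, tilt (x ℓ) (s' ℓ) ≤ 1 := by
    calc _ ≤ ∑ s : Fin (3 - 1) → Bool, 1 * ∏ ℓ, tilt (x ℓ) (s ℓ) :=
          Finset.sum_le_sum fun s _ => mul_le_mul_of_nonneg_right
            (by
              rw [← Real.exp_zero]
              exact Real.exp_le_exp.mpr (by unfold satInter; split_ifs <;> linarith)) (hpos s)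
      _ = 1 := by simp only [one_mul]; exact tilt_sum_prod x
  constructor
  · rw [← Real.log_exp (-β)]
    exact Real.log_le_log (Real.exp_pos _) h1
  · exact Real.log_nonpos ((Real.exp_pos _).le.trans h1) h2

lemma siteTerm_bounds {β : ℝ} (hβ : 0 ≤ β) {k : ℕ} (Js : Fin k → Fin 3 → Bool)
    (x : Fin k → Fin (3 - 1) → ℝ) :
    Real.exp (-(β * k)) ≤ siteTerm 0 (fun j => satInter β (Js j)) x ∧
      siteTerm 0 (fun j => satInter β (Js j)) x ≤ 1 := by
  unfold siteTerm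
  have hlo : ∀ ε : Bool, -(β * k) ≤ 0 * spinVal ε + ∑ j : Fin k,
      siteMessage (satInter β (Js j)) (x j) ε := by
    intro ε
    rw [zero_mul, zero_add]
    calc -(β * k) = ∑ _j : Fin k, (-β) := by simp [mul_comm]
      _ ≤ _ := Finset.sum_le_sum fun j _ => (siteMessage_bounds hβ (Js j) (x j) ε).1
  have hhi : ∀ ε : Bool, 0 * spinVal ε + ∑ j : Fin k,
      siteMessage (satInter β (Js j)) (x j) ε ≤ 0 := by
    intro ε
    rw [zero_mul, zero_add]
    exact Finset.sum_nonpos fun j _ => (siteMessage_bounds hβ (Js j) (x j) ε).2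
  rw [Fintype.sum_bool]
  have h1 := Real.exp_le_exp.mpr (hlo true)
  have h2 := Real.exp_le_exp.mpr (hlo false)
  have h3 := Real.exp_le_one_iff.mpr (hhi true)
  have h4 := Real.exp_le_one_iff.mpr (hhi false)
  constructor <;> linarith

/-! ### continuity of the finite-average form of the functional -/

/-- The trial functional of soft 3-SAT written with finite averages over the sign patterns. -/
noncomputable def satFunctional (c β : ℝ) (r : ℕ) (m : Fin r → ℝ)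
    (X : (Fin (r + 1) → unitInterval) → ℝ) : ℝ :=
  Real.log 2 +
    (∑' k : ℕ, poissonWeight (c * 3) k * (((8 : ℝ) ^ k)⁻¹ *
      ∑ Js : Fin k → Fin 3 → Bool, siteI 0 (fun j => satInter β (Js j)) r m X)) -
    c * 2 * (8⁻¹ * ∑ J : Fin 3 → Bool, edgeI (satInter β J) r m X)

lemma summable_poissonWeight_mul (lam b : ℝ) : Summable fun k : ℕ => poissonWeight lam k * (b * k) := by
  have h1 : Summable fun k : ℕ => (lam ^ k / (Nat.factorial k : ℝ)) * k := by
    have h0 := (Real.summable_pow_div_factorial |2 * lam|)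
    refine Summable.of_norm_bounded h0 fun k => ?_
    rw [norm_mul, norm_div, norm_pow, Real.norm_eq_abs, Real.norm_natCast, Real.norm_natCast,
      abs_mul, abs_two, mul_pow]
    have hk : (k : ℝ) ≤ 2 ^ k := by exact_mod_cast (Nat.lt_two_pow_self).le
    have hf : (0 : ℝ) < (Nat.factorial k : ℝ) := by exact_mod_cast Nat.factorial_pos k
    rw [div_mul_eq_mul_div, div_le_div_iff_of_pos_right hf]
    nlinarith [pow_nonneg (abs_nonneg lam) k]
  have h2 := h1.mul_left (Real.exp (-lam) * b)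
  refine h2.congr fun k => ?_
  unfold poissonWeight
  ring

lemma poissonWeight_nonneg {lam : ℝ} (h : 0 ≤ lam) (k : ℕ) : 0 ≤ poissonWeight lam k := by
  unfold poissonWeight; positivity

theorem tendsto_satFunctional {c β : ℝ} (hc : 0 ≤ c) (hβ : 0 ≤ β) {r : ℕ} {ι : Type*}
    {l : Filter ι} [l.IsCountablyGenerated] {m : Fin r → ℝ} (hm : ∀ d, 0 < m d)
    {mn : ι → Fin r → ℝ} (hmn0 : ∀ n d, 0 < mn n d) (hmn : Tendsto mn l (𝓝 m))
    {X : (Fin (r + 1) → unitInterval) → ℝ} (hX : Measurable X)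
    {Xn : ι → (Fin (r + 1) → unitInterval) → ℝ} (hXn : ∀ n, Measurable (Xn n))
    (hlim : ∀ᵐ x ∂(Measure.pi fun _ : Fin (r + 1) => (volume : Measure unitInterval)),
      Tendsto (fun n => Xn n x) l (𝓝 (X x))) :
    Tendsto (fun n => satFunctional c β r (mn n) (Xn n)) l (𝓝 (satFunctional c β r m X)) := by
  unfold satFunctional
  refine Tendsto.sub (tendsto_const_nhds.add ?_) ?_
  · refine tendsto_tsum_of_dominated_convergence
      (bound := fun k : ℕ => poissonWeight (c * 3) k * (β * k))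
      (summable_poissonWeight_mul _ _) (fun k => ?_) (Eventually.of_forall fun n k => ?_)
    · refine tendsto_const_nhds.mul (tendsto_const_nhds.mul (tendsto_finsetSum _ fun Js _ => ?_))
      exact tendsto_siteI 0 _ hm hmn0 hmn hX hXn hlim (Real.exp_pos _)
        (siteTerm_bounds hβ Js)
    · rw [norm_mul, Real.norm_of_nonneg (poissonWeight_nonneg (by positivity) k)]
      refine mul_le_mul_of_nonneg_left ?_ (poissonWeight_nonneg (by positivity) k)
      rw [norm_mul, norm_inv, norm_pow, Real.norm_ofNat]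
      have hk : ∀ Js : Fin k → Fin 3 → Bool,
          ‖siteI 0 (fun j => satInter β (Js j)) r (mn n) (Xn n)‖ ≤ β * k := by
        intro Js
        rw [Real.norm_eq_abs]
        refine (abs_siteI_le 0 _ (hmn0 n) (hXn n) (Real.exp_pos _)
          (siteTerm_bounds hβ Js)).trans ?_
        rw [Real.log_exp, Real.log_one, abs_zero, abs_neg, abs_of_nonneg (by positivity)]
        exact max_le le_rfl (by positivity)
      calc ((8 : ℝ) ^ k)⁻¹ * ‖∑ Js : Fin k → Fin 3 → Bool,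
            siteI 0 (fun j => satInter β (Js j)) r (mn n) (Xn n)‖
          ≤ ((8 : ℝ) ^ k)⁻¹ * ∑ _Js : Fin k → Fin 3 → Bool, (β * k) := by
            refine mul_le_mul_of_nonneg_left ?_ (by positivity)
            exact (norm_sum_le _ _).trans (Finset.sum_le_sum fun Js _ => hk Js)
        _ = β * k := by
            rw [Finset.sum_const, Finset.card_univ, nsmul_eq_mul]
            have : ((Fintype.card (Fin k → Fin 3 → Bool) : ℕ) : ℝ) = 8 ^ k := by
              simp only [Fintype.card_fun, Fintype.card_bool, Fintype.card_fin]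
              push_cast; norm_num
            rw [this, ← mul_assoc, inv_mul_cancel₀ (by positivity), one_mul]
  · refine tendsto_const_nhds.mul (tendsto_const_nhds.mul (tendsto_finsetSum _ fun J _ => ?_))
    exact tendsto_edgeI _ hm hmn0 hmn hX hXn hlim (Real.exp_pos _) (edgeTerm_bounds hβ J)

/-- `satFunctional` is the trial functional of the row-141 theorem at the law `muSAT β`. -/
theorem trialFunctional_eq_satFunctional (c β : ℝ) (r : ℕ) (m : Fin r → ℝ)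
    (X : (Fin (r + 1) → unitInterval) → ℝ) :
    trialFunctional 3 c (muSAT β) (Measure.dirac 0) r m X = satFunctional c β r m X := by
  rw [trialFunctional_muSAT]
  unfold satFunctional siteAvg edgeAvg siteI edgeI
  rw [show (8 : ℝ)⁻¹ = 1 / 8 by norm_num, mul_comm c 2]

/-! ### rational exponents -/

lemma isOpen_admissible (r : ℕ) : IsOpen {m : Fin r → ℝ | AdmissibleExponents m} := by
  have h : {m : Fin r → ℝ | AdmissibleExponents m} =
      (⋂ (i : Fin r) (j : Fin r) (_ : i < j), {m : Fin r → ℝ | m i < m j}) ∩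
        ⋂ d : Fin r, ({m : Fin r → ℝ | 0 < m d} ∩ {m : Fin r → ℝ | m d < 1}) := by
    ext m
    simp only [Set.mem_ofPred_eq, Set.mem_inter_iff, Set.mem_iInter]
    constructor
    · rintro ⟨h1, h2⟩
      exact ⟨fun i j hij => h1 hij, fun d => h2 d⟩
    · rintro ⟨h1, h2⟩
      exact ⟨fun i j hij => h1 i j hij, fun d => h2 d⟩
  rw [h]
  refine IsOpen.inter ?_ ?_
  · refine isOpen_iInter_of_finite fun i => isOpen_iInter_of_finite fun j => ?_
    refine isOpen_iInter_of_finite fun _ => ?_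
    exact isOpen_lt (continuous_apply i) (continuous_apply j)
  · refine isOpen_iInter_of_finite fun d => ?_
    exact (isOpen_lt continuous_const (continuous_apply d)).inter
      (isOpen_lt (continuous_apply d) continuous_const)

lemma exists_rat_exponents {r : ℕ} {m : Fin r → ℝ} (hm : AdmissibleExponents m) :
    ∃ mn : ℕ → Fin r → ℚ, (∀ n, StrictMono (mn n) ∧ ∀ d, 0 < mn n d ∧ mn n d < 1) ∧
      Tendsto (fun n (d : Fin r) => ((mn n d : ℚ) : ℝ)) atTop (𝓝 m) := by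
  have hdense : DenseRange (fun (q : Fin r → ℚ) (d : Fin r) => ((q d : ℚ) : ℝ)) :=
    DenseRange.piMap (fun _ => Rat.denseRange_cast)
  have hex : ∀ n : ℕ, ∃ q : Fin r → ℚ, (fun d => ((q d : ℚ) : ℝ)) ∈
      {m : Fin r → ℝ | AdmissibleExponents m} ∩ Metric.ball m (1 / ((n : ℝ) + 1)) := by
    intro n
    exact hdense.exists_mem_open ((isOpen_admissible r).inter Metric.isOpen_ball)
      ⟨m, hm, Metric.mem_ball_self (by positivity)⟩
  choose mn hmn using hex
  refine ⟨mn, fun n => ⟨fun i j hij => ?_, fun d => ?_⟩, ?_⟩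
  · have h1 : ((mn n i : ℚ) : ℝ) < ((mn n j : ℚ) : ℝ) := (hmn n).1.1 hij
    exact_mod_cast h1
  · have h1 : (0 : ℝ) < ((mn n d : ℚ) : ℝ) := ((hmn n).1.2 d).1
    have h2 : ((mn n d : ℚ) : ℝ) < 1 := ((hmn n).1.2 d).2
    exact ⟨by exact_mod_cast h1, by exact_mod_cast h2⟩
  · rw [tendsto_iff_dist_tendsto_zero]
    refine squeeze_zero (fun n => dist_nonneg) (fun n => (Metric.mem_ball.mp (hmn n).2).le) ?_
    exact tendsto_one_div_add_atTop_nhds_zero_nat

/-- Density input: every measurable function with values in `(0,1)` is an almost everywhere limit of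
rational grid functions. -/
def GridDense : Prop := ∀ (r : ℕ) (Q : (Fin (r + 1) → unitInterval) → ℝ), Measurable Q →
  (∀ u, 0 < Q u ∧ Q u < 1) →
  ∃ (K : ℕ → ℕ) (q : (n : ℕ) → (Fin (r + 1) → Fin (K n + 1)) → ℚ),
    (∀ n c, 0 < q n c ∧ q n c < 1) ∧
    ∀ᵐ u ∂(Measure.pi fun _ : Fin (r + 1) => (volume : Measure unitInterval)),
      Tendsto (fun n => ((q n (fun j => cell (K n) (u j)) : ℚ) : ℝ)) atTop (𝓝 (Q u))

lemma measurable_gridX {r K : ℕ} (q : (Fin (r + 1) → Fin (K + 1)) → ℚ) :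
    Measurable fun u : Fin (r + 1) → unitInterval => msg ((q (fun j => cell K (u j)) : ℚ) : ℝ) := by
  have h1 : Measurable fun u : Fin (r + 1) → unitInterval => fun j => cell K (u j) :=
    measurable_pi_lambda _ fun j => (measurable_cell K).comp (measurable_pi_apply j)
  exact (measurable_of_finite (fun c : Fin (r + 1) → Fin (K + 1) => msg ((q c : ℚ) : ℝ))).comp h1

lemma tilt_true_lt_one (x : ℝ) : tilt x true < 1 := by
  have := tilt_add x
  have := tilt_pos x false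
  linarith

lemma continuousAt_msg {q : ℝ} (h0 : 0 < q) (h1 : q < 1) : ContinuousAt msg q := by
  unfold msg
  have h2 : 0 < 1 - q := by linarith
  refine continuousAt_const.mul (ContinuousAt.log ?_ (div_pos h0 h2).ne')
  exact continuousAt_id.div (continuousAt_const.sub continuousAt_id) h2.ne'

theorem gridDense : GridDense := fun r Q hQ h => by
  obtain ⟨K, q, h1, h2⟩ := exists_grid_tendsto_ae Q hQ (fun u => (h u).1) (fun u => (h u).2)
  exact ⟨K, q, h1, h2⟩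

end Crest.Agent.R153.FA

namespace Crest.Agent.R153

open FA

/-- C4: a trial with value `< y` can be replaced by a rational grid trial with value `< y`. -/
theorem exists_finTrial_lt {c β : ℝ} (hc : 0 ≤ c) (hβ : 0 ≤ β) {r : ℕ}
    {m : Fin r → ℝ} (hm : AdmissibleExponents m) {X : (Fin (r + 1) → unitInterval) → ℝ}
    (hX : Measurable X) {y : ℝ}
    (h : trialFunctional 3 c (muSAT β) (Measure.dirac 0) r m X < y) :
    ∃ T : FinTrial, T.Valid ∧ T.r = r ∧
      trialFunctional 3 c (muSAT β) (Measure.dirac 0) T.r (fun d => ((T.m d : ℚ) : ℝ)) T.X < y := by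
  obtain ⟨K, q, hq, hlim⟩ := gridDense r (fun u => tilt (X u) true)
    (((continuous_tilt true).measurable).comp hX) (fun u => ⟨tilt_pos _ _, tilt_true_lt_one _⟩)
  obtain ⟨mn, hmn, hmlim⟩ := exists_rat_exponents hm
  have hX' : ∀ᵐ u ∂(Measure.pi fun _ : Fin (r + 1) => (volume : Measure unitInterval)),
      Tendsto (fun n => msg ((q n (fun j => cell (K n) (u j)) : ℚ) : ℝ)) atTop (𝓝 (X u)) := by
    filter_upwards [hlim] with u hu
    have h1 := (continuousAt_msg (tilt_pos (X u) true) (tilt_true_lt_one (X u))).tendsto.comp hu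
    rwa [msg_tilt] at h1
  have hT := tendsto_satFunctional hc hβ (fun d => (hm.2 d).1)
    (fun n d => by exact_mod_cast ((hmn n).2 d).1) hmlim hX
    (fun n => measurable_gridX (q n)) hX'
  rw [trialFunctional_eq_satFunctional] at h
  obtain ⟨n, hn⟩ := (hT.eventually (gt_mem_nhds h)).exists
  refine ⟨⟨r, mn n, K n, q n⟩, ⟨(hmn n).1, (hmn n).2, hq n⟩, rfl, ?_⟩
  rw [trialFunctional_eq_satFunctional]
  exact hn



end Crest.Agent.R153
end

-- ▼ part R153/GridFinal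

/-!
Row 153: the right certificate. `UpCert` is computable, sound and complete for the existence of an
admissible trial with negative value at inverse temperature `b log 2`.
-/

set_option autoImplicit false

namespace Crest.Agent.R153

open MeasureTheory Finset Filter Topology Crest.ProbabilityR.Diluted

/-- Some admissible trial of soft 3-SAT at an inverse temperature `b log 2` has negative value at
density `c`. -/
def HasNegTrial (c : ℝ) : Prop :=
  ∃ (b r : ℕ) (m : Fin r → ℝ) (X : (Fin (r + 1) → unitInterval) → ℝ),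
    AdmissibleExponents m ∧ Measurable X ∧
    trialFunctional 3 c (muSAT ((b : ℝ) * Real.log 2)) (Measure.dirac 0) r m X < 0

theorem Cert.Valid.ε_strictAnti {c : Cert} {a κ : ℕ} (hc : c.Valid a κ) :
    ∀ h' h, h < h' → h' < c.r → c.ε h' < c.ε h := by
  intro h'
  induction h' with
  | zero => intro h hh; omega
  | succ h' ih =>
    intro h hh hr
    have h1 : c.ε (h' + 1) < c.ε h' := hc.ε_anti h' (by omega)
    rcases Nat.lt_succ_iff_lt_or_eq.1 hh with h2 | h2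
    · exact h1.trans (ih h h2 (by omega))
    · rw [h2]; exact h1

theorem Cert.Valid.hasNegTrial {c : Cert} {a κ : ℕ} (hc : c.Valid a κ) :
    HasNegTrial ((a : ℝ) / 2 ^ κ) := by
  obtain ⟨K', hK'⟩ : ∃ K', c.K = K' + 1 := ⟨c.K - 1, by have := hc.hK; omega⟩
  have hD : (0 : ℝ) < c.D := by exact_mod_cast hc.hD
  have hB := hc.gridB_neg
  have hq := hc.hq
  rw [hK'] at hB hq
  refine ⟨c.b, c.r, fun d => c.μ (c.r - 1 - d), gX c.r K' c.Q c.q, ⟨?_, ?_⟩, measurable_gX _ _ _ _,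
    ?_⟩
  · intro d d' hdd
    have h1 : (d : ℕ) < d' := hdd
    have h2 : (d' : ℕ) < c.r := d'.2
    have h3 := hc.ε_strictAnti (c.r - 1 - d) (c.r - 1 - d') (by omega) (by omega)
    have h4 : (c.ε (c.r - 1 - d) : ℝ) < c.ε (c.r - 1 - d') := by exact_mod_cast h3
    exact div_lt_div_of_pos_right h4 hD
  · intro d
    have h2 : (d : ℕ) < c.r := d.2
    obtain ⟨h3, h4⟩ := hc.ε_lt (c.r - 1 - d) (by omega)
    have h3' : (0 : ℝ) < c.ε (c.r - 1 - d) := by exact_mod_cast h3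
    have h4' : (c.ε (c.r - 1 - d) : ℝ) < c.D := by exact_mod_cast h4
    exact ⟨div_pos h3' hD, (div_lt_one hD).2 h4'⟩
  · rw [trialFunctional_grid c.b K' c.Q c.r c.q hq c.μ]
    exact hB

/-- Common denominator of finitely many rationals in `(0,1)`. -/
theorem exists_common_den {ι : Type} [Fintype ι] [DecidableEq ι] (f : ι → ℚ)
    (hf : ∀ i, 0 < f i ∧ f i < 1) :
    ∃ (D : ℕ) (e : ι → ℕ), 0 < D ∧ ∀ i, 0 < e i ∧ e i < D ∧ ((f i : ℚ) : ℝ) = (e i : ℝ) / D := by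
  classical
  set D : ℕ := ∏ i, (f i).den with hD
  have hD0 : 0 < D := Finset.prod_pos fun i _ => (f i).den_pos
  have hD0' : (0 : ℝ) < D := by exact_mod_cast hD0
  have h1 : ∀ i, ∃ e : ℕ, ((f i : ℚ) : ℝ) = (e : ℝ) / D := by
    intro i
    refine ⟨(f i).num.toNat * ∏ j ∈ univ.erase i, (f j).den, ?_⟩
    have hnum : (((f i).num.toNat : ℕ) : ℝ) = ((f i).num : ℝ) := by
      have : (0 : ℤ) ≤ (f i).num := Rat.num_nonneg.2 (hf i).1.le
      have h2 : (((f i).num.toNat : ℕ) : ℤ) = (f i).num := Int.toNat_of_nonneg this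
      exact_mod_cast congrArg (fun z : ℤ => (z : ℝ)) h2
    have hprod : (D : ℝ) = ((f i).den : ℝ) * ((∏ j ∈ univ.erase i, (f j).den : ℕ) : ℝ) := by
      rw [hD, ← Finset.mul_prod_erase univ (fun j => (f j).den) (Finset.mem_univ i)]
      push_cast
      ring
    have hne : ((∏ j ∈ univ.erase i, (f j).den : ℕ) : ℝ) ≠ 0 := by
      have : 0 < ∏ j ∈ univ.erase i, (f j).den := Finset.prod_pos fun j _ => (f j).den_pos
      exact_mod_cast this.ne'
    have hden : ((f i).den : ℝ) ≠ 0 := by exact_mod_cast (f i).den_pos.ne'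
    rw [Nat.cast_mul, hnum, hprod, mul_div_mul_right _ _ hne]
    have := Rat.num_div_den (f i)
    calc ((f i : ℚ) : ℝ) = ((((f i).num : ℚ) / ((f i).den : ℚ) : ℚ) : ℝ) := by rw [this]
      _ = _ := by push_cast; rfl
  choose e he using h1
  refine ⟨D, e, hD0, fun i => ?_⟩
  have h2 : (0 : ℝ) < ((f i : ℚ) : ℝ) := by exact_mod_cast (hf i).1
  have h3 : ((f i : ℚ) : ℝ) < 1 := by exact_mod_cast (hf i).2
  rw [he i] at h2 h3
  refine ⟨?_, ?_, he i⟩
  · by_contra h0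
    have : e i = 0 := by omega
    rw [this] at h2
    simp at h2
  · rw [div_lt_one hD0'] at h3
    exact_mod_cast h3

/-- Decoding of a path code. -/
def pathDec (r K : ℕ) (i : ℕ) (j : Fin (r + 1)) : Fin (K + 1) :=
  ⟨i / (K + 1) ^ (r - j) % (K + 1), Nat.mod_lt _ (Nat.succ_pos K)⟩

theorem pathDec_pathIdx {r K : ℕ} (d : Fin (r + 1) → Fin (K + 1)) :
    pathDec r K (pathIdx d) = d := by
  have h1 : pathIdx d = (finFunctionFinEquiv
      (fun i : Fin (r + 1) => d ⟨r - i, by omega⟩) : Fin ((K + 1) ^ (r + 1))) := by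
    rw [finFunctionFinEquiv_apply]
    unfold pathIdx
    rw [Finset.sum_range]
    refine Finset.sum_congr rfl fun i _ => ?_
    rw [dif_pos (by omega)]
  funext j
  refine Fin.ext ?_
  show pathIdx d / (K + 1) ^ (r - j) % (K + 1) = d j
  rw [h1]
  have h2 := finFun_digit (fun i : Fin (r + 1) => d ⟨r - i, by omega⟩) ⟨r - j, by omega⟩
  refine h2.trans ?_
  congr 2
  refine Fin.ext ?_
  show r - (r - (j : ℕ)) = j
  have := j.2
  omega

theorem HasNegTrial.exists_cert {a κ : ℕ} (ha : 0 < a) (h : HasNegTrial ((a : ℝ) / 2 ^ κ)) :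
    ∃ c : Cert, c.Valid a κ := by
  obtain ⟨b, r, m, X, hm, hX, hlt⟩ := h
  have ha' : (0 : ℝ) < a := by exact_mod_cast ha
  obtain ⟨T, hT, -, hTlt⟩ := exists_finTrial_lt (by positivity)
    (mul_nonneg (Nat.cast_nonneg b) (Real.log_nonneg (by norm_num))) hm hX hlt
  obtain ⟨D0, e, hD0, he⟩ := exists_common_den T.m hT.2.1
  obtain ⟨Q, f, hQ0, hf⟩ := exists_common_den T.q hT.2.2
  have hD0' : (0 : ℝ) < D0 := by exact_mod_cast hD0
  -- the table of messages
  set q : ℕ → ℕ := fun i => f (pathDec T.r T.K i) with hq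
  have hqb : ∀ i < (T.K + 1) ^ (T.r + 1), 0 < q i ∧ q i < Q := fun i _ => ⟨(hf _).1, (hf _).2.1⟩
  have hXeq : T.X = gX T.r T.K Q q := by
    funext u
    unfold FinTrial.X gX
    rw [(hf _).2.2, hq]
    simp only [pathDec_pathIdx]
  -- the exponents
  set e' : ℕ → ℕ := fun h => if hh : h < T.r then e ⟨T.r - 1 - h, by omega⟩ else 0 with he'
  have hmeq : (fun d => ((T.m d : ℚ) : ℝ)) =
      fun d : Fin T.r => (fun h => (e' h : ℝ) / D0) (T.r - 1 - d) := by
    funext d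
    have hd : (d : ℕ) < T.r := d.2
    rw [(he d).2.2]
    simp only [he']
    rw [dif_pos (by omega)]
    congr 3
    refine Fin.ext ?_
    show (d : ℕ) = T.r - 1 - (T.r - 1 - d)
    omega
  rw [hXeq, hmeq, trialFunctional_grid b T.K Q T.r q hqb (fun h => (e' h : ℝ) / D0)] at hTlt
  refine Crest.Agent.R153.exists_cert (Nat.succ_pos T.K) hqb hD0 (e := e') ?_ ?_ ha hTlt
  · intro h hh
    simp only [he']
    rw [dif_pos hh]
    exact ⟨(he _).1, (he _).2.1⟩
  · intro h hh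
    simp only [he']
    rw [dif_pos (show h < T.r by omega), dif_pos (show h + 1 < T.r by omega)]
    have h1 : T.m ⟨T.r - 1 - (h + 1), by omega⟩ < T.m ⟨T.r - 1 - h, by omega⟩ := by
      refine hT.1 ?_
      show T.r - 1 - (h + 1) < T.r - 1 - h
      omega
    have h2 : ((T.m ⟨T.r - 1 - (h + 1), by omega⟩ : ℚ) : ℝ) <
        ((T.m ⟨T.r - 1 - h, by omega⟩ : ℚ) : ℝ) := by exact_mod_cast h1
    rw [(he _).2.2, (he _).2.2, div_lt_div_iff_of_pos_right hD0'] at h2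
    exact_mod_cast h2

/-- **The right certificate.** -/
theorem exists_right_certificate : ∃ Up : ℕ × ℕ × ℕ → Bool, Computable Up ∧
    (∀ a κ w : ℕ, Up (a, κ, w) = true → 0 < a ∧ HasNegTrial ((a : ℝ) / 2 ^ κ)) ∧
    (∀ a κ : ℕ, 0 < a → HasNegTrial ((a : ℝ) / 2 ^ κ) → ∃ w, Up (a, κ, w) = true) := by
  refine ⟨UpCert, computable_UpCert, fun a κ w h => ?_, fun a κ ha h => ?_⟩
  · obtain ⟨c, hc⟩ := UpCert_sound h
    exact ⟨hc.ha, hc.hasNegTrial⟩
  · obtain ⟨c, hc⟩ := h.exists_cert ha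
    exact UpCert_complete hc

end Crest.Agent.R153
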