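import Mathlib

/-!
Row 153, right certificate: functionals `(ℕ → ℕ) → α → ℕ` of a table which are primitive recursive
(when the table is given by a list) and depend on finitely many entries of the table.
-/

set_option autoImplicit false

namespace Crest.Agent.R153

open Finset

/-- A functional of a table `f : ℕ → ℕ` and an argument which is primitive recursive when the
table is given by a list, and depends on finitely many entries of the table only. -/
structure Good {α : Type} [Primcodable α] (F : (ℕ → ℕ) → α → ℕ) : Prop where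
  prim : Primrec (fun p : List ℕ × α => F (fun i => p.1.getD i 0) p.2)
  cont : ∀ (f : ℕ → ℕ) (a : α), ∃ M : ℕ, ∀ g : ℕ → ℕ, (∀ i < M, g i = f i) → F g a = F f a

namespace Good

variable {α β : Type} [Primcodable α] [Primcodable β]

theorem fn {g : α → ℕ} (hg : Primrec g) : Good (fun _ a => g a) :=
  ⟨hg.comp Primrec.snd, fun _ _ => ⟨0, fun _ _ => rfl⟩⟩

theorem const (n : ℕ) : Good (fun (_ : ℕ → ℕ) (_ : α) => n) := fn (Primrec.const n)

theorem tab {F : (ℕ → ℕ) → α → ℕ} (hF : Good F) : Good (fun f a => f (F f a)) := by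
  refine ⟨?_, fun f a => ?_⟩
  · exact (Primrec.list_getD 0).comp Primrec.fst hF.prim
  · obtain ⟨M, hM⟩ := hF.cont f a
    refine ⟨max M (F f a + 1), fun g hg => ?_⟩
    have h1 : F g a = F f a := hM g fun i hi => hg i (lt_of_lt_of_le hi (le_max_left _ _))
    show g (F g a) = f (F f a)
    rw [h1]
    exact hg _ (lt_of_lt_of_le (Nat.lt_succ_self _) (le_max_right _ _))

theorem comp₂ {op : ℕ → ℕ → ℕ} (hop : Primrec₂ op) {F G : (ℕ → ℕ) → α → ℕ} (hF : Good F)
    (hG : Good G) : Good (fun f a => op (F f a) (G f a)) := by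
  refine ⟨hop.comp hF.prim hG.prim, fun f a => ?_⟩
  obtain ⟨M, hM⟩ := hF.cont f a
  obtain ⟨M', hM'⟩ := hG.cont f a
  refine ⟨max M M', fun g hg => ?_⟩
  show op (F g a) (G g a) = op (F f a) (G f a)
  rw [hM g fun i hi => hg i (lt_of_lt_of_le hi (le_max_left _ _)),
    hM' g fun i hi => hg i (lt_of_lt_of_le hi (le_max_right _ _))]

theorem comp₁ {op : ℕ → ℕ} (hop : Primrec op) {F : (ℕ → ℕ) → α → ℕ} (hF : Good F) :
    Good (fun f a => op (F f a)) := by
  refine ⟨hop.comp hF.prim, fun f a => ?_⟩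
  obtain ⟨M, hM⟩ := hF.cont f a
  refine ⟨M, fun g hg => ?_⟩
  show op (F g a) = op (F f a)
  rw [hM g hg]

theorem add {F G : (ℕ → ℕ) → α → ℕ} (hF : Good F) (hG : Good G) :
    Good (fun f a => F f a + G f a) := comp₂ Primrec.nat_add hF hG

theorem mul {F G : (ℕ → ℕ) → α → ℕ} (hF : Good F) (hG : Good G) :
    Good (fun f a => F f a * G f a) := comp₂ Primrec.nat_mul hF hG

theorem sub {F G : (ℕ → ℕ) → α → ℕ} (hF : Good F) (hG : Good G) :
    Good (fun f a => F f a - G f a) := comp₂ Primrec.nat_sub hF hG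

theorem div {F G : (ℕ → ℕ) → α → ℕ} (hF : Good F) (hG : Good G) :
    Good (fun f a => F f a / G f a) := comp₂ Primrec.nat_div hF hG

theorem mod {F G : (ℕ → ℕ) → α → ℕ} (hF : Good F) (hG : Good G) :
    Good (fun f a => F f a % G f a) := comp₂ Primrec.nat_mod hF hG

theorem pow {F G : (ℕ → ℕ) → α → ℕ} (hF : Good F) (hG : Good G) :
    Good (fun f a => F f a ^ G f a) :=
  comp₂ (op := fun a b => a ^ b) (Primrec₂.unpaired'.1 Nat.Primrec.pow) hF hG

theorem pair {F G : (ℕ → ℕ) → α → ℕ} (hF : Good F) (hG : Good G) :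
    Good (fun f a => Nat.pair (F f a) (G f a)) := comp₂ Primrec₂.natPair hF hG

theorem factorial {F : (ℕ → ℕ) → α → ℕ} (hF : Good F) : Good (fun f a => (F f a).factorial) := by
  refine comp₁ ?_ hF
  have h : Primrec (Nat.rec (motive := fun _ => ℕ) 1 fun n r => (n + 1) * r) := by
    refine Primrec.nat_rec₁ 1 ?_
    exact Primrec.nat_mul.comp₂ (Primrec.succ.comp₂ Primrec₂.left) Primrec₂.right
  refine h.of_eq fun n => ?_
  induction n with
  | zero => rfl
  | succ n ih =>
    rw [Nat.factorial_succ, ← ih]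

/-- `0/1` value of `≤`. -/
def leN (a b : ℕ) : ℕ := if a ≤ b then 1 else 0

theorem leN_ne_zero {a b : ℕ} : leN a b ≠ 0 ↔ a ≤ b := by
  unfold leN; split_ifs with h <;> simp [h]

theorem leN' {F G : (ℕ → ℕ) → α → ℕ} (hF : Good F) (hG : Good G) :
    Good (fun f a => leN (F f a) (G f a)) := by
  refine comp₂ (op := leN) ?_ hF hG
  exact Primrec.ite Primrec.nat_le (Primrec.const 1) (Primrec.const 0)

/-- if-then-else on naturals: `iteN c a b = if c = 0 then b else a`. -/
def iteN (c a b : ℕ) : ℕ := if c = 0 then b else a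

theorem iteN' {C F G : (ℕ → ℕ) → α → ℕ} (hC : Good C) (hF : Good F) (hG : Good G) :
    Good (fun f a => iteN (C f a) (F f a) (G f a)) := by
  refine ⟨?_, fun f a => ?_⟩
  · have h := Primrec.ite (c := fun p : List ℕ × α => C (fun i => p.1.getD i 0) p.2 = 0)
      (Primrec.eq.comp hC.prim (Primrec.const 0)) hG.prim hF.prim
    exact h
  · obtain ⟨M, hM⟩ := hC.cont f a
    obtain ⟨M1, hM1⟩ := hF.cont f a
    obtain ⟨M2, hM2⟩ := hG.cont f a
    refine ⟨max M (max M1 M2), fun g hg => ?_⟩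
    show iteN (C g a) (F g a) (G g a) = iteN (C f a) (F f a) (G f a)
    rw [hM g fun i hi => hg i (lt_of_lt_of_le hi (le_max_left _ _)),
      hM1 g fun i hi => hg i (lt_of_lt_of_le hi ((le_max_left _ _).trans (le_max_right _ _))),
      hM2 g fun i hi => hg i (lt_of_lt_of_le hi ((le_max_right _ _).trans (le_max_right _ _)))]

/-- Substitution of a primitive recursive argument. -/
theorem subst {F : (ℕ → ℕ) → β → ℕ} (hF : Good F) {g : α → β} (hg : Primrec g) :
    Good (fun f a => F f (g a)) :=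
  ⟨hF.prim.comp (Primrec.pair Primrec.fst (hg.comp Primrec.snd)), fun f a => hF.cont f (g a)⟩


private theorem cont_range {N : (ℕ → ℕ) → α → ℕ} {G : (ℕ → ℕ) → α → ℕ → ℕ} (hN : Good N)
    (hG : Good (fun f (p : α × ℕ) => G f p.1 p.2)) (f : ℕ → ℕ) (a : α) :
    ∃ M, ∀ g : ℕ → ℕ, (∀ i < M, g i = f i) →
      N g a = N f a ∧ ∀ i < N f a, G g a i = G f a i := by
  obtain ⟨M, hM⟩ := hN.cont f a
  choose M1 hM1 using fun i : ℕ => hG.cont f (a, i)
  refine ⟨max M ((range (N f a)).sup M1), fun g hg => ?_⟩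
  refine ⟨hM g fun i hi => hg i (lt_of_lt_of_le hi (le_max_left _ _)), fun i hi => ?_⟩
  refine hM1 i g fun j hj => hg j ?_
  refine lt_of_lt_of_le hj (le_trans ?_ (le_max_right _ _))
  exact Finset.le_sup (f := M1) (mem_range.2 hi)

theorem sum {N : (ℕ → ℕ) → α → ℕ} {G : (ℕ → ℕ) → α → ℕ → ℕ} (hN : Good N)
    (hG : Good (fun f (p : α × ℕ) => G f p.1 p.2)) :
    Good (fun f a => ∑ i ∈ range (N f a), G f a i) := by
  refine ⟨?_, fun f a => ?_⟩
  · have h1 : Primrec₂ (fun (p : List ℕ × α) (q : ℕ × ℕ) =>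
        q.2 + G (fun i => p.1.getD i 0) p.2 q.1) := by
      refine Primrec.nat_add.comp (Primrec.snd.comp Primrec.snd) ?_
      exact hG.prim.comp (Primrec.pair (Primrec.fst.comp Primrec.fst)
        (Primrec.pair (Primrec.snd.comp Primrec.fst) (Primrec.fst.comp Primrec.snd)))
    have h2 := Primrec.nat_rec' hN.prim (Primrec.const 0 : Primrec fun _ : List ℕ × α => (0 : ℕ)) h1
    refine h2.of_eq fun p => ?_
    generalize N (fun i => p.1.getD i 0) p.2 = n
    induction n with
    | zero => rfl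
    | succ n ih => rw [Finset.sum_range_succ, ← ih]
  · obtain ⟨M, hM⟩ := cont_range hN hG f a
    refine ⟨M, fun g hg => ?_⟩
    obtain ⟨h1, h2⟩ := hM g hg
    show ∑ i ∈ range (N g a), G g a i = ∑ i ∈ range (N f a), G f a i
    rw [h1]
    exact Finset.sum_congr rfl fun i hi => h2 i (mem_range.1 hi)

theorem prod {N : (ℕ → ℕ) → α → ℕ} {G : (ℕ → ℕ) → α → ℕ → ℕ} (hN : Good N)
    (hG : Good (fun f (p : α × ℕ) => G f p.1 p.2)) :
    Good (fun f a => ∏ i ∈ range (N f a), G f a i) := by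
  refine ⟨?_, fun f a => ?_⟩
  · have h1 : Primrec₂ (fun (p : List ℕ × α) (q : ℕ × ℕ) =>
        q.2 * G (fun i => p.1.getD i 0) p.2 q.1) := by
      refine Primrec.nat_mul.comp (Primrec.snd.comp Primrec.snd) ?_
      exact hG.prim.comp (Primrec.pair (Primrec.fst.comp Primrec.fst)
        (Primrec.pair (Primrec.snd.comp Primrec.fst) (Primrec.fst.comp Primrec.snd)))
    have h2 := Primrec.nat_rec' hN.prim (Primrec.const 1 : Primrec fun _ : List ℕ × α => (1 : ℕ)) h1
    refine h2.of_eq fun p => ?_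
    generalize N (fun i => p.1.getD i 0) p.2 = n
    induction n with
    | zero => rfl
    | succ n ih => rw [Finset.prod_range_succ, ← ih]
  · obtain ⟨M, hM⟩ := cont_range hN hG f a
    refine ⟨M, fun g hg => ?_⟩
    obtain ⟨h1, h2⟩ := hM g hg
    show ∏ i ∈ range (N g a), G g a i = ∏ i ∈ range (N f a), G f a i
    rw [h1]
    exact Finset.prod_congr rfl fun i hi => h2 i (mem_range.1 hi)

end Good

/-- `0/1` value of a bounded universal quantifier. -/
def allN (n : ℕ) (p : ℕ → ℕ) : ℕ := ∏ i ∈ range n, p i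

theorem allN_ne_zero {n : ℕ} {p : ℕ → ℕ} : allN n p ≠ 0 ↔ ∀ i < n, p i ≠ 0 := by
  unfold allN
  rw [Finset.prod_ne_zero_iff]
  simp

theorem Good.all {α : Type} [Primcodable α] {N : (ℕ → ℕ) → α → ℕ} {G : (ℕ → ℕ) → α → ℕ → ℕ}
    (hN : Good N) (hG : Good (fun f (p : α × ℕ) => G f p.1 p.2)) :
    Good (fun f a => allN (N f a) (fun i => G f a i)) := Good.prod hN hG

/-- A good functional, used as a decision procedure on coded lists. -/
def decideOf (F : (ℕ → ℕ) → ℕ × ℕ → ℕ) (p : ℕ × ℕ × ℕ) : Bool :=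
  decide (F (fun i => (Denumerable.ofNat (List ℕ) p.2.2).getD i 0) (p.1, p.2.1) ≠ 0)

theorem Good.computable {F : (ℕ → ℕ) → ℕ × ℕ → ℕ} (hF : Good F) : Computable (decideOf F) := by
  refine Primrec.to_comp ?_
  unfold decideOf
  have h1 : Primrec (fun p : ℕ × ℕ × ℕ =>
      F (fun i => (Denumerable.ofNat (List ℕ) p.2.2).getD i 0) (p.1, p.2.1)) :=
    hF.prim.comp (Primrec.pair ((Primrec.ofNat (List ℕ)).comp (Primrec.snd.comp Primrec.snd))
      (Primrec.pair Primrec.fst (Primrec.fst.comp Primrec.snd)))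
  exact (PrimrecPred.not (Primrec.eq.comp h1 (Primrec.const 0))).decide

theorem decideOf_sound {F : (ℕ → ℕ) → ℕ × ℕ → ℕ} {a k w : ℕ} (h : decideOf F (a, k, w) = true) :
    ∃ f : ℕ → ℕ, F f (a, k) ≠ 0 :=
  ⟨_, of_decide_eq_true h⟩

theorem Good.decideOf_complete {F : (ℕ → ℕ) → ℕ × ℕ → ℕ} (hF : Good F) {a k : ℕ} {f : ℕ → ℕ}
    (h : F f (a, k) ≠ 0) : ∃ w, decideOf F (a, k, w) = true := by
  obtain ⟨M, hM⟩ := hF.cont f (a, k)
  refine ⟨Encodable.encode ((List.range M).map f), ?_⟩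
  unfold decideOf
  simp only [Denumerable.ofNat_encode]
  rw [hM _ (fun i hi => ?_)]
  · simpa using h
  · rw [List.getD_eq_getElem _ _ (by simpa using hi)]
    simp

end Crest.Agent.R153
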