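import Crest.Agent.R153.Frozen
import Crest.Agent.R153.LossAbs

/-! Row 153 (S0217), task LOSSSQ (helper638). -/

set_option autoImplicit false

open Crest.ProbabilityR.RandomSAT

namespace Crest.Agent.R153

section aux
variable {k n : ℕ}

theorem hit_eq_hitA (F : List (Clause k n)) :
    ∀ X : Finset (Asg n), hit X F = LossAbs.hitA cut ne X F := by
  induction F with
  | nil => intro X; rfl
  | cons c F ih =>
    intro X
    show ne X + hit (cut X c) F = ne X + LossAbs.hitA cut ne (cut X c) F
    rw [ih]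

theorem Teps_eq_TA (ε : ℝ) (F : List (Clause k n)) :
    ∀ X : Finset (Asg n), Teps ε X F = LossAbs.TA cut (frz ε) X F := by
  induction F with
  | nil => intro X; rfl
  | cons c F ih =>
    intro X
    show frz ε X + Teps ε (cut X c) F = frz ε X + LossAbs.TA cut (frz ε) (cut X c) F
    rw [ih]

theorem ne_zero_or_one (X : Finset (Asg n)) : ne X = 0 ∨ ne X = 1 := by
  unfold ne; split_ifs
  · exact Or.inr rfl
  · exact Or.inl rfl

theorem nonempty_of_ne_one {X : Finset (Asg n)} (h : ne X = 1) : X.Nonempty := by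
  by_contra h'
  rw [ne_eq_zero h'] at h
  norm_num at h

theorem ne_zero_of_subset {X Y : Finset (Asg n)} (h : X ⊆ Y) (hY : ne Y = 0) : ne X = 0 :=
  le_antisymm ((ne_mono h).trans hY.le) (ne_nonneg X)

theorem frz_zero_or_one (ε : ℝ) (X : Finset (Asg n)) : frz ε X = 0 ∨ frz ε X = 1 := by
  unfold frz; split_ifs
  · exact Or.inr rfl
  · exact Or.inl rfl

theorem frz_one_iff (ε : ℝ) (X : Finset (Asg n)) : frz ε X = 1 ↔ X.Nonempty ∧ ε < phi1 X := by
  unfold frz; split_ifs with h
  · exact ⟨fun _ => h, fun _ => rfl⟩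
  · exact ⟨fun h' => by norm_num at h', fun h' => absurd h' h⟩

theorem ne_of_frz_one {ε : ℝ} {X : Finset (Asg n)} (h : frz ε X = 1) : ne X = 1 :=
  ne_of_nonempty ((frz_one_iff ε X).1 h).1

theorem frz_step (ε : ℝ) (X : Finset (Asg n)) (c : Clause k n) (h : frz ε X = ne X) :
    frz ε (cut X c) = ne (cut X c) := by
  rcases ne_zero_or_one (cut X c) with h0 | h1
  · rcases frz_zero_or_one ε (cut X c) with h2 | h2
    · rw [h0, h2]
    · rw [ne_of_frz_one h2] at h0; norm_num at h0
  · have hX : ne X = 1 := by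
      rcases ne_zero_or_one X with h2 | h2
      · rw [ne_zero_of_subset (cut_subset X c) h2] at h1; norm_num at h1
      · exact h2
    rw [hX] at h
    have h3 := (frz_one_iff ε X).1 h
    rw [h1, frz_one_iff]
    exact ⟨nonempty_of_ne_one h1, h3.2.trans_le (phi1_anti (cut_subset X c))⟩

/-- the master inequality in the concrete setting -/
theorem avg_loss_sq_wt {j : ℕ} (ε a b c : ℝ) (wt : Fin n × Bool → ℝ)
    (hle : ∀ X : Finset (Asg n), X.Nonempty → phi (j + 2) X ≤
      a * avg (fun l : Fin n × Bool => wt l * (1 - ne (cutLit X l))) + (b * frz ε X + c))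
    (X : Finset (Asg n)) (F : List (Clause k n)) :
    avg (fun q : Clause (j + 2) n => (hit X F - hit (cut X q) F) ^ 2) ≤
      a * avg (fun l : Fin n × Bool => wt l * (hit X F - hit (cutLit X l) F) ^ 2) +
        (b * (Teps ε X F) ^ 2 + c * (hit X F) ^ 2) := by
  simp only [hit_eq_hitA, Teps_eq_TA]
  refine LossAbs.avg_loss_sq_gen (al := ne) (cutS := cut) ne_zero_or_one
    (fun X c h => ne_zero_of_subset (cut_subset X c) h)
    (fun q X => cut X q) (fun q X h => ne_zero_of_subset (cut_subset X q) h)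
    (fun q X c => cut_comm X c q)
    (fun l X => cutLit X l) (fun l X h => ne_zero_of_subset (cutLit_subset X l) h)
    (fun l X c => cutLit_cut_comm X l c)
    (frz_zero_or_one ε) (frz_step ε) (fun X h => ne_of_frz_one h) a b c wt ?_ X F
  intro X hX
  simp only [hX]
  exact hle X (nonempty_of_ne_one hX)

end aux

/-- second moment of the loss caused by a uniform `(j+2)`-clause against the one caused by a
uniform literal -/
theorem avg_loss_sq_le {j n k : ℕ} (ε : ℝ) (hε : 0 < ε) (_hε1 : ε ≤ 1) (X : Finset (Asg n))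
    (F : List (Clause k n)) :
    avg (fun q : Clause (j + 2) n => (hit X F - hit (cut X q) F) ^ 2) ≤
      ε ^ (j + 1) * avg (fun l : Fin n × Bool => (hit X F - hit (cutLit X l) F) ^ 2) +
        (Teps ε X F) ^ 2 := by
  have key := avg_loss_sq_wt (j := j) (k := k) ε (ε ^ (j + 1)) 1 0 (fun _ => 1) ?_ X F
  · simpa only [one_mul, zero_mul, add_zero] using key
  · intro Y hY
    have h1 := phi_le_pow (j + 2) Y hY
    have h2 := phi1_nonneg Y
    have h3 := phi1_le_one Y
    have e1 : avg (fun l : Fin n × Bool => (1 : ℝ) * (1 - ne (cutLit Y l))) = phi1 Y := by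
      unfold phi1; exact avg_congr fun l => one_mul _
    rw [e1, one_mul, add_zero]
    by_cases hf : ε < phi1 Y
    · rw [(frz_one_iff ε Y).2 ⟨hY, hf⟩]
      have h4 : phi1 Y ^ (j + 2) ≤ 1 := pow_le_one₀ h2 h3
      have h5 : 0 ≤ ε ^ (j + 1) * phi1 Y := mul_nonneg (pow_nonneg hε.le _) h2
      linarith
    · push Not at hf
      have h4 : phi1 Y ^ (j + 2) ≤ ε ^ (j + 1) * phi1 Y := by
        rw [pow_succ (phi1 Y) (j + 1)]
        exact mul_le_mul_of_nonneg_right (pow_le_pow_left₀ h2 hf _) h2
      have h5 : 0 ≤ frz ε Y := by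
        rcases frz_zero_or_one ε Y with h | h <;> rw [h]
        exact zero_le_one
      linarith


/-- the loss of a clause is at most the loss of its first literal -/
theorem avg_loss_sq_le_lit {m n k : ℕ} (hmn : m + 1 ≤ n) (X : Finset (Asg n))
    (F : List (Clause k n)) :
    avg (fun q : Clause (m + 1) n => (hit X F - hit (cut X q) F) ^ 2) ≤
      avg (fun l : Fin n × Bool => (hit X F - hit (cutLit X l) F) ^ 2) := by
  rw [← avg_fstLit hmn (fun l : Fin n × Bool => (hit X F - hit (cutLit X l) F) ^ 2)]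
  refine avg_mono fun q => ?_
  have h1 : hit (cut X q) F ≤ hit X F := hit_mono (cut_subset X q) F
  have h2 : hit (cutLit X (fstLit q)) F ≤ hit (cut X q) F := hit_mono (cutLit_subset_cut X q) F
  exact pow_le_pow_left₀ (by linarith) (by linarith) 2

end Crest.Agent.R153
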