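import Crest.Agent.R153.Split

/-! Row 153 (S0217), task TAIL: exponentially small satisfiability probabilities. -/

set_option autoImplicit false

open Crest.ProbabilityR.RandomSAT

namespace Crest.Agent.R153

section card

variable {k n : ℕ}

theorem ne_le_card (X : Finset (Asg n)) : ne X ≤ (X.card : ℝ) := by
  by_cases h : X.Nonempty
  · rw [ne_of_nonempty h]
    exact_mod_cast Finset.card_pos.2 h
  · rw [ne_eq_zero h]
    exact Nat.cast_nonneg _

theorem card_asg_le (X : Finset (Asg n)) : (X.card : ℝ) ≤ 2 ^ n := by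
  have h := Finset.card_le_univ X
  have h2 : Fintype.card (Asg n) = 2 ^ n := by simp [Asg]
  rw [h2] at h
  exact_mod_cast h

/-- for a fixed assignment, the probability that a uniform clause is violated is `2 ^ (-k)` -/
theorem card_unsat (σ : Asg n) [Fintype {c : Clause k n // ¬ ClauseSat σ c}] :
    Fintype.card {c : Clause k n // ¬ ClauseSat σ c} = n.descFactorial k := by
  classical
  have e : {c : Clause k n // ¬ ClauseSat σ c} ≃ {v : Fin k → Fin n // Function.Injective v} :=
    { toFun := fun c => c.1.1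
      invFun := fun v => ⟨(v, fun i => !(σ (v.1 i))), fun ⟨i, hi⟩ => by
        change σ (v.1 i) = !(σ (v.1 i)) at hi
        cases h : σ (v.1 i) <;> rw [h] at hi <;> exact absurd hi (by decide)⟩
      left_inv := by
        rintro ⟨⟨v, s⟩, h⟩
        have : (fun i => !(σ (v.1 i))) = s := by
          funext i
          have hi : ¬ σ (v.1 i) = s i := fun h' => h ⟨i, h'⟩
          cases h1 : σ (v.1 i) <;> cases h2 : s i <;> simp_all
        subst this
        rfl
      right_inv := fun v => rfl }
  rw [Fintype.card_congr e, Fintype.card_congr (Equiv.subtypeInjectiveEquivEmbedding (Fin k) (Fin n)),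
    Fintype.card_embedding_eq]
  simp

open Classical in
theorem avg_sat (hkn : k ≤ n) (σ : Asg n) :
    avg (fun c : Clause k n => if ClauseSat σ c then (1 : ℝ) else 0) = 1 - 1 / 2 ^ k := by
  have hD : (0 : ℝ) < (n.descFactorial k : ℝ) := by
    exact_mod_cast Nat.descFactorial_pos.2 hkn
  have h2 : (0 : ℝ) < 2 ^ k := by positivity
  have hsum : (∑ c : Clause k n, if ClauseSat σ c then (1 : ℝ) else 0) =
      (Fintype.card (Clause k n) : ℝ) - n.descFactorial k := by
    have h1 : ∀ c : Clause k n, (if ClauseSat σ c then (1 : ℝ) else 0) =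
        1 - (if ¬ ClauseSat σ c then (1 : ℝ) else 0) := by
      intro c
      by_cases h : ClauseSat σ c <;> simp [h]
    rw [Finset.sum_congr rfl fun c _ => h1 c, Finset.sum_sub_distrib, Finset.sum_const,
      Finset.card_univ, nsmul_eq_mul, mul_one, ← card_unsat (k := k) σ, Fintype.card_subtype,
      Finset.sum_ite, Finset.sum_const_zero, add_zero, Finset.sum_const, nsmul_eq_mul, mul_one]
  unfold avg
  rw [hsum, card_clause]
  push_cast
  field_simp

theorem avg_card_cut (hkn : k ≤ n) (X : Finset (Asg n)) :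
    avg (fun c : Clause k n => ((cut X c).card : ℝ)) = X.card * (1 - 1 / 2 ^ k) := by
  classical
  have h1 : ∀ c : Clause k n, ((cut X c).card : ℝ) =
      ∑ σ ∈ X, if ClauseSat σ c then (1 : ℝ) else 0 := by
    intro c
    rw [← Finset.sum_filter, Finset.sum_const, nsmul_eq_mul, mul_one]
    congr 2
  have h2 : ∀ σ ∈ X, avg (fun c : Clause k n => if ClauseSat σ c then (1 : ℝ) else 0) =
      1 - 1 / 2 ^ k := fun σ _ => by convert avg_sat hkn σ
  rw [avg_congr h1, avg_sum, Finset.sum_congr rfl h2, Finset.sum_const, nsmul_eq_mul]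

theorem EL_card_cutL (hkn : k ≤ n) (M : ℕ) : ∀ X : Finset (Asg n),
    EL M (fun F : List (Clause k n) => ((cutL X F).card : ℝ)) =
      X.card * (1 - 1 / 2 ^ k) ^ M := by
  induction M with
  | zero => intro X; simp [EL, cutL_nil]
  | succ M ih =>
    intro X
    rw [EL_succ]
    have h1 : ∀ c : Clause k n, EL M (fun F : List (Clause k n) => ((cutL X (c :: F)).card : ℝ)) =
        ((cut X c).card : ℝ) * (1 - 1 / 2 ^ k) ^ M := fun c => ih (cut X c)
    rw [avg_congr h1, avg_mul_const, avg_card_cut hkn, pow_succ]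
    ring

end card

/-- union bound -/
theorem EL_ne_le {k n : ℕ} (hkn : k ≤ n) (M : ℕ) (X : Finset (Asg n)) :
    EL M (fun F : List (Clause k n) => ne (cutL X F)) ≤ 2 ^ n * (1 - 1 / 2 ^ k) ^ M := by
  have h0 : (0 : ℝ) ≤ 1 - 1 / 2 ^ k := by
    have : (1 : ℝ) / 2 ^ k ≤ 1 := by
      rw [div_le_one (by positivity)]
      exact one_le_pow₀ (by norm_num)
    linarith
  calc EL M (fun F : List (Clause k n) => ne (cutL X F))
      ≤ EL M (fun F : List (Clause k n) => ((cutL X F).card : ℝ)) :=
        EL_mono fun F => ne_le_card _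
    _ = X.card * (1 - 1 / 2 ^ k) ^ M := EL_card_cutL hkn M X
    _ ≤ 2 ^ n * (1 - 1 / 2 ^ k) ^ M :=
        mul_le_mul_of_nonneg_right (card_asg_le X) (pow_nonneg h0 M)

/-- first moment of `hit` -/
theorem EL_hit_le_card {k n : ℕ} (hkn : k ≤ n) (M : ℕ) : ∀ X : Finset (Asg n),
    EL M (fun F : List (Clause k n) => hit X F) ≤ 2 ^ k * X.card := by
  have h2 : (1 : ℝ) ≤ 2 ^ k := one_le_pow₀ (by norm_num)
  induction M with
  | zero =>
    intro X
    show ne X ≤ _
    have := ne_le_card X
    nlinarith [ne_nonneg X]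
  | succ M ih =>
    intro X
    rw [EL_succ]
    have h1 : ∀ c : Clause k n, EL M (fun F : List (Clause k n) => hit X (c :: F)) ≤
        ne X + 2 ^ k * ((cut X c).card : ℝ) := by
      intro c
      have : EL M (fun F : List (Clause k n) => hit X (c :: F)) =
          EL M (fun _ : List (Clause k n) => ne X) +
            EL M (fun F : List (Clause k n) => hit (cut X c) F) := EL_add M _ _
      rw [this]
      exact add_le_add (EL_const_le (ne_nonneg X)) (ih _)
    calc avg (fun c : Clause k n => EL M (fun F : List (Clause k n) => hit X (c :: F)))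
        ≤ avg (fun c : Clause k n => ne X + 2 ^ k * ((cut X c).card : ℝ)) := avg_mono h1
      _ = avg (fun _ : Clause k n => ne X) + 2 ^ k * (X.card * (1 - 1 / 2 ^ k)) := by
          rw [avg_add, avg_const_mul, avg_card_cut hkn]
      _ ≤ X.card + 2 ^ k * (X.card * (1 - 1 / 2 ^ k)) := by
          have := avg_const_le (α := Clause k n) (ne_nonneg X)
          have := ne_le_card X
          linarith
      _ = 2 ^ k * X.card := by
          field_simp
          ring

/-- second moment of `hit` -/
theorem EL_hit_sq_le_card {k n : ℕ} (hkn : k ≤ n) (M : ℕ) : ∀ X : Finset (Asg n),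
    EL M (fun F : List (Clause k n) => (hit X F) ^ 2) ≤
      (2 ^ k * (1 + 2 * 2 ^ k)) * X.card := by
  have h2 : (1 : ℝ) ≤ 2 ^ k := one_le_pow₀ (by norm_num)
  induction M with
  | zero =>
    intro X
    show ne X ^ 2 ≤ _
    have h3 := ne_le_card X
    have h4 : ne X ^ 2 ≤ ne X := by nlinarith [ne_nonneg X, ne_le_one X]
    have h5 : (1 : ℝ) ≤ 2 ^ k * (1 + 2 * 2 ^ k) := by nlinarith
    have h6 : (0 : ℝ) ≤ X.card := Nat.cast_nonneg _
    nlinarith
  | succ M ih =>
    intro X
    rw [EL_succ]
    have h1 : ∀ c : Clause k n, EL M (fun F : List (Clause k n) => (hit X (c :: F)) ^ 2) ≤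
        ne X + (2 * (2 ^ k * ((cut X c).card : ℝ)) +
          (2 ^ k * (1 + 2 * 2 ^ k)) * ((cut X c).card : ℝ)) := by
      intro c
      have h7 : EL M (fun F : List (Clause k n) => (hit X (c :: F)) ^ 2) ≤
          EL M (fun F : List (Clause k n) => ne X + (2 * hit (cut X c) F +
            (hit (cut X c) F) ^ 2)) := by
        refine EL_mono fun F => ?_
        show (ne X + hit (cut X c) F) ^ 2 ≤ _
        have := ne_le_one X
        have := ne_nonneg X
        have := hit_nonneg (cut X c) F
        nlinarith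
      refine h7.trans ?_
      rw [EL_add, EL_add, EL_const_mul]
      have h8 := EL_const_le (α := Clause k n) (M := M) (ne_nonneg X)
      have h9 := EL_hit_le_card hkn M (cut X c)
      have h10 := ih (cut X c)
      linarith
    calc avg (fun c : Clause k n => EL M (fun F : List (Clause k n) => (hit X (c :: F)) ^ 2))
        ≤ avg (fun c : Clause k n => ne X + (2 * (2 ^ k * ((cut X c).card : ℝ)) +
          (2 ^ k * (1 + 2 * 2 ^ k)) * ((cut X c).card : ℝ))) := avg_mono h1
      _ = avg (fun _ : Clause k n => ne X) + (2 * (2 ^ k * (X.card * (1 - 1 / 2 ^ k))) +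
          (2 ^ k * (1 + 2 * 2 ^ k)) * (X.card * (1 - 1 / 2 ^ k))) := by
          rw [avg_add, avg_add, avg_const_mul, avg_const_mul, avg_const_mul, avg_card_cut hkn]
      _ ≤ X.card + (2 * (2 ^ k * (X.card * (1 - 1 / 2 ^ k))) +
          (2 ^ k * (1 + 2 * 2 ^ k)) * (X.card * (1 - 1 / 2 ^ k))) := by
          have := avg_const_le (α := Clause k n) (ne_nonneg X)
          have := ne_le_card X
          linarith
      _ ≤ (2 ^ k * (1 + 2 * 2 ^ k)) * X.card := by
          have h11 : (2 : ℝ) ^ k * (1 / 2 ^ k) = 1 := by field_simp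
          have h12 : X.card + (2 * (2 ^ k * (X.card * (1 - 1 / 2 ^ k))) +
              (2 ^ k * (1 + 2 * 2 ^ k)) * (X.card * (1 - 1 / 2 ^ k))) =
              (2 ^ k * (1 + 2 * 2 ^ k)) * (X.card : ℝ) +
                X.card * (1 + 2 * 2 ^ k - 2 * (2 ^ k * (1 / 2 ^ k)) -
                  (1 + 2 * 2 ^ k) * (2 ^ k * (1 / 2 ^ k))) := by ring
          rw [h12, h11]
          have h6 : (0 : ℝ) ≤ X.card := Nat.cast_nonneg _
          nlinarith

theorem hit_append {k n : ℕ} (F G : List (Clause k n)) : ∀ X : Finset (Asg n),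
    hit X (F ++ G) + ne (cutL X F) = hit X F + hit (cutL X F) G := by
  induction F with
  | nil => intro X; show hit X G + ne X = ne X + hit X G; ring
  | cons c F ih =>
    intro X
    have := ih (cut X c)
    show (ne X + hit (cut X c) (F ++ G)) + ne (cutL (cut X c) F) =
      (ne X + hit (cut X c) F) + hit (cutL (cut X c) F) G
    linarith

/-- there are `C0`, `CT` (depending on `k` only) such that the part of `hit` after `C0 * n` clauses
has second moment at most `CT` -/
theorem exists_tail (k : ℕ) (hk : 1 ≤ k) : ∃ (C0 : ℕ) (CT : ℝ), 1 ≤ C0 ∧ 0 ≤ CT ∧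
    ∀ (n : ℕ), k ≤ n → ∀ (M : ℕ) (X : Finset (Asg n)),
      EL M (fun F : List (Clause k n) => (hit X F - hit X (F.take (C0 * n))) ^ 2) ≤ CT := by
  have h0 : (0 : ℝ) ≤ 1 - 1 / 2 ^ k := by
    have : (1 : ℝ) / 2 ^ k ≤ 1 := by
      rw [div_le_one (by positivity)]
      exact one_le_pow₀ (by norm_num)
    linarith
  have h1 : (1 : ℝ) - 1 / 2 ^ k < 1 := by
    have : (0 : ℝ) < 1 / 2 ^ k := by positivity
    linarith
  obtain ⟨C0, hC0⟩ := exists_pow_lt_of_lt_one (show (0 : ℝ) < 1 / 2 by norm_num) h1
  have hpos : 1 ≤ C0 := by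
    rcases Nat.eq_zero_or_pos C0 with h | h
    · subst h
      norm_num at hC0
    · exact h
  refine ⟨C0, 2 ^ k * (1 + 2 * 2 ^ k), hpos, by positivity, fun n hkn M X => ?_⟩
  rcases le_total M (C0 * n) with hM | hM
  · have : EL M (fun F : List (Clause k n) => (hit X F - hit X (F.take (C0 * n))) ^ 2) =
        EL M (fun _ : List (Clause k n) => (0 : ℝ)) := by
      refine EL_congr' fun F hF => ?_
      rw [List.take_of_length_le (by omega)]
      simp
    rw [this, EL_zero_fun]
    positivity
  · obtain ⟨b, rfl⟩ := Nat.exists_eq_add_of_le hM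
    rw [EL_append]
    calc EL (C0 * n) (fun F : List (Clause k n) => EL b (fun G : List (Clause k n) =>
          (hit X (F ++ G) - hit X ((F ++ G).take (C0 * n))) ^ 2))
        ≤ EL (C0 * n) (fun F : List (Clause k n) =>
            (2 ^ k * (1 + 2 * 2 ^ k)) * ((cutL X F).card : ℝ)) := by
          refine EL_mono' fun F hF => ?_
          refine le_trans (EL_mono fun G => ?_) (EL_hit_sq_le_card hkn b (cutL X F))
          have e : (F ++ G).take (C0 * n) = F := by
            rw [← hF]
            exact List.take_left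
          rw [e]
          have h3 := hit_append F G X
          have h4 := ne_nonneg (cutL X F)
          have h5 := ne_le_hit (cutL X F) G
          have h6 : hit X (F ++ G) - hit X F = hit (cutL X F) G - ne (cutL X F) := by linarith
          rw [h6]
          exact pow_le_pow_left₀ (by linarith) (by linarith) 2
      _ = (2 ^ k * (1 + 2 * 2 ^ k)) * (X.card * (1 - 1 / 2 ^ k) ^ (C0 * n)) := by
          rw [EL_const_mul, EL_card_cutL hkn]
      _ ≤ (2 ^ k * (1 + 2 * 2 ^ k)) * 1 := by
          refine mul_le_mul_of_nonneg_left ?_ (by positivity)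
          calc (X.card : ℝ) * (1 - 1 / 2 ^ k) ^ (C0 * n)
              ≤ 2 ^ n * (1 / 2) ^ n := by
                rw [pow_mul]
                exact mul_le_mul (card_asg_le X) (pow_le_pow_left₀ (pow_nonneg h0 _) hC0.le n)
                  (by positivity) (by positivity)
            _ = 1 := by rw [← mul_pow]; norm_num
      _ = 2 ^ k * (1 + 2 * 2 ^ k) := by ring

/-- prefixes: `hit` of a longer list -/
theorem hit_take_le {k n : ℕ} (X : Finset (Asg n)) (F : List (Clause k n)) (t : ℕ) :
    hit X (F.take t) ≤ hit X F := by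
  induction F generalizing X t with
  | nil => simp
  | cons c F ih =>
    cases t with
    | zero =>
      show ne X ≤ hit X (c :: F)
      exact ne_le_hit X (c :: F)
    | succ t =>
      show ne X + hit (cut X c) (F.take t) ≤ ne X + hit (cut X c) F
      exact add_le_add le_rfl (ih _ _)

/-- trivial second moment bound -/
theorem exists_hit_sq_le (k : ℕ) (hk : 1 ≤ k) : ∃ C1 : ℝ, 0 ≤ C1 ∧
    ∀ (n : ℕ), k ≤ n → ∀ (M : ℕ) (X : Finset (Asg n)),
      EL M (fun F : List (Clause k n) => (hit X F) ^ 2) ≤ C1 * (n : ℝ) ^ 2 := by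
  obtain ⟨C0, CT, hC0, hCT, h⟩ := exists_tail k hk
  refine ⟨8 * (C0 : ℝ) ^ 2 + 2 * CT, by positivity, fun n hkn M X => ?_⟩
  have hn1 : (1 : ℝ) ≤ n := by exact_mod_cast hk.trans hkn
  have hC1 : (1 : ℝ) ≤ C0 := by exact_mod_cast hC0
  calc EL M (fun F : List (Clause k n) => (hit X F) ^ 2)
      ≤ EL M (fun F : List (Clause k n) => 8 * (C0 : ℝ) ^ 2 * (n : ℝ) ^ 2 +
          2 * (hit X F - hit X (F.take (C0 * n))) ^ 2) := by
        refine EL_mono fun F => ?_
        have h1 := hit_le_length X (F.take (C0 * n))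
        have h2 := hit_nonneg X (F.take (C0 * n))
        have h3 : ((F.take (C0 * n)).length : ℝ) ≤ C0 * n := by
          have := List.length_take_le (C0 * n) F
          exact_mod_cast this
        have h4 : (1 : ℝ) ≤ C0 * n := by nlinarith
        have h5 : hit X (F.take (C0 * n)) ≤ 2 * (C0 * n) := by linarith
        have h6 : hit X (F.take (C0 * n)) ^ 2 ≤ (2 * (C0 * n)) ^ 2 := pow_le_pow_left₀ h2 h5 2
        nlinarith [sq_nonneg (hit X (F.take (C0 * n)) - (hit X F - hit X (F.take (C0 * n))))]
    _ ≤ 8 * (C0 : ℝ) ^ 2 * (n : ℝ) ^ 2 + 2 * CT := by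
        rw [EL_add M (fun _ => 8 * (C0 : ℝ) ^ 2 * (n : ℝ) ^ 2), EL_const_mul M 2]
        have h7 := EL_const_le (α := Clause k n) (M := M)
          (show (0 : ℝ) ≤ 8 * (C0 : ℝ) ^ 2 * (n : ℝ) ^ 2 by positivity)
        have h8 := h n hkn M X
        linarith
    _ ≤ (8 * (C0 : ℝ) ^ 2 + 2 * CT) * (n : ℝ) ^ 2 := by
        have : (1 : ℝ) ≤ (n : ℝ) ^ 2 := one_le_pow₀ hn1
        nlinarith


end Crest.Agent.R153
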