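import Crest.Agent.R153.Split
import Crest.Agent.R153.Frozen
import Crest.Agent.R153.LossSq
import Crest.Agent.R153.Pattern
import Crest.Agent.R153.Tail

-- ▼ part R153/Elim
section

/-! Row 153 (S0217), task ELIM: deterministic elimination of a variable. -/

set_option autoImplicit false

open Crest.ProbabilityR.RandomSAT

namespace Crest.Agent.R153

variable {m n : ℕ}

/-- assignments `τ` of the other variables whose extension by `v = b` lies in `X` -/
def slice (v : Fin (n + 1)) (b : Bool) (X : Finset (Asg (n + 1))) : Finset (Asg n) :=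
  Finset.univ.filter (fun τ : Asg n => v.insertNth b τ ∈ X)

/-- projection forgetting `v` -/
def proj (v : Fin (n + 1)) (X : Finset (Asg (n + 1))) : Finset (Asg n) :=
  X.image (fun σ i => σ (v.succAbove i))

theorem mem_slice {v : Fin (n + 1)} {b : Bool} {X : Finset (Asg (n + 1))} {τ : Asg n} :
    τ ∈ slice v b X ↔ (v.insertNth b τ : Asg (n + 1)) ∈ X := by
  unfold slice
  simp

theorem mem_proj {v : Fin (n + 1)} {X : Finset (Asg (n + 1))} {τ : Asg n} :
    τ ∈ proj v X ↔ ∃ σ ∈ X, (fun i => σ (v.succAbove i)) = τ := by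
  unfold proj
  simp

theorem mem_pureL {v : Fin (n + 1)} {E : List (Clause (m + 1) (n + 1))} {c : Clause (m + 1) n} :
    c ∈ pureL v E ↔ joinL v c ∈ E := by
  unfold pureL
  rw [List.mem_filterMap]
  constructor
  · rintro ⟨d, hd, h⟩
    revert hd h
    refine cases_clause v (p := fun d => d ∈ E → (splitE v d).elim some (fun _ => none) = some c →
      joinL v c ∈ E) ?_ ?_ d
    · intro c' hc' h
      rw [splitE_joinL] at h
      simp only [Sum.elim_inl, Option.some.injEq] at h
      rwa [← h]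
    · intro i s q _ h
      rw [splitE_joinR] at h
      simp at h
  · intro h
    exact ⟨joinL v c, h, by rw [splitE_joinL]; rfl⟩

theorem mem_redL {v : Fin (n + 1)} {b : Bool} {E : List (Clause (m + 1) (n + 1))}
    {i : Fin (m + 1)} {s : Bool} {q : Clause m n} (hs : s ≠ b) (h : joinR v i s q ∈ E) :
    q ∈ redL v b E := by
  unfold redL
  rw [List.mem_filterMap]
  refine ⟨joinR v i s q, h, ?_⟩
  rw [splitE_joinR]
  simp [hs]

theorem slice_subset_proj (v : Fin (n + 1)) (b : Bool) (X : Finset (Asg (n + 1))) :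
    slice v b X ⊆ proj v X := by
  intro τ hτ
  rw [mem_slice] at hτ
  rw [mem_proj]
  exact ⟨_, hτ, by funext i; simp⟩

theorem ne_le_proj (v : Fin (n + 1)) (X : Finset (Asg (n + 1))) (Y : Finset (Asg n))
    (hY : proj v X ⊆ Y) : ne X ≤ ne Y := by
  by_cases hX : X.Nonempty
  · obtain ⟨σ, hσ⟩ := hX
    have : Y.Nonempty := ⟨_, hY (mem_proj.2 ⟨σ, hσ, rfl⟩)⟩
    rw [ne_of_nonempty this]
    exact ne_le_one X
  · rw [ne_eq_zero hX]
    exact ne_nonneg Y

theorem ne_slice_le (v : Fin (n + 1)) (b : Bool) (X : Finset (Asg (n + 1))) (Z : Finset (Asg n))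
    (hZ : Z ⊆ slice v b X) : ne Z ≤ ne (cutLit X (v, b)) := by
  by_cases h : Z.Nonempty
  · obtain ⟨τ, hτ⟩ := h
    have h1 := mem_slice.1 (hZ hτ)
    have : (cutLit X (v, b)).Nonempty := ⟨_, mem_cutLit.2 ⟨h1, by simp⟩⟩
    rw [ne_of_nonempty this]
    exact ne_le_one Z
  · rw [ne_eq_zero h]
    exact ne_nonneg _

theorem ne_sub_le_hit_sub {k : ℕ} {A Y : Finset (Asg n)} (h : A ⊆ Y) (P : List (Clause k n)) :
    ne Y - ne A ≤ hit Y P - hit A P := by
  by_cases hA : A.Nonempty
  · rw [ne_of_nonempty hA, ne_of_nonempty (hA.mono h)]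
    have := hit_mono h P
    linarith
  · have hA' : A = ∅ := Finset.not_nonempty_iff_eq_empty.1 hA
    subst hA'
    rw [hit_empty, ne_empty]
    have := ne_le_hit Y P
    linarith


theorem loss_elim (v : Fin (n + 1)) (b : Bool) (X : Finset (Asg (n + 1)))
    (Y Z : Finset (Asg n)) (hY : proj v X ⊆ Y) (hZ : Z ⊆ slice v b X)
    (F : List (Clause (m + 1) (n + 1))) :
    hit X F - hit (cutLit X (v, b)) F ≤
      (1 + cnt v F) * (hit Y (pureL v F) - hit (cutL Z (redL v b F)) (pureL v F)) := by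
  induction F generalizing X Y Z with
  | nil =>
    have h1 := ne_le_proj v X Y hY
    have h2 := ne_slice_le v b X Z hZ
    show ne X - ne (cutLit X (v, b)) ≤ (1 + ((0 : ℕ) : ℝ)) * (ne Y - ne Z)
    push_cast
    linarith
  | cons c F ih =>
    have h1 := ne_le_proj v X Y hY
    have h2 := ne_slice_le v b X Z hZ
    have hZY : Z ⊆ Y := hZ.trans ((slice_subset_proj v b X).trans hY)
    have hcnt : (0 : ℝ) ≤ cnt v F := Nat.cast_nonneg _
    revert c
    refine cases_clause v ?_ ?_
    · intro c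
      have ih' := ih (cut X (joinL v c)) (cut Y c) (cut Z c) (by
          intro τ hτ
          obtain ⟨σ, hσ, rfl⟩ := mem_proj.1 hτ
          rw [mem_cut, clauseSat_joinL] at hσ
          exact mem_cut.2 ⟨hY (mem_proj.2 ⟨σ, hσ.1, rfl⟩), hσ.2⟩) (by
          intro τ hτ
          rw [mem_cut] at hτ
          have := mem_slice.1 (hZ hτ.1)
          refine mem_slice.2 (mem_cut.2 ⟨this, ?_⟩)
          rw [clauseSat_joinL]
          convert hτ.2 using 1
          funext i
          simp)
      rw [cnt_consL, pureL_consL, redL_consL]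
      have e1 : hit X (joinL v c :: F) = ne X + hit (cut X (joinL v c)) F := rfl
      have e2 : hit (cutLit X (v, b)) (joinL v c :: F) =
          ne (cutLit X (v, b)) + hit (cutLit (cut X (joinL v c)) (v, b)) F := by
        rw [cutLit_cut_comm]; rfl
      have e3 : hit Y (c :: pureL v F) = ne Y + hit (cut Y c) (pureL v F) := rfl
      have e4 : hit (cutL Z (redL v b F)) (c :: pureL v F) =
          ne (cutL Z (redL v b F)) + hit (cutL (cut Z c) (redL v b F)) (pureL v F) := by
        rw [cutL_cut_comm]; rfl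
      rw [e1, e2, e3, e4]
      have h3 : ne (cutL Z (redL v b F)) ≤ ne Z := ne_mono (cutL_subset _ _)
      have h4 : 0 ≤ (cnt v F : ℝ) * (ne Y - ne (cutL Z (redL v b F))) := by
        apply mul_nonneg hcnt
        have := ne_mono hZY
        linarith
      nlinarith
    · intro i s q
      by_cases hs : s = b
      · subst hs
        have ih' := ih (cut X (joinR v i s q)) Y Z (by
            intro τ hτ
            obtain ⟨σ, hσ, rfl⟩ := mem_proj.1 hτ
            rw [mem_cut] at hσ
            exact hY (mem_proj.2 ⟨σ, hσ.1, rfl⟩)) (by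
            intro τ hτ
            have := mem_slice.1 (hZ hτ)
            refine mem_slice.2 (mem_cut.2 ⟨this, ?_⟩)
            rw [clauseSat_joinR]
            left
            simp)
        rw [cnt_consR, pureL_consR, redL_consR_eq]
        have e1 : hit X (joinR v i s q :: F) = ne X + hit (cut X (joinR v i s q)) F := rfl
        have e2 : hit (cutLit X (v, s)) (joinR v i s q :: F) =
            ne (cutLit X (v, s)) + hit (cutLit (cut X (joinR v i s q)) (v, s)) F := by
          rw [cutLit_cut_comm]; rfl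
        rw [e1, e2]
        have h3 : ne (cutL Z (redL v s F)) ≤ ne Z := ne_mono (cutL_subset _ _)
        have h5 := ne_sub_le_hit_sub ((cutL_subset Z (redL v s F)).trans hZY) (pureL v F)
        push_cast
        linarith
      · have ih' := ih (cut X (joinR v i s q)) Y (cut Z q) (by
            intro τ hτ
            obtain ⟨σ, hσ, rfl⟩ := mem_proj.1 hτ
            rw [mem_cut] at hσ
            exact hY (mem_proj.2 ⟨σ, hσ.1, rfl⟩)) (by
            intro τ hτ
            rw [mem_cut] at hτ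
            have := mem_slice.1 (hZ hτ.1)
            refine mem_slice.2 (mem_cut.2 ⟨this, ?_⟩)
            rw [clauseSat_joinR]
            right
            convert hτ.2 using 1
            funext i
            simp)
        rw [cnt_consR, pureL_consR, redL_consR_ne v hs]
        have e1 : hit X (joinR v i s q :: F) = ne X + hit (cut X (joinR v i s q)) F := rfl
        have e2 : hit (cutLit X (v, b)) (joinR v i s q :: F) =
            ne (cutLit X (v, b)) + hit (cutLit (cut X (joinR v i s q)) (v, b)) F := by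
          rw [cutLit_cut_comm]; rfl
        rw [e1, e2, cutL_cons]
        have hsub : cutL (cut Z q) (redL v b F) ⊆ Z :=
          (cutL_subset _ _).trans (cut_subset _ _)
        have h3 : ne (cutL (cut Z q) (redL v b F)) ≤ ne Z := ne_mono hsub
        have h5 := ne_sub_le_hit_sub (hsub.trans hZY) (pureL v F)
        push_cast
        linarith

theorem proj_cutL (v : Fin (n + 1)) (E : List (Clause (m + 1) (n + 1))) :
    proj v (cutL Finset.univ E) ⊆ cutL Finset.univ (pureL v E) := by
  intro τ hτ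
  obtain ⟨σ, hσ, rfl⟩ := mem_proj.1 hτ
  rw [mem_cutL] at hσ ⊢
  refine ⟨Finset.mem_univ _, fun c hc => ?_⟩
  have := hσ.2 _ (mem_pureL.1 hc)
  rwa [clauseSat_joinL] at this

theorem subset_slice_cutL (v : Fin (n + 1)) (b : Bool) (E : List (Clause (m + 1) (n + 1))) :
    cutL (cutL Finset.univ (pureL v E)) (redL v b E) ⊆ slice v b (cutL Finset.univ E) := by
  intro τ hτ
  rw [mem_cutL, mem_cutL] at hτ
  obtain ⟨⟨_, hp⟩, hr⟩ := hτ
  rw [mem_slice, mem_cutL]
  refine ⟨Finset.mem_univ _, fun c hc => ?_⟩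
  revert hc
  refine cases_clause v (p := fun c => c ∈ E → ClauseSat (v.insertNth b τ : Asg (n + 1)) c)
    ?_ ?_ c
  · intro c hc
    rw [clauseSat_joinL]
    convert hp c (mem_pureL.2 hc) using 1
    funext i
    simp
  · intro i s q hc
    rw [clauseSat_joinR]
    by_cases hs : s = b
    · left; simp [hs]
    · right
      convert hr q (mem_redL hs hc) using 1
      funext i
      simp

end Crest.Agent.R153
end

-- ▼ part R153/Geom
section

/-! Row 153 (S0217), task GEOM. -/

set_option autoImplicit false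

open Crest.ProbabilityR.RandomSAT

namespace Crest.Agent.R153

theorem frz_empty (ε : ℝ) {n : ℕ} : frz ε (∅ : Finset (Asg n)) = 0 := by
  unfold frz
  rw [if_neg]
  rintro ⟨h, _⟩
  exact Finset.not_nonempty_empty h

theorem Teps_empty (ε : ℝ) {k n : ℕ} (F : List (Clause k n)) :
    Teps ε (∅ : Finset (Asg n)) F = 0 := by
  have h0 : ∀ c : Clause k n, cut (∅ : Finset (Asg n)) c = ∅ := fun c =>
    Finset.subset_empty.1 (cut_subset ∅ c)
  induction F with
  | nil => exact frz_empty ε
  | cons c F ih =>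
    show frz ε (∅ : Finset (Asg n)) + Teps ε (cut ∅ c) F = 0
    rw [frz_empty, h0, ih, add_zero]

theorem frz_cases (ε : ℝ) {n : ℕ} (X : Finset (Asg n)) :
    frz ε X = 0 ∨ (frz ε X = 1 ∧ X.Nonempty ∧ ε < phi1 X) := by
  unfold frz
  by_cases h : X.Nonempty ∧ ε < phi1 X
  · right; exact ⟨if_pos h, h⟩
  · left; exact if_neg h

/-- average over a clause of `a + ne (cut X c) * b` -/
theorem avg_ne_le (k : ℕ) {n : ℕ} (X : Finset (Asg n)) (b p : ℝ) (hb : 0 ≤ b)
    (hp : p ≤ phi k X) :
    avg (fun c : Clause k n => 1 + ne (cut X c) * b) ≤ 1 + (1 - p) * b := by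
  have e : (fun c : Clause k n => 1 + ne (cut X c) * b)
      = (fun c : Clause k n => (1 + b) - (1 - ne (cut X c)) * b) := by
    funext c; ring
  rw [e, avg_sub, avg_mul_const]
  have h1 : avg (fun _ : Clause k n => 1 + b) ≤ 1 + b := avg_const_le (by linarith)
  have h2 : avg (fun c : Clause k n => 1 - ne (cut X c)) = phi k X := rfl
  rw [h2]
  nlinarith [mul_le_mul_of_nonneg_right hp hb]

theorem EL_Teps_both (k : ℕ) {n : ℕ} (ε : ℝ) (hε : 0 < ε) (hε1 : ε ≤ 1)
    (hn : (k : ℝ) ≤ ε * n) (M : ℕ) : ∀ (X : Finset (Asg n)),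
    EL M (fun F : List (Clause k n) => Teps ε X F) ≤ 1 / (ε / 2) ^ k ∧
    EL M (fun F : List (Clause k n) => (Teps ε X F) ^ 2)
      ≤ (2 - (ε / 2) ^ k) / ((ε / 2) ^ k) ^ 2 := by
  have hp0 : 0 < (ε / 2) ^ k := by positivity
  have hp1 : (ε / 2) ^ k ≤ 1 := pow_le_one₀ (by positivity) (by linarith)
  generalize hpp : (ε / 2) ^ k = p at hp0 hp1 ⊢
  have hA : 1 ≤ 1 / p := by rw [le_div_iff₀ hp0]; linarith
  have hB : 1 ≤ (2 - p) / p ^ 2 := by
    rw [le_div_iff₀ (by positivity)]; nlinarith
  have hA0 : 0 ≤ 1 / p := by linarith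
  have hB0 : 0 ≤ (2 - p) / p ^ 2 := by linarith
  induction M with
  | zero =>
    intro X
    show frz ε X ≤ _ ∧ (frz ε X) ^ 2 ≤ _
    rcases frz_cases ε X with h | ⟨h, _⟩
    · rw [h]
      exact ⟨hA0, by simpa using hB0⟩
    · rw [h]
      exact ⟨hA, by simpa using hB⟩
  | succ M ih =>
    intro X
    show avg (fun c : Clause k n => EL M (fun F : List (Clause k n) =>
        frz ε X + Teps ε (cut X c) F)) ≤ _ ∧
      avg (fun c : Clause k n => EL M (fun F : List (Clause k n) =>
        (frz ε X + Teps ε (cut X c) F) ^ 2)) ≤ _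
    rcases frz_cases ε X with h | ⟨h, hX, hphi⟩
    · rw [h]
      simp only [zero_add]
      exact ⟨(avg_mono fun c => (ih (cut X c)).1).trans (avg_const_le hA0),
        (avg_mono fun c => (ih (cut X c)).2).trans (avg_const_le hB0)⟩
    · rw [h]
      have hphi' : p ≤ phi k X := by
        rw [← hpp]; exact phi_lower k ε hε hn X hX hphi
      have key1 : ∀ c : Clause k n, EL M (fun F : List (Clause k n) => Teps ε (cut X c) F)
          ≤ ne (cut X c) * (1 / p) := by
        intro c
        by_cases hc : (cut X c).Nonempty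
        · rw [ne_of_nonempty hc, one_mul]
          exact (ih (cut X c)).1
        · rw [Finset.not_nonempty_iff_eq_empty] at hc
          rw [hc, ne_empty, zero_mul]
          simp only [Teps_empty]
          rw [EL_zero_fun]
      have key2 : ∀ c : Clause k n,
          EL M (fun F : List (Clause k n) => (Teps ε (cut X c) F) ^ 2)
          ≤ ne (cut X c) * ((2 - p) / p ^ 2) := by
        intro c
        by_cases hc : (cut X c).Nonempty
        · rw [ne_of_nonempty hc, one_mul]
          exact (ih (cut X c)).2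
        · rw [Finset.not_nonempty_iff_eq_empty] at hc
          rw [hc, ne_empty, zero_mul]
          simp only [Teps_empty]
          simp [EL_zero_fun]
      constructor
      · calc avg (fun c : Clause k n => EL M (fun F : List (Clause k n) =>
              1 + Teps ε (cut X c) F))
            ≤ avg (fun c : Clause k n => 1 + ne (cut X c) * (1 / p)) := by
              refine avg_mono fun c => ?_
              rw [EL_add M (fun _ => (1 : ℝ)) (fun F => Teps ε (cut X c) F)]
              exact add_le_add (EL_const_le zero_le_one) (key1 c)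
          _ ≤ 1 + (1 - p) * (1 / p) := avg_ne_le k X _ p hA0 hphi'
          _ = 1 / p := by field_simp; ring
      · calc avg (fun c : Clause k n => EL M (fun F : List (Clause k n) =>
              (1 + Teps ε (cut X c) F) ^ 2))
            ≤ avg (fun c : Clause k n =>
                1 + ne (cut X c) * (2 * (1 / p) + (2 - p) / p ^ 2)) := by
              refine avg_mono fun c => ?_
              have e : (fun F : List (Clause k n) => (1 + Teps ε (cut X c) F) ^ 2)
                  = (fun F : List (Clause k n) => (1 + 2 * Teps ε (cut X c) F)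
                      + (Teps ε (cut X c) F) ^ 2) := by
                funext F; ring
              rw [e, EL_add M (fun F => 1 + 2 * Teps ε (cut X c) F)
                (fun F => (Teps ε (cut X c) F) ^ 2),
                EL_add M (fun _ => (1 : ℝ)) (fun F => 2 * Teps ε (cut X c) F),
                EL_const_mul]
              have h1 := key1 c
              have h2 := key2 c
              have h3 : EL M (fun _ : List (Clause k n) => (1 : ℝ)) ≤ 1 :=
                EL_const_le zero_le_one
              nlinarith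
          _ ≤ 1 + (1 - p) * (2 * (1 / p) + (2 - p) / p ^ 2) :=
              avg_ne_le k X _ p (by linarith) hphi'
          _ = (2 - p) / p ^ 2 := by field_simp; ring

/-- the number of steps with frozen fraction `> ε` is dominated by a geometric variable -/
theorem EL_Teps_sq_le (k : ℕ) {n : ℕ} (ε : ℝ) (hε : 0 < ε) (hε1 : ε ≤ 1)
    (hn : (k : ℝ) ≤ ε * n) (M : ℕ) (X : Finset (Asg n)) :
    EL M (fun F : List (Clause k n) => (Teps ε X F) ^ 2) ≤ 2 / ((ε / 2) ^ k) ^ 2 := by
  refine ((EL_Teps_both k ε hε hε1 hn M X).2).trans ?_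
  have hp0 : 0 < (ε / 2) ^ k := by positivity
  rw [div_le_div_iff_of_pos_right (by positivity)]
  linarith

end Crest.Agent.R153
end

-- ▼ part R153/SeqLoss
section

/-! Row 153 (S0217): adding several clauses one after the other (helper852). -/

set_option autoImplicit false

open Crest.ProbabilityR.RandomSAT

namespace Crest.Agent.R153

/-- sum of the squared losses when the clauses of `Q` are added one after the other -/
noncomputable def SQ {k m n : ℕ} : Finset (Asg n) → List (Clause m n) → List (Clause k n) → ℝ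
  | _, [], _ => 0
  | Y, q :: Q, F => (hit Y F - hit (cut Y q) F) ^ 2 + SQ (cut Y q) Q F

theorem SQ_nonneg {k m n : ℕ} (Q : List (Clause m n)) (F : List (Clause k n)) :
    ∀ Y : Finset (Asg n), 0 ≤ SQ Y Q F := by
  induction Q with
  | nil => intro Y; exact le_rfl
  | cons q Q ih => intro Y; exact add_nonneg (sq_nonneg _) (ih _)

theorem sq_add_loss_le {k m n : ℕ} (F : List (Clause k n)) (x : ℝ) (Q : List (Clause m n)) :
    ∀ Y : Finset (Asg n),
    (hit Y F - hit (cutL Y Q) F + x) ^ 2 ≤ (Q.length + 1) * (SQ Y Q F + x ^ 2) := by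
  induction Q with
  | nil => intro Y; simp [cutL_nil, SQ]
  | cons q Q ih =>
    intro Y
    have h := ih (cut Y q)
    rw [cutL_cons]
    show _ ≤ _ * ((hit Y F - hit (cut Y q) F) ^ 2 + SQ (cut Y q) Q F + x ^ 2)
    set a := hit Y F - hit (cut Y q) F with ha
    set r := hit (cut Y q) F - hit (cutL (cut Y q) Q) F + x with hr
    set s := SQ (cut Y q) Q F + x ^ 2 with hs
    have hN : (0 : ℝ) < (Q.length : ℝ) + 1 := by positivity
    set N : ℝ := (Q.length : ℝ) + 1 with hNdef
    have e1 : hit Y F - hit (cutL (cut Y q) Q) F + x = a + r := by rw [ha, hr]; ring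
    have e2 : (hit Y F - hit (cut Y q) F) ^ 2 + SQ (cut Y q) Q F + x ^ 2 = a ^ 2 + s := by
      rw [hs, ha]; ring
    rw [e1]
    have e3 : a ^ 2 + SQ (cut Y q) Q F + x ^ 2 = a ^ 2 + s := by rw [hs]; ring
    rw [e3]
    push_cast [List.length_cons]
    have h2 : 0 ≤ N * ((N + 1) * (a ^ 2 + s) - (a + r) ^ 2) := by
      have : N * ((N + 1) * (a ^ 2 + s) - (a + r) ^ 2) =
        (N * a - r) ^ 2 + N * (N * s - r ^ 2) + (N * s - r ^ 2) := by ring
      rw [this]
      have h3 : 0 ≤ N * s - r ^ 2 := by linarith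
      positivity
    have h4 : 0 ≤ (N + 1) * (a ^ 2 + s) - (a + r) ^ 2 := by
      by_contra hcon
      push Not at hcon
      have := mul_neg_of_pos_of_neg hN hcon
      linarith
    rw [← hNdef]
    linarith

theorem cutL_snoc {m n : ℕ} (X : Finset (Asg n)) (E : List (Clause m n)) (q : Clause m n) :
    cutL X (E ++ [q]) = cut (cutL X E) q := by
  rw [cutL_append, cutL_cons, cutL_nil]

/-- `i` clauses of the environment, then one more clause -/
theorem EL_snoc {α : Type*} [Fintype α] (i : ℕ) (f : List α → ℝ) :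
    EL i (fun E => avg (fun q => f (E ++ [q]))) = EL (i + 1) f := by
  rw [EL_append i 1]
  rfl

theorem EL_SQ_le {j n : ℕ} (ε A Cε : ℝ) (hε : 0 < ε) (hε1 : ε ≤ 1)
    (hDD : ∀ i M : ℕ, DD j n i M ≤ A * 2 ^ i) (hCε : 0 ≤ Cε)
    (hT : ∀ (M : ℕ) (X : Finset (Asg n)),
      EL M (fun F : List (Clause (j + 3) n) => (Teps ε X F) ^ 2) ≤ Cε) (a : ℕ) :
    ∀ b i : ℕ,
      EL i (fun E : List (Clause (j + 2) n) => EL b (fun Q : List (Clause (j + 2) n) =>
        EL a (fun F : List (Clause (j + 3) n) => SQ (cutL Finset.univ E) Q F))) ≤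
        ε ^ (j + 1) * A * 2 ^ i * (2 ^ b - 1) + b * Cε := by
  intro b
  induction b with
  | zero =>
    intro i
    have : (fun E : List (Clause (j + 2) n) => EL 0 (fun Q : List (Clause (j + 2) n) =>
        EL a (fun F : List (Clause (j + 3) n) => SQ (cutL Finset.univ E) Q F))) =
        fun _ => 0 := by
      funext E
      exact EL_zero_fun a
    rw [this, EL_zero_fun]
    simp
  | succ b ih =>
    intro i
    -- the new clause, conditionally on the environment
    have h1 : ∀ E : List (Clause (j + 2) n), EL (b + 1) (fun Q : List (Clause (j + 2) n) =>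
        EL a (fun F : List (Clause (j + 3) n) => SQ (cutL Finset.univ E) Q F)) ≤
        (ε ^ (j + 1) * EL a (fun F : List (Clause (j + 3) n) => avg (fun l : Fin n × Bool =>
          (hit (cutL Finset.univ E) F - hit (cutLit (cutL Finset.univ E) l) F) ^ 2)) + Cε) +
        avg (fun q : Clause (j + 2) n => EL b (fun Q : List (Clause (j + 2) n) =>
        EL a (fun F : List (Clause (j + 3) n) => SQ (cutL Finset.univ (E ++ [q])) Q F))) := by
      intro E
      have e1 : EL (b + 1) (fun Q : List (Clause (j + 2) n) =>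
        EL a (fun F : List (Clause (j + 3) n) => SQ (cutL Finset.univ E) Q F)) =
        avg (fun q : Clause (j + 2) n => EL b (fun Q : List (Clause (j + 2) n) =>
          EL a (fun F : List (Clause (j + 3) n) =>
            (hit (cutL Finset.univ E) F - hit (cut (cutL Finset.univ E) q) F) ^ 2))) +
        avg (fun q : Clause (j + 2) n => EL b (fun Q : List (Clause (j + 2) n) =>
        EL a (fun F : List (Clause (j + 3) n) => SQ (cutL Finset.univ (E ++ [q])) Q F))) := by
        rw [EL_succ, ← avg_add]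
        refine avg_congr fun q => ?_
        rw [← EL_add]
        refine EL_congr fun Q => ?_
        rw [← EL_add]
        refine EL_congr fun F => ?_
        rw [cutL_snoc]
        rfl
      rw [e1]
      refine add_le_add ?_ le_rfl
      calc avg (fun q : Clause (j + 2) n => EL b (fun _ : List (Clause (j + 2) n) =>
            EL a (fun F : List (Clause (j + 3) n) =>
              (hit (cutL Finset.univ E) F - hit (cut (cutL Finset.univ E) q) F) ^ 2)))
          ≤ avg (fun q : Clause (j + 2) n => EL a (fun F : List (Clause (j + 3) n) =>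
              (hit (cutL Finset.univ E) F - hit (cut (cutL Finset.univ E) q) F) ^ 2)) :=
            avg_mono fun q => EL_const_le (EL_nonneg fun F => sq_nonneg _)
        _ = EL a (fun F : List (Clause (j + 3) n) => avg (fun q : Clause (j + 2) n =>
              (hit (cutL Finset.univ E) F - hit (cut (cutL Finset.univ E) q) F) ^ 2)) := by
            rw [EL_avg_comm]
        _ ≤ EL a (fun F : List (Clause (j + 3) n) => ε ^ (j + 1) * avg (fun l : Fin n × Bool =>
              (hit (cutL Finset.univ E) F - hit (cutLit (cutL Finset.univ E) l) F) ^ 2) +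
              (Teps ε (cutL Finset.univ E) F) ^ 2) :=
            EL_mono fun F => avg_loss_sq_le ε hε hε1 _ F
        _ = ε ^ (j + 1) * EL a (fun F : List (Clause (j + 3) n) => avg (fun l : Fin n × Bool =>
              (hit (cutL Finset.univ E) F - hit (cutLit (cutL Finset.univ E) l) F) ^ 2)) +
              EL a (fun F : List (Clause (j + 3) n) =>
              (Teps ε (cutL Finset.univ E) F) ^ 2) := by
            rw [EL_add, EL_const_mul]
        _ ≤ _ := add_le_add le_rfl (hT a _)
    have h2 := EL_mono (M := i) h1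
    refine h2.trans ?_
    rw [EL_add, EL_add, EL_const_mul]
    have h3 : EL i (fun E : List (Clause (j + 2) n) => EL a (fun F : List (Clause (j + 3) n) =>
        avg (fun l : Fin n × Bool =>
          (hit (cutL Finset.univ E) F - hit (cutLit (cutL Finset.univ E) l) F) ^ 2))) ≤
        A * 2 ^ i := hDD i a
    have h4 : EL i (fun _ : List (Clause (j + 2) n) => Cε) ≤ Cε := EL_const_le hCε
    have h5 := EL_snoc i (fun E : List (Clause (j + 2) n) => EL b
      (fun Q : List (Clause (j + 2) n) => EL a (fun F : List (Clause (j + 3) n) =>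
        SQ (cutL Finset.univ E) Q F)))
    rw [h5]
    have h6 := ih (i + 1)
    have h7 : ε ^ (j + 1) * EL i (fun E : List (Clause (j + 2) n) => EL a
        (fun F : List (Clause (j + 3) n) => avg (fun l : Fin n × Bool =>
          (hit (cutL Finset.univ E) F - hit (cutLit (cutL Finset.univ E) l) F) ^ 2))) ≤
        ε ^ (j + 1) * (A * 2 ^ i) := mul_le_mul_of_nonneg_left h3 (by positivity)
    push_cast
    rw [pow_succ (2 : ℝ) i] at h6
    rw [pow_succ (2 : ℝ) b]
    linarith

/-- loss of a last `(j+1)`-clause after `b` clauses -/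
theorem EL_last_le {j n : ℕ} (hn : j + 1 ≤ n) (A : ℝ)
    (hDD : ∀ i M : ℕ, DD j n i M ≤ A * 2 ^ i) (a b i : ℕ) :
    EL i (fun E : List (Clause (j + 2) n) => avg (fun s : Clause (j + 1) n =>
      EL b (fun Q : List (Clause (j + 2) n) => EL a (fun F : List (Clause (j + 3) n) =>
        (hit (cutL (cutL Finset.univ E) Q) F - hit (cut (cutL (cutL Finset.univ E) Q) s) F) ^ 2)))) ≤
      A * 2 ^ (i + b) := by
  refine le_trans ?_ (hDD (i + b) a)
  unfold DD
  rw [EL_append i b]
  refine EL_mono fun E => ?_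
  rw [← EL_avg_comm]
  refine EL_mono fun Q => ?_
  rw [← EL_avg_comm]
  refine EL_mono fun F => ?_
  rw [cutL_append]
  exact avg_loss_sq_le_lit hn _ F

end Crest.Agent.R153
private theorem rz_a6092020d1 : type_of% @_root_.Crest.Agent.R153.SQ.eq_def := @_root_.Crest.Agent.R153.SQ.eq_def -- L12
private theorem rz_95617b4a87 : type_of% @_root_.Crest.Agent.R153.SQ.eq_1 := @_root_.Crest.Agent.R153.SQ.eq_1 -- L12
end

-- ▼ part R153/Terms
section

/-! Row 153 (S0217): the three terms of the recursion and the two-level pattern bound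
(helper852). -/

set_option autoImplicit false

open Crest.ProbabilityR.RandomSAT

namespace Crest.Agent.R153

variable {j n : ℕ}

/-- term of the `(j+2)`-clauses coming from the `(j+3)`-clauses -/
noncomputable def T1 (E0 : List (Clause (j + 2) n)) (_ : List (Clause (j + 1) n))
    (F0 : List (Clause (j + 3) n)) (F1 : List (Clause (j + 2) n)) : ℝ :=
  (F1.length + 1) * SQ (cutL Finset.univ E0) F1 F0

/-- term of a single `(j+1)`-clause coming from the environment -/
noncomputable def T2 (E0 : List (Clause (j + 2) n)) :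
    List (Clause (j + 1) n) → List (Clause (j + 3) n) → List (Clause (j + 2) n) → ℝ
  | [s], F0, F1 => (F1.length + 1) * (hit (cutL (cutL Finset.univ E0) F1) F0 -
      hit (cut (cutL (cutL Finset.univ E0) F1) s) F0) ^ 2
  | [], _, _ => 0
  | _ :: _ :: _, _, _ => 0

/-- term of at least two `(j+1)`-clauses -/
noncomputable def T3 (K : ℝ) (_ : List (Clause (j + 2) n)) (E1 : List (Clause (j + 1) n))
    (_ : List (Clause (j + 3) n)) (_ : List (Clause (j + 2) n)) : ℝ :=
  if 2 ≤ E1.length then K else 0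

theorem T1_nonneg (E0 : List (Clause (j + 2) n)) (E1 : List (Clause (j + 1) n))
    (F0 : List (Clause (j + 3) n)) (F1 : List (Clause (j + 2) n)) : 0 ≤ T1 E0 E1 F0 F1 :=
  mul_nonneg (by positivity) (SQ_nonneg _ _ _)


theorem sq_loss_le_T (E0 : List (Clause (j + 2) n)) (E1 : List (Clause (j + 1) n))
    (F0 : List (Clause (j + 3) n)) (F1 : List (Clause (j + 2) n)) (K : ℝ)
    (hK : ((F0.length : ℝ) + 1) ^ 2 ≤ K) :
    (hit (cutL Finset.univ E0) F0 -
      hit (cutL (cutL (cutL Finset.univ E0) E1) F1) F0) ^ 2 ≤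
      T1 E0 E1 F0 F1 + T2 E0 E1 F0 F1 + T3 K E0 E1 F0 F1 := by
  have hT1 := T1_nonneg E0 E1 F0 F1
  match E1 with
  | [] =>
    have h := sq_add_loss_le F0 0 F1 (cutL Finset.univ E0)
    rw [cutL_nil]
    simp only [T1, T2, T3, List.length_nil] at *
    simp only [add_zero, ne_eq, OfNat.ofNat_ne_zero, not_false_eq_true, zero_pow] at h
    simpa using h
  | [s] =>
    have h := sq_add_loss_le F0 (hit (cutL (cutL Finset.univ E0) F1) F0 -
      hit (cut (cutL (cutL Finset.univ E0) F1) s) F0) F1 (cutL Finset.univ E0)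
    rw [cutL_cons, cutL_nil, cutL_cut_comm]
    simp only [T1, T2, T3, List.length_singleton] at *
    have e : (if 2 ≤ 1 then K else 0) = 0 := by norm_num
    rw [e, add_zero, ← mul_add]
    refine le_trans (le_of_eq ?_) h
    ring
  | s :: s' :: E2 =>
    have h0 : 0 ≤ hit (cutL Finset.univ E0) F0 -
      hit (cutL (cutL (cutL Finset.univ E0) (s :: s' :: E2)) F1) F0 := by
      have := hit_mono (F := F0) ((cutL_subset (cutL (cutL Finset.univ E0) (s :: s' :: E2)) F1).trans
        (cutL_subset (cutL Finset.univ E0) (s :: s' :: E2)))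
      linarith
    have h1 : hit (cutL Finset.univ E0) F0 -
      hit (cutL (cutL (cutL Finset.univ E0) (s :: s' :: E2)) F1) F0 ≤ F0.length + 1 := by
      have h2 := hit_le_length (cutL Finset.univ E0) F0
      have h3 := hit_nonneg (cutL (cutL (cutL Finset.univ E0) (s :: s' :: E2)) F1) F0
      linarith
    have h4 := pow_le_pow_left₀ h0 h1 2
    have h5 : T3 K E0 (s :: s' :: E2) F0 F1 = K := by simp [T3]
    have h6 : T2 E0 (s :: s' :: E2) F0 F1 = 0 := rfl
    rw [h5, h6]
    linarith

theorem EL_T1_le (ε A Cε : ℝ) (hε : 0 < ε) (hε1 : ε ≤ 1) (hA : 0 ≤ A)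
    (hDD : ∀ i M : ℕ, DD j n i M ≤ A * 2 ^ i) (hCε : 0 ≤ Cε)
    (hT : ∀ (M : ℕ) (X : Finset (Asg n)),
      EL M (fun F : List (Clause (j + 3) n) => (Teps ε X F) ^ 2) ≤ Cε) (i e a b : ℕ) :
    EL i (fun E0 => EL e (fun E1 => EL a (fun F0 => EL b (fun F1 => T1 (j := j) (n := n) E0 E1 F0 F1)))) ≤
      (ε ^ (j + 1) * A + Cε) * 2 ^ i * 1 ^ e * 4 ^ b := by
  have h1 : EL i (fun E0 => EL e (fun E1 => EL a (fun F0 => EL b
      (fun F1 => T1 (j := j) (n := n) E0 E1 F0 F1)))) ≤
      EL i (fun E0 : List (Clause (j + 2) n) => EL a (fun F0 : List (Clause (j + 3) n) =>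
        EL b (fun F1 : List (Clause (j + 2) n) =>
          ((b : ℝ) + 1) * SQ (cutL Finset.univ E0) F1 F0))) := by
    refine EL_mono fun E0 => ?_
    have h2 : ∀ E1 : List (Clause (j + 1) n), EL a (fun F0 => EL b
      (fun F1 => T1 (j := j) (n := n) E0 E1 F0 F1)) = EL a (fun F0 : List (Clause (j + 3) n) =>
        EL b (fun F1 : List (Clause (j + 2) n) =>
          ((b : ℝ) + 1) * SQ (cutL Finset.univ E0) F1 F0)) := by
      intro E1
      refine EL_congr fun F0 => EL_congr' fun F1 hF1 => ?_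
      unfold T1
      rw [hF1]
    rw [EL_congr h2]
    refine EL_const_le (EL_nonneg fun F0 => EL_nonneg fun F1 => ?_)
    exact mul_nonneg (by positivity) (SQ_nonneg _ _ _)
  refine h1.trans ?_
  have h3 : EL i (fun E0 : List (Clause (j + 2) n) => EL a (fun F0 : List (Clause (j + 3) n) =>
        EL b (fun F1 : List (Clause (j + 2) n) =>
          ((b : ℝ) + 1) * SQ (cutL Finset.univ E0) F1 F0))) =
      ((b : ℝ) + 1) * EL i (fun E0 : List (Clause (j + 2) n) =>
        EL b (fun F1 : List (Clause (j + 2) n) => EL a (fun F0 : List (Clause (j + 3) n) =>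
          SQ (cutL Finset.univ E0) F1 F0))) := by
    rw [← EL_const_mul]
    refine EL_congr fun E0 => ?_
    rw [EL_comm, ← EL_const_mul]
    refine EL_congr fun F1 => ?_
    rw [← EL_const_mul]
  rw [h3]
  have h4 := EL_SQ_le ε A Cε hε hε1 hDD hCε hT a b i
  have h5 := mul_le_mul_of_nonneg_left h4 (by positivity : (0 : ℝ) ≤ (b : ℝ) + 1)
  refine h5.trans ?_
  have hb : ((b : ℝ) + 1) ≤ 2 ^ b := by
    have : b + 1 ≤ 2 ^ b := Nat.lt_two_pow_self
    exact_mod_cast this
  have h2i : (1 : ℝ) ≤ 2 ^ i := one_le_pow₀ (by norm_num)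
  have h2b : (1 : ℝ) ≤ 2 ^ b := one_le_pow₀ (by norm_num)
  have h4b : (4 : ℝ) ^ b = 2 ^ b * 2 ^ b := by rw [← mul_pow]; norm_num
  have hb0 : (0 : ℝ) ≤ b := Nat.cast_nonneg b
  rw [h4b, one_pow, mul_one]
  have hεA : 0 ≤ ε ^ (j + 1) * A := by positivity
  set x := ε ^ (j + 1) * A with hx
  set p : ℝ := 2 ^ b with hp
  set r : ℝ := 2 ^ i with hr
  have t1 : ((b : ℝ) + 1) * (x * r * (p - 1)) ≤ x * r * (p * p) := by
    have : ((b : ℝ) + 1) * (p - 1) ≤ p * p := by nlinarith
    have h0 : 0 ≤ x * r := by positivity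
    nlinarith [mul_le_mul_of_nonneg_left this h0]
  have t2 : ((b : ℝ) + 1) * (b * Cε) ≤ Cε * r * (p * p) := by
    have h6 : ((b : ℝ) + 1) * b ≤ p * p := by nlinarith
    have h7 : ((b : ℝ) + 1) * b ≤ r * (p * p) := by
      have : p * p ≤ r * (p * p) := by nlinarith [mul_pos (by linarith : (0:ℝ) < p) (by linarith : (0:ℝ) < p)]
      linarith
    nlinarith [mul_le_mul_of_nonneg_left h7 hCε]
  nlinarith [t1, t2]

theorem EL_T2_le (hn : j + 1 ≤ n) (A t : ℝ) (hA : 0 ≤ A) (ht : 1 ≤ t)
    (hDD : ∀ i M : ℕ, DD j n i M ≤ A * 2 ^ i) (i e a b : ℕ) :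
    EL i (fun E0 => EL e (fun E1 => EL a (fun F0 => EL b (fun F1 => T2 (j := j) (n := n) E0 E1 F0 F1)))) ≤
      (A / t) * 2 ^ i * t ^ e * 4 ^ b := by
  have ht0 : 0 < t := by linarith
  have hpos : 0 ≤ (A / t) * 2 ^ i * t ^ e * 4 ^ b := by positivity
  match e with
  | 0 =>
    refine le_trans (le_of_eq ?_) hpos
    have : (fun E0 : List (Clause (j + 2) n) => EL 0 (fun E1 : List (Clause (j + 1) n) =>
        EL a (fun F0 => EL b (fun F1 => T2 (j := j) (n := n) E0 E1 F0 F1)))) = fun _ => 0 := by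
      funext E0
      show EL a (fun F0 => EL b (fun F1 => (0 : ℝ))) = 0
      rw [EL_congr (fun _ => EL_zero_fun b), EL_zero_fun]
    rw [this, EL_zero_fun]
  | 1 =>
    have h1 := EL_last_le hn A hDD a b i
    have h2 : EL i (fun E0 => EL 1 (fun E1 => EL a (fun F0 => EL b
        (fun F1 => T2 (j := j) (n := n) E0 E1 F0 F1)))) =
        ((b : ℝ) + 1) * EL i (fun E : List (Clause (j + 2) n) => avg (fun s : Clause (j + 1) n =>
      EL b (fun Q : List (Clause (j + 2) n) => EL a (fun F : List (Clause (j + 3) n) =>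
        (hit (cutL (cutL Finset.univ E) Q) F - hit (cut (cutL (cutL Finset.univ E) Q) s) F) ^ 2)))) := by
      rw [← EL_const_mul]
      refine EL_congr fun E0 => ?_
      rw [EL_one, ← avg_const_mul]
      refine avg_congr fun s => ?_
      rw [EL_comm, ← EL_const_mul]
      refine EL_congr' fun F1 hF1 => ?_
      rw [← EL_const_mul]
      refine EL_congr fun F0 => ?_
      show ((F1.length : ℝ) + 1) * _ = _
      rw [hF1]
    rw [h2]
    have h3 := mul_le_mul_of_nonneg_left h1 (by positivity : (0 : ℝ) ≤ (b : ℝ) + 1)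
    refine h3.trans ?_
    have hb : ((b : ℝ) + 1) ≤ 2 ^ b := by
      have : b + 1 ≤ 2 ^ b := Nat.lt_two_pow_self
      exact_mod_cast this
    have h4b : (4 : ℝ) ^ b = 2 ^ b * 2 ^ b := by rw [← mul_pow]; norm_num
    have e1 : A / t * 2 ^ i * t ^ 1 * 4 ^ b = A * 2 ^ i * (2 ^ b * 2 ^ b) := by
      rw [h4b]; field_simp
    rw [e1, pow_add]
    have h0 : (0 : ℝ) ≤ A * 2 ^ i * 2 ^ b := by positivity
    nlinarith [mul_le_mul_of_nonneg_left hb h0]
  | e + 2 =>
    refine le_trans (le_of_eq ?_) hpos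
    have : (fun E0 : List (Clause (j + 2) n) => EL (e + 2) (fun E1 : List (Clause (j + 1) n) =>
        EL a (fun F0 => EL b (fun F1 => T2 (j := j) (n := n) E0 E1 F0 F1)))) = fun _ => 0 := by
      funext E0
      have h3 : EL (e + 2) (fun E1 : List (Clause (j + 1) n) =>
        EL a (fun F0 => EL b (fun F1 => T2 (j := j) (n := n) E0 E1 F0 F1))) =
        EL (e + 2) (fun _ : List (Clause (j + 1) n) => (0 : ℝ)) := by
        refine EL_congr' fun E1 hE1 => ?_
        match E1, hE1 with
        | s :: s' :: E2, _ =>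
          show EL a (fun F0 => EL b (fun F1 => (0 : ℝ))) = 0
          rw [EL_congr (fun _ => EL_zero_fun b), EL_zero_fun]
      rw [h3, EL_zero_fun]
    rw [this, EL_zero_fun]

theorem EL_T3_le (K t : ℝ) (hK : 0 ≤ K) (ht : 1 ≤ t) (i e a b : ℕ) :
    EL i (fun E0 => EL e (fun E1 => EL a (fun F0 => EL b
      (fun F1 => T3 (j := j) (n := n) K E0 E1 F0 F1)))) ≤
      (K / t ^ 2) * 1 ^ i * t ^ e * 4 ^ b := by
  have ht0 : 0 < t := by linarith
  have h4 : (1 : ℝ) ≤ 4 ^ b := one_le_pow₀ (by norm_num)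
  have h1 : ∀ (E0 : List (Clause (j + 2) n)) (E1 : List (Clause (j + 1) n)), E1.length = e →
      EL a (fun F0 => EL b (fun F1 => T3 (j := j) (n := n) K E0 E1 F0 F1)) ≤
      (K / t ^ 2) * t ^ e := by
    intro E0 E1 hE1
    have h2 : (if 2 ≤ E1.length then K else 0) ≤ (K / t ^ 2) * t ^ e := by
      split_ifs with h
      · rw [hE1] at h
        rw [div_mul_eq_mul_div, le_div_iff₀ (by positivity)]
        exact mul_le_mul_of_nonneg_left (pow_le_pow_right₀ ht h) hK
      · positivity
    have h3 : 0 ≤ (K / t ^ 2) * t ^ e := by positivity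
    calc EL a (fun F0 => EL b (fun F1 => T3 (j := j) (n := n) K E0 E1 F0 F1))
        ≤ EL a (fun F0 : List (Clause (j + 3) n) => EL b
          (fun F1 : List (Clause (j + 2) n) => (K / t ^ 2) * t ^ e)) :=
          EL_mono fun F0 => EL_mono fun F1 => h2
      _ ≤ EL a (fun F0 : List (Clause (j + 3) n) => (K / t ^ 2) * t ^ e) :=
          EL_mono fun F0 => EL_const_le h3
      _ ≤ (K / t ^ 2) * t ^ e := EL_const_le h3
  have h3 : 0 ≤ (K / t ^ 2) * t ^ e := by positivity
  calc EL i (fun E0 => EL e (fun E1 => EL a (fun F0 => EL b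
      (fun F1 => T3 (j := j) (n := n) K E0 E1 F0 F1))))
      ≤ EL i (fun E0 : List (Clause (j + 2) n) => EL e
        (fun E1 : List (Clause (j + 1) n) => (K / t ^ 2) * t ^ e)) :=
        EL_mono fun E0 => EL_mono' fun E1 hE1 => h1 E0 E1 hE1
    _ ≤ EL i (fun E0 : List (Clause (j + 2) n) => (K / t ^ 2) * t ^ e) :=
        EL_mono fun E0 => EL_const_le h3
    _ ≤ (K / t ^ 2) * t ^ e := EL_const_le h3
    _ ≤ (K / t ^ 2) * 1 ^ i * t ^ e * 4 ^ b := by
        rw [one_pow, mul_one]
        nlinarith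

/-- two-level pattern bound -/
theorem EL_pattern2 (hn : j + 2 ≤ n) (v : Fin (n + 1)) (b : Bool) (S u t : ℝ)
    (hS : 0 ≤ S) (hu : 0 ≤ u) (ht : 0 ≤ t) (i M : ℕ)
    (T : List (Clause (j + 2) n) → List (Clause (j + 1) n) → List (Clause (j + 3) n) →
      List (Clause (j + 2) n) → ℝ)
    (hT : ∀ i0 e a c : ℕ, EL i0 (fun E0 => EL e (fun E1 => EL a (fun F0 => EL c
      (fun F1 => T E0 E1 F0 F1)))) ≤ S * u ^ i0 * t ^ e * 4 ^ c) :
    EL i (fun E : List (Clause (j + 2) (n + 1)) =>
      EL M (fun F : List (Clause (j + 3) (n + 1)) =>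
        4 ^ (cnt v F) * T (pureL v E) (redL v b E) (pureL v F) (redL v b F))) ≤
      S * ((1 - 2 * theta (j + 1) n) * u + theta (j + 1) n * t + theta (j + 1) n) ^ i *
        (1 + 18 * theta (j + 2) n) ^ M := by
  rw [EL_comm]
  have hθ : 0 ≤ theta (j + 1) n := by unfold theta; positivity
  have hθ' : 2 * theta (j + 1) n ≤ 1 := by
    unfold theta
    rw [← mul_div_assoc, div_le_one (by positivity)]
    have : (j : ℝ) + 2 ≤ n := by exact_mod_cast hn
    push_cast
    linarith
  have hbase : 0 ≤ (1 - 2 * theta (j + 1) n) * u + theta (j + 1) n * t + theta (j + 1) n := by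
    have : 0 ≤ (1 - 2 * theta (j + 1) n) * u := mul_nonneg (by linarith) hu
    positivity
  have h1 : ∀ F : List (Clause (j + 3) (n + 1)),
      EL i (fun E : List (Clause (j + 2) (n + 1)) =>
        (4 : ℝ) ^ (cnt v F) * T (pureL v E) (redL v b E) (pureL v F) (redL v b F)) =
      (4 : ℝ) ^ (cnt v F) * (fun (F0 : List (Clause (j + 3) n)) (F1 : List (Clause (j + 2) n)) =>
        EL i (fun E : List (Clause (j + 2) (n + 1)) =>
          T (pureL v E) (redL v b E) F0 F1)) (pureL v F) (redL v b F) := by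
    intro F
    rw [EL_const_mul]
  rw [EL_congr h1]
  have h2 := EL_pattern hn v b 4 1 4 (by norm_num) (by norm_num) (by norm_num) M
    (S * ((1 - 2 * theta (j + 1) n) * u + theta (j + 1) n * t + theta (j + 1) n) ^ i)
    (fun (F0 : List (Clause (j + 3) n)) (F1 : List (Clause (j + 2) n)) =>
        EL i (fun E : List (Clause (j + 2) (n + 1)) =>
          T (pureL v E) (redL v b E) F0 F1)) (by positivity) ?_
  · refine h2.trans (le_of_eq ?_)
    congr 2
    ring
  · intro a c
    have h3 : EL a (fun F0 : List (Clause (j + 3) n) => EL c (fun F1 : List (Clause (j + 2) n) =>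
        EL i (fun E : List (Clause (j + 2) (n + 1)) =>
          T (pureL v E) (redL v b E) F0 F1))) =
        EL i (fun E : List (Clause (j + 2) (n + 1)) => (1 : ℝ) ^ (cnt v E) *
          (fun (E0 : List (Clause (j + 2) n)) (E1 : List (Clause (j + 1) n)) =>
            EL a (fun F0 : List (Clause (j + 3) n) => EL c (fun F1 : List (Clause (j + 2) n) =>
              T E0 E1 F0 F1))) (pureL v E) (redL v b E)) := by
      have e1 : ∀ F0 : List (Clause (j + 3) n), EL c (fun F1 : List (Clause (j + 2) n) =>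
        EL i (fun E : List (Clause (j + 2) (n + 1)) =>
          T (pureL v E) (redL v b E) F0 F1)) = EL i (fun E : List (Clause (j + 2) (n + 1)) =>
            EL c (fun F1 : List (Clause (j + 2) n) =>
          T (pureL v E) (redL v b E) F0 F1)) := fun F0 => EL_comm c i _
      rw [EL_congr e1, EL_comm]
      refine EL_congr fun E => ?_
      rw [one_pow, one_mul]
    rw [h3]
    have h4 := EL_pattern (m := j + 1) (by omega) v b 1 u t (by norm_num) hu ht i (S * 4 ^ c)
      (fun (E0 : List (Clause (j + 2) n)) (E1 : List (Clause (j + 1) n)) =>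
            EL a (fun F0 : List (Clause (j + 3) n) => EL c (fun F1 : List (Clause (j + 2) n) =>
              T E0 E1 F0 F1))) (by positivity) ?_
    · refine h4.trans (le_of_eq ?_)
      rw [one_pow, one_mul, mul_one]
      ring
    · intro i0 e
      refine (hT i0 e a c).trans (le_of_eq ?_)
      ring

end Crest.Agent.R153
private theorem rz_4abeaecc60 : type_of% @_root_.Crest.Agent.R153.T2.eq_1 := @_root_.Crest.Agent.R153.T2.eq_1 -- L21
end

-- ▼ part R153/Induct

/-! Row 153 (S0217), task INDUCT: `DD j n i M ≤ A 2^i`. -/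

set_option autoImplicit false

open Crest.ProbabilityR.RandomSAT

namespace Crest.Agent.R153

variable {j n : ℕ}

theorem loss_nonneg {k n : ℕ} (X : Finset (Asg n)) (l : Fin n × Bool) (F : List (Clause k n)) :
    0 ≤ hit X F - hit (cutLit X l) F := by
  have := hit_mono (cutLit_subset X l) F
  linarith

/-- pointwise bound of the squared loss -/
theorem loss_sq_pointwise (v : Fin (n + 1)) (b : Bool) (K : ℝ)
    (E : List (Clause (j + 2) (n + 1))) (F : List (Clause (j + 3) (n + 1)))
    (hK : ((F.length : ℝ) + 1) ^ 2 ≤ K) :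
    (hit (cutL Finset.univ E) F - hit (cutLit (cutL Finset.univ E) (v, b)) F) ^ 2 ≤
      4 ^ (cnt v F) * T1 (pureL v E) (redL v b E) (pureL v F) (redL v b F) +
      4 ^ (cnt v F) * T2 (pureL v E) (redL v b E) (pureL v F) (redL v b F) +
      4 ^ (cnt v F) * T3 K (pureL v E) (redL v b E) (pureL v F) (redL v b F) := by
  have h1 := loss_elim v b (cutL Finset.univ E) (cutL Finset.univ (pureL v E))
    (cutL (cutL Finset.univ (pureL v E)) (redL v b E)) (proj_cutL v E)
    (subset_slice_cutL v b E) F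
  have hlen : (pureL v F).length ≤ F.length := List.length_filterMap_le _ _
  have hlen' : ((pureL v F).length : ℝ) ≤ F.length := by exact_mod_cast hlen
  have hK' : (((pureL v F).length : ℝ) + 1) ^ 2 ≤ K := by
    refine le_trans ?_ hK
    have : (0 : ℝ) ≤ (pureL v F).length := Nat.cast_nonneg _
    nlinarith
  have h2 := sq_loss_le_T (pureL v E) (redL v b E) (pureL v F) (redL v b F) K hK'
  have h3 := pow_le_pow_left₀ (loss_nonneg _ _ _) h1 2
  refine h3.trans ?_
  rw [mul_pow]
  have h4 : (1 + (cnt v F : ℝ)) ^ 2 ≤ 4 ^ (cnt v F) := by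
    have h5 : (cnt v F : ℝ) + 1 ≤ 2 ^ (cnt v F) := by
      have : cnt v F + 1 ≤ 2 ^ (cnt v F) := Nat.lt_two_pow_self
      exact_mod_cast this
    have h6 : (4 : ℝ) ^ (cnt v F) = (2 ^ (cnt v F)) ^ 2 := by
      rw [← pow_mul, mul_comm, pow_mul]; norm_num
    rw [h6]
    exact pow_le_pow_left₀ (by positivity) (by linarith) 2
  have h7 : (0 : ℝ) ≤ (hit (cutL Finset.univ (pureL v E)) (pureL v F) -
    hit (cutL (cutL (cutL Finset.univ (pureL v E)) (redL v b E)) (redL v b F)) (pureL v F)) ^ 2 :=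
    sq_nonneg _
  calc _ ≤ (4 : ℝ) ^ (cnt v F) * (hit (cutL Finset.univ (pureL v E)) (pureL v F) -
    hit (cutL (cutL (cutL Finset.univ (pureL v E)) (redL v b E)) (redL v b F)) (pureL v F)) ^ 2 :=
        mul_le_mul_of_nonneg_right h4 h7
    _ ≤ (4 : ℝ) ^ (cnt v F) * (T1 (pureL v E) (redL v b E) (pureL v F) (redL v b F) +
      T2 (pureL v E) (redL v b E) (pureL v F) (redL v b F) +
      T3 K (pureL v E) (redL v b E) (pureL v F) (redL v b F)) :=
        mul_le_mul_of_nonneg_left h2 (by positivity)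
    _ = _ := by ring

/-- second moment of the loss of one literal, from the bound for one variable less -/
theorem EL_loss_le (hn : j + 2 ≤ n) (v : Fin (n + 1)) (b : Bool) (i M : ℕ)
    (ε A Cε K t : ℝ) (hε : 0 < ε) (hε1 : ε ≤ 1) (hA : 0 ≤ A) (hCε : 0 ≤ Cε) (ht : 1 ≤ t)
    (hDD : ∀ i M : ℕ, DD j n i M ≤ A * 2 ^ i)
    (hT : ∀ (M : ℕ) (X : Finset (Asg n)),
      EL M (fun F : List (Clause (j + 3) n) => (Teps ε X F) ^ 2) ≤ Cε)
    (hK : ((M : ℝ) + 1) ^ 2 ≤ K) :
    EL i (fun E : List (Clause (j + 2) (n + 1)) => EL M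
      (fun F : List (Clause (j + 3) (n + 1)) =>
        (hit (cutL Finset.univ E) F - hit (cutLit (cutL Finset.univ E) (v, b)) F) ^ 2)) ≤
      ((ε ^ (j + 1) * A + Cε) *
          ((1 - 2 * theta (j + 1) n) * 2 + theta (j + 1) n * 1 + theta (j + 1) n) ^ i +
        (A / t) * ((1 - 2 * theta (j + 1) n) * 2 + theta (j + 1) n * t + theta (j + 1) n) ^ i +
        (K / t ^ 2) * ((1 - 2 * theta (j + 1) n) * 1 + theta (j + 1) n * t + theta (j + 1) n) ^ i) *
        (1 + 18 * theta (j + 2) n) ^ M := by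
  have hK0 : 0 ≤ K := le_trans (by positivity) hK
  have ht0 : 0 < t := by linarith
  have h0 : EL i (fun E : List (Clause (j + 2) (n + 1)) => EL M
      (fun F : List (Clause (j + 3) (n + 1)) =>
        (hit (cutL Finset.univ E) F - hit (cutLit (cutL Finset.univ E) (v, b)) F) ^ 2)) ≤
      EL i (fun E : List (Clause (j + 2) (n + 1)) => EL M
        (fun F : List (Clause (j + 3) (n + 1)) =>
        4 ^ (cnt v F) * T1 (pureL v E) (redL v b E) (pureL v F) (redL v b F))) +
      EL i (fun E : List (Clause (j + 2) (n + 1)) => EL M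
        (fun F : List (Clause (j + 3) (n + 1)) =>
        4 ^ (cnt v F) * T2 (pureL v E) (redL v b E) (pureL v F) (redL v b F))) +
      EL i (fun E : List (Clause (j + 2) (n + 1)) => EL M
        (fun F : List (Clause (j + 3) (n + 1)) =>
        4 ^ (cnt v F) * T3 K (pureL v E) (redL v b E) (pureL v F) (redL v b F))) := by
    rw [← EL_add, ← EL_add]
    refine EL_mono fun E => ?_
    rw [← EL_add, ← EL_add]
    refine EL_mono' fun F hF => ?_
    exact loss_sq_pointwise v b K E F (by rw [hF]; exact hK)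
  have h1 := EL_pattern2 hn v b (ε ^ (j + 1) * A + Cε) 2 1 (by positivity) (by norm_num)
    (by norm_num) i M T1 (fun i0 e a c => EL_T1_le ε A Cε hε hε1 hA hDD hCε hT i0 e a c)
  have h2 := EL_pattern2 hn v b (A / t) 2 t (by positivity) (by norm_num)
    ht0.le i M T2 (fun i0 e a c => EL_T2_le (by omega) A t hA ht hDD i0 e a c)
  have h3 := EL_pattern2 hn v b (K / t ^ 2) 1 t (by positivity) (by norm_num)
    ht0.le i M (T3 K) (fun i0 e a c => EL_T3_le K t hK0 ht i0 e a c)
  rw [add_mul, add_mul]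
  linarith

theorem exp_half_le : Real.exp (1 / 2) ≤ 2 := by
  have h1 : Real.exp (1 / 2) ^ 2 = Real.exp 1 := by
    rw [← Real.exp_nat_mul]; norm_num
  have h2 := Real.exp_one_lt_d9
  have h3 := Real.exp_pos (1 / 2)
  nlinarith

theorem one_add_pow_le_exp (x : ℝ) (hx : 0 ≤ x) (m : ℕ) : (1 + x) ^ m ≤ Real.exp (m * x) := by
  rw [Real.exp_nat_mul]
  exact pow_le_pow_left₀ (by linarith) (by linarith [Real.add_one_le_exp x]) m

theorem sq_succ_le (i : ℕ) : ((i : ℝ) + 1) ^ 2 ≤ 4 * 2 ^ i := by
  have h : ∀ m : ℕ, (m + 1) ^ 2 ≤ 4 * 2 ^ m := by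
    intro m
    induction m with
    | zero => norm_num
    | succ m ih =>
      rcases m with _ | _ | m
      · norm_num
      · norm_num
      · have e : 2 ^ (m + 1 + 1 + 1) = 2 * 2 ^ (m + 1 + 1) := by ring
        rw [e]
        have e2 : (m + 1 + 1 + 1 + 1) ^ 2 ≤ 2 * (m + 1 + 1 + 1) ^ 2 := by
          have e3 : 2 * (m + 1 + 1 + 1) ^ 2 = (m + 1 + 1 + 1 + 1) ^ 2 + (m * m + 4 * m + 2) := by
            ring
          rw [e3]
          exact Nat.le_add_right _ _
        omega
  exact_mod_cast h i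

/-- one step of the recursion for `M ≤ C0 (n+1)` -/
theorem step_le (hn : j + 2 ≤ n) (v : Fin (n + 1)) (b : Bool) (i M C0 : ℕ) (hC0 : 1 ≤ C0)
    (hM : M ≤ C0 * (n + 1)) (ε A Cε δ Γ : ℝ) (hε : 0 < ε) (hε1 : ε ≤ 1)
    (hA : 0 ≤ A) (hCε : 0 ≤ Cε) (hδ : 0 < δ)
    (hΓ : Γ = Real.exp (9 * (j + 3) * C0)) (hεΓ : Γ * ε ≤ 1 / 8)
    (hδΓ : Γ * ((j + 2) * δ) ≤ 1 / 16) (hi : (i : ℝ) ≤ δ * (n + 1)) (hδn : 1 ≤ δ * (n + 1))
    (hDD : ∀ i M : ℕ, DD j n i M ≤ A * 2 ^ i)
    (hT : ∀ (M : ℕ) (X : Finset (Asg n)),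
      EL M (fun F : List (Clause (j + 3) n) => (Teps ε X F) ^ 2) ≤ Cε) :
    EL i (fun E : List (Clause (j + 2) (n + 1)) => EL M
      (fun F : List (Clause (j + 3) (n + 1)) =>
        (hit (cutL Finset.univ E) F - hit (cutLit (cutL Finset.univ E) (v, b)) F) ^ 2)) ≤
      2 ^ i * (A / 4 + Γ * Cε + 12 * Γ * ((j + 2) * C0) ^ 2) := by
  have hn1 : (0 : ℝ) < (n : ℝ) + 1 := by positivity
  have hΓ1 : 1 ≤ Γ := by
    rw [hΓ]; exact Real.one_le_exp (by positivity)
  set θ := theta (j + 1) n with hθdef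
  have hθ : θ = ((j : ℝ) + 2) / (2 * (n + 1)) := by
    rw [hθdef]; unfold theta; push_cast; ring
  have hθ0 : 0 < θ := by rw [hθ]; positivity
  have hi1 : (0 : ℝ) < (i : ℝ) + 1 := by positivity
  have hθi : θ * (i + 1) ≤ (j + 2) * δ := by
    rw [hθ, div_mul_eq_mul_div, div_le_iff₀ (by positivity)]
    have : (i : ℝ) + 1 ≤ 2 * (δ * (n + 1)) := by linarith
    have hj : (0 : ℝ) ≤ (j : ℝ) + 2 := by positivity
    nlinarith [mul_le_mul_of_nonneg_left this hj]
  have hθi1 : θ * (i + 1) ≤ 1 := by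
    have h1 : 0 ≤ ((j : ℝ) + 2) * δ := by positivity
    nlinarith
  set t := 1 / (θ * (i + 1)) with ht
  have hθi0 : 0 < θ * (i + 1) := by positivity
  have ht1 : 1 ≤ t := by rw [ht, le_div_iff₀ hθi0]; linarith
  have hθt : θ * t = 1 / (i + 1) := by rw [ht]; field_simp
  have hAt : A / t = A * (θ * (i + 1)) := by rw [ht]; field_simp
  set M0 : ℝ := (C0 : ℝ) * (n + 1) with hM0
  have hMM0 : (M : ℝ) ≤ M0 := by rw [hM0]; exact_mod_cast hM
  set K := (M0 + 1) ^ 2 with hKdef
  have hK : ((M : ℝ) + 1) ^ 2 ≤ K := pow_le_pow_left₀ (by positivity) (by linarith) 2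
  have hKt : K / t ^ 2 = ((M0 + 1) * (θ * (i + 1))) ^ 2 := by rw [hKdef, ht]; field_simp
  have hC0' : (1 : ℝ) ≤ C0 := by exact_mod_cast hC0
  have hMθ : (M0 + 1) * θ ≤ (j + 2) * C0 := by
    have h1 : M0 + 1 ≤ 2 * C0 * (n + 1) := by
      rw [hM0]
      have : (1 : ℝ) ≤ C0 * (n + 1) := by
        have : (0 : ℝ) ≤ n := Nat.cast_nonneg n
        nlinarith
      linarith
    calc (M0 + 1) * θ ≤ (2 * C0 * (n + 1)) * θ := mul_le_mul_of_nonneg_right h1 hθ0.le
      _ = (j + 2) * C0 := by rw [hθ]; field_simp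
  have hMθ0 : 0 ≤ (M0 + 1) * θ := by rw [hM0]; positivity
  have hKt' : K / t ^ 2 ≤ 4 * ((j + 2) * C0) ^ 2 * 2 ^ i := by
    rw [hKt]
    have c1 : ((M0 + 1) * (θ * ((i : ℝ) + 1))) ^ 2 = ((M0 + 1) * θ) ^ 2 * ((i : ℝ) + 1) ^ 2 := by
      ring
    have c2 : ((M0 + 1) * θ) ^ 2 * ((i : ℝ) + 1) ^ 2 ≤
        (((j : ℝ) + 2) * C0) ^ 2 * (4 * 2 ^ i) :=
      mul_le_mul (pow_le_pow_left₀ hMθ0 hMθ 2) (sq_succ_le i) (by positivity) (by positivity)
    rw [c1]
    refine c2.trans (le_of_eq ?_)
    ring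
  have hmain := EL_loss_le hn v b i M ε A Cε K t hε hε1 hA hCε ht1 hDD hT hK
  refine hmain.trans ?_
  rw [← hθdef, hθt, hAt]
  -- the powers
  have hθ2 : 2 * θ ≤ 1 := by
    rw [hθ, ← mul_div_assoc, div_le_one (by positivity)]
    have : (j : ℝ) + 2 ≤ n := by exact_mod_cast hn
    linarith
  have p1 : ((1 - 2 * θ) * 2 + θ * 1 + θ) ^ i ≤ 2 ^ i :=
    pow_le_pow_left₀ (by linarith) (by linarith) i
  have hinv : (0 : ℝ) < 1 / ((i : ℝ) + 1) := by positivity
  have p2 : ((1 - 2 * θ) * 2 + 1 / ((i : ℝ) + 1) + θ) ^ i ≤ 2 ^ i * 2 := by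
    have h1 : ((1 - 2 * θ) * 2 + 1 / ((i : ℝ) + 1) + θ) ^ i ≤
        (2 * (1 + 1 / ((i : ℝ) + 1) / 2)) ^ i :=
      pow_le_pow_left₀ (by linarith) (by linarith) i
    rw [mul_pow] at h1
    have h2 := one_add_pow_le_exp (1 / ((i : ℝ) + 1) / 2) (by positivity) i
    have h3 : (i : ℝ) * (1 / ((i : ℝ) + 1) / 2) ≤ 1 / 2 := by
      rw [← mul_div_assoc, mul_one_div]
      have : (i : ℝ) / (i + 1) ≤ 1 := by rw [div_le_one hi1]; linarith
      linarith
    have h4 : Real.exp ((i : ℝ) * (1 / ((i : ℝ) + 1) / 2)) ≤ 2 :=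
      (Real.exp_le_exp.2 h3).trans exp_half_le
    refine h1.trans (mul_le_mul_of_nonneg_left (h2.trans h4) (by positivity))
  have p3 : ((1 - 2 * θ) * 1 + 1 / ((i : ℝ) + 1) + θ) ^ i ≤ 3 := by
    have h1 : ((1 - 2 * θ) * 1 + 1 / ((i : ℝ) + 1) + θ) ^ i ≤
        (1 + 1 / ((i : ℝ) + 1)) ^ i :=
      pow_le_pow_left₀ (by linarith) (by linarith) i
    have h2 := one_add_pow_le_exp (1 / ((i : ℝ) + 1)) (by positivity) i
    have h3 : (i : ℝ) * (1 / ((i : ℝ) + 1)) ≤ 1 := by
      rw [mul_one_div, div_le_one hi1]; linarith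
    have h4 : Real.exp ((i : ℝ) * (1 / ((i : ℝ) + 1))) ≤ 3 :=
      (Real.exp_le_exp.2 h3).trans (by linarith [Real.exp_one_lt_d9])
    exact h1.trans (h2.trans h4)
  have pΓ : (1 + 18 * theta (j + 2) n) ^ M ≤ Γ := by
    have hth : 0 ≤ theta (j + 2) n := by unfold theta; positivity
    refine (one_add_pow_le_exp _ (by positivity) M).trans ?_
    rw [hΓ]
    refine Real.exp_le_exp.2 ?_
    have e1 : theta (j + 2) n * (n + 1) = ((j : ℝ) + 3) / 2 := by
      unfold theta; push_cast; field_simp; ring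
    calc (M : ℝ) * (18 * theta (j + 2) n) ≤ M0 * (18 * theta (j + 2) n) :=
          mul_le_mul_of_nonneg_right hMM0 (by positivity)
      _ = 18 * C0 * (theta (j + 2) n * (n + 1)) := by rw [hM0]; ring
      _ = 9 * (j + 3) * C0 := by rw [e1]; ring
  have hpow : ε ^ (j + 1) ≤ ε := by
    calc ε ^ (j + 1) ≤ ε ^ 1 := pow_le_pow_of_le_one hε.le hε1 (by omega)
      _ = ε := pow_one ε
  have h2i : (0 : ℝ) < 2 ^ i := by positivity
  -- the bracket
  have hbr : (ε ^ (j + 1) * A + Cε) * ((1 - 2 * θ) * 2 + θ * 1 + θ) ^ i +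
      A * (θ * (i + 1)) * ((1 - 2 * θ) * 2 + 1 / ((i : ℝ) + 1) + θ) ^ i +
      K / t ^ 2 * ((1 - 2 * θ) * 1 + 1 / ((i : ℝ) + 1) + θ) ^ i ≤
      (ε * A + Cε) * 2 ^ i + A * ((j + 2) * δ) * (2 ^ i * 2) +
        (4 * ((j + 2) * C0) ^ 2 * 2 ^ i) * 3 := by
    have q1 : (ε ^ (j + 1) * A + Cε) * ((1 - 2 * θ) * 2 + θ * 1 + θ) ^ i ≤
        (ε * A + Cε) * 2 ^ i := by
      refine mul_le_mul ?_ p1 (pow_nonneg (by linarith) i) (by positivity)
      have := mul_le_mul_of_nonneg_right hpow hA
      linarith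
    have q2 : A * (θ * (i + 1)) * ((1 - 2 * θ) * 2 + 1 / ((i : ℝ) + 1) + θ) ^ i ≤
        A * ((j + 2) * δ) * (2 ^ i * 2) :=
      mul_le_mul (mul_le_mul_of_nonneg_left hθi hA) p2 (pow_nonneg (by linarith) i) (by positivity)
    have q3 : K / t ^ 2 * ((1 - 2 * θ) * 1 + 1 / ((i : ℝ) + 1) + θ) ^ i ≤
        (4 * ((j + 2) * C0) ^ 2 * 2 ^ i) * 3 :=
      mul_le_mul hKt' p3 (pow_nonneg (by linarith) i) (by positivity)
    linarith
  have hbr0 : 0 ≤ (ε * A + Cε) * 2 ^ i + A * ((j + 2) * δ) * (2 ^ i * 2) +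
        (4 * ((j + 2) * C0) ^ 2 * 2 ^ i) * 3 := by positivity
  have hth : 0 ≤ theta (j + 2) n := by unfold theta; positivity
  calc _ ≤ ((ε * A + Cε) * 2 ^ i + A * ((j + 2) * δ) * (2 ^ i * 2) +
        (4 * ((j + 2) * C0) ^ 2 * 2 ^ i) * 3) * Γ :=
        mul_le_mul hbr pΓ (by positivity) hbr0
    _ = 2 ^ i * ((Γ * ε) * A + Γ * Cε + 2 * (Γ * ((j + 2) * δ)) * A +
          12 * Γ * ((j + 2) * C0) ^ 2) := by ring
    _ ≤ 2 ^ i * (A / 4 + Γ * Cε + 12 * Γ * ((j + 2) * C0) ^ 2) := by
        refine mul_le_mul_of_nonneg_left ?_ h2i.le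
        have r1 := mul_le_mul_of_nonneg_right hεΓ hA
        have r2 := mul_le_mul_of_nonneg_right hδΓ hA
        linarith

theorem EL_take_le {α : Type*} [Fintype α] {s M : ℕ} (hs : s ≤ M) (f : List α → ℝ)
    (hf : ∀ F, 0 ≤ f F) : EL M (fun F => f (F.take s)) ≤ EL s f := by
  obtain ⟨r, rfl⟩ := Nat.exists_eq_add_of_le hs
  rw [EL_append]
  refine EL_mono' fun F hF => ?_
  have : (fun G : List α => f ((F ++ G).take s)) = fun _ => f F := by
    funext G
    rw [List.take_append_of_le_length hF.ge, List.take_of_length_le hF.le]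
  rw [this]
  exact EL_const_le (hf F)

/-- trivial bound -/
theorem DD_le_triv (C1 : ℝ)
    (h : ∀ (M : ℕ) (X : Finset (Asg n)),
      EL M (fun F : List (Clause (j + 3) n) => (hit X F) ^ 2) ≤ C1 * (n : ℝ) ^ 2)
    (hC1 : 0 ≤ C1) (i M : ℕ) : DD j n i M ≤ C1 * (n : ℝ) ^ 2 := by
  unfold DD
  have h0 : 0 ≤ C1 * (n : ℝ) ^ 2 := by positivity
  calc _ ≤ EL i (fun _ : List (Clause (j + 2) n) => C1 * (n : ℝ) ^ 2) := by
        refine EL_mono fun E => ?_
        refine le_trans (EL_mono fun F => ?_) (h M (cutL Finset.univ E))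
        have h1 : ∀ l : Fin n × Bool,
            (hit (cutL Finset.univ E) F - hit (cutLit (cutL Finset.univ E) l) F) ^ 2 ≤
              (hit (cutL Finset.univ E) F) ^ 2 := by
          intro l
          have a1 := loss_nonneg (cutL Finset.univ E) l F
          have a2 := hit_nonneg (cutLit (cutL Finset.univ E) l) F
          exact pow_le_pow_left₀ a1 (by linarith) 2
        exact (avg_mono h1).trans (avg_const_le (sq_nonneg _))
    _ ≤ _ := EL_const_le h0

theorem exists_DD_le (j : ℕ) : ∃ A : ℝ, ∀ n : ℕ, j + 3 ≤ n → ∀ i M : ℕ,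
    DD j n i M ≤ A * 2 ^ i := by
  obtain ⟨C0, CT, hC0, hCT, htail⟩ := exists_tail (j + 3) (by omega)
  obtain ⟨C1, hC1, htriv⟩ := exists_hit_sq_le (j + 3) (by omega)
  set Γ : ℝ := Real.exp (9 * (j + 3) * C0) with hΓ
  have hΓ1 : 1 ≤ Γ := by rw [hΓ]; exact Real.one_le_exp (by positivity)
  have hΓ0 : 0 < Γ := by linarith
  set ε : ℝ := 1 / (8 * Γ) with hεdef
  have hε : 0 < ε := by positivity
  have hε1 : ε ≤ 1 := by rw [hεdef, div_le_one (by positivity)]; linarith
  have hεΓ : Γ * ε ≤ 1 / 8 := by rw [hεdef]; apply le_of_eq; field_simp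
  set Cε : ℝ := 2 / ((ε / 2) ^ (j + 3)) ^ 2 with hCεdef
  have hCε : 0 ≤ Cε := by positivity
  set δ : ℝ := 1 / (16 * (j + 2) * Γ) with hδdef
  have hδ : 0 < δ := by positivity
  have hδΓ : Γ * ((j + 2) * δ) ≤ 1 / 16 := by rw [hδdef]; apply le_of_eq; field_simp
  obtain ⟨n0, hn0⟩ := exists_nat_ge (((j : ℝ) + 3) / ε + 1 + 1 / δ + j + 4)
  set A : ℝ := C1 * n0 ^ 2 + 4 * C1 / δ ^ 2 +
    2 * (2 * CT + 2 * Γ * Cε + 24 * Γ * ((j + 2) * C0) ^ 2) with hAdef
  have hA : 0 ≤ A := by positivity
  refine ⟨A, fun n hn => ?_⟩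
  induction n, hn using Nat.le_induction with
  | base =>
    intro i M
    have h1 := DD_le_triv C1 (htriv (j + 3) le_rfl) hC1 i M
    refine h1.trans ?_
    have h2i : (1 : ℝ) ≤ 2 ^ i := one_le_pow₀ (by norm_num)
    have h3 : ((j + 3 : ℕ) : ℝ) ≤ n0 := by
      push_cast
      have : 0 ≤ ((j : ℝ) + 3) / ε := by positivity
      have : 0 ≤ 1 / δ := by positivity
      linarith
    have h4 : C1 * ((j + 3 : ℕ) : ℝ) ^ 2 ≤ C1 * (n0 : ℝ) ^ 2 :=
      mul_le_mul_of_nonneg_left (pow_le_pow_left₀ (by positivity) h3 2) hC1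
    have h5 : 0 ≤ 4 * C1 / δ ^ 2 := by positivity
    have h6 : 0 ≤ 2 * (2 * CT + 2 * Γ * Cε + 24 * Γ * ((j + 2) * C0) ^ 2) := by positivity
    nlinarith
  | succ n hn ih =>
    intro i M
    have h2i : (1 : ℝ) ≤ 2 ^ i := one_le_pow₀ (by norm_num)
    have h5 : 0 ≤ 4 * C1 / δ ^ 2 := by positivity
    have h5' : 0 ≤ C1 * (n0 : ℝ) ^ 2 := by positivity
    have h6 : 0 ≤ 2 * (2 * CT + 2 * Γ * Cε + 24 * Γ * ((j + 2) * C0) ^ 2) := by positivity
    by_cases hsmall : n + 1 < n0
    · have h1 := DD_le_triv (n := n + 1) C1 (htriv (n + 1) (by omega)) hC1 i M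
      refine h1.trans ?_
      have h3 : ((n + 1 : ℕ) : ℝ) ≤ n0 := by exact_mod_cast hsmall.le
      have h4 : C1 * ((n + 1 : ℕ) : ℝ) ^ 2 ≤ C1 * (n0 : ℝ) ^ 2 :=
        mul_le_mul_of_nonneg_left (pow_le_pow_left₀ (by positivity) h3 2) hC1
      nlinarith
    · push Not at hsmall
      have hnR : (n0 : ℝ) ≤ (n : ℝ) + 1 := by exact_mod_cast hsmall
      by_cases hi : (i : ℝ) ≤ δ * (n + 1)
      · -- main case
        have hpos1 : 0 ≤ ((j : ℝ) + 3) / ε := by positivity
        have hpos2 : 0 ≤ 1 / δ := by positivity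
        have hδn : 1 ≤ δ * (n + 1) := by
          have : 1 / δ ≤ n + 1 := by linarith
          rw [div_le_iff₀ hδ] at this
          linarith
        have hkn : ((j + 3 : ℕ) : ℝ) ≤ ε * n := by
          have : ((j : ℝ) + 3) / ε ≤ n := by linarith
          rw [div_le_iff₀ hε] at this
          push_cast
          linarith
        have hT : ∀ (M : ℕ) (X : Finset (Asg n)),
            EL M (fun F : List (Clause (j + 3) n) => (Teps ε X F) ^ 2) ≤ Cε := fun M X =>
          EL_Teps_sq_le (j + 3) ε hε hε1 hkn M X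
        have hstep : ∀ (v : Fin (n + 1)) (b : Bool) (M' : ℕ), M' ≤ C0 * (n + 1) → _ :=
          fun v b M' hM' => step_le (j := j) (n := n) (by omega) v b i M' C0 hC0 hM' ε A Cε δ Γ
            hε hε1 hA hCε hδ hΓ hεΓ hδΓ hi hδn ih hT
        -- for every literal
        have hlit : ∀ l : Fin (n + 1) × Bool,
            EL i (fun E : List (Clause (j + 2) (n + 1)) => EL M
              (fun F : List (Clause (j + 3) (n + 1)) =>
              (hit (cutL Finset.univ E) F - hit (cutLit (cutL Finset.univ E) l) F) ^ 2)) ≤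
              A * 2 ^ i := by
          rintro ⟨v, b⟩
          by_cases hM : M ≤ C0 * (n + 1)
          · refine (hstep v b M hM).trans ?_
            have : 0 ≤ 2 * CT + Γ * Cε + 12 * Γ * ((j + 2) * C0) ^ 2 := by positivity
            rw [mul_comm A]
            refine mul_le_mul_of_nonneg_left ?_ (by positivity)
            rw [hAdef] at *
            nlinarith
          · push Not at hM
            have h7 : ∀ E : List (Clause (j + 2) (n + 1)), EL M
              (fun F : List (Clause (j + 3) (n + 1)) =>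
              (hit (cutL Finset.univ E) F - hit (cutLit (cutL Finset.univ E) (v, b)) F) ^ 2) ≤
              2 * CT + 2 * EL (C0 * (n + 1)) (fun F : List (Clause (j + 3) (n + 1)) =>
              (hit (cutL Finset.univ E) F - hit (cutLit (cutL Finset.univ E) (v, b)) F) ^ 2) := by
              intro E
              have h8 : ∀ F : List (Clause (j + 3) (n + 1)),
                (hit (cutL Finset.univ E) F - hit (cutLit (cutL Finset.univ E) (v, b)) F) ^ 2 ≤
                2 * (hit (cutL Finset.univ E) F -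
                  hit (cutL Finset.univ E) (F.take (C0 * (n + 1)))) ^ 2 +
                2 * (hit (cutL Finset.univ E) (F.take (C0 * (n + 1))) -
                  hit (cutLit (cutL Finset.univ E) (v, b)) (F.take (C0 * (n + 1)))) ^ 2 := by
                intro F
                have b1 := hit_take_le (cutLit (cutL Finset.univ E) (v, b)) F (C0 * (n + 1))
                have b2 := hit_take_le (cutL Finset.univ E) F (C0 * (n + 1))
                have b3 := loss_nonneg (cutL Finset.univ E) (v, b) F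
                have b4 := loss_nonneg (cutL Finset.univ E) (v, b) (F.take (C0 * (n + 1)))
                set x := hit (cutL Finset.univ E) F
                set y := hit (cutL Finset.univ E) (F.take (C0 * (n + 1)))
                set x' := hit (cutLit (cutL Finset.univ E) (v, b)) F
                set y' := hit (cutLit (cutL Finset.univ E) (v, b)) (F.take (C0 * (n + 1)))
                have b5 : x - x' ≤ (x - y) + (y - y') := by linarith
                have b6 := pow_le_pow_left₀ b3 b5 2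
                nlinarith [sq_nonneg ((x - y) - (y - y'))]
              refine (EL_mono h8).trans ?_
              rw [EL_add, EL_const_mul, EL_const_mul]
              have h9 := htail (n + 1) (by omega) M (cutL Finset.univ E)
              have h10 := EL_take_le hM.le (fun F : List (Clause (j + 3) (n + 1)) =>
                (hit (cutL Finset.univ E) F -
                  hit (cutLit (cutL Finset.univ E) (v, b)) F) ^ 2) (fun F => sq_nonneg _)
              linarith
            refine (EL_mono h7).trans ?_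
            rw [EL_add, EL_const_mul i 2 (fun E : List (Clause (j + 2) (n + 1)) =>
              EL (C0 * (n + 1)) (fun F : List (Clause (j + 3) (n + 1)) =>
              (hit (cutL Finset.univ E) F - hit (cutLit (cutL Finset.univ E) (v, b)) F) ^ 2))]
            have h11 := hstep v b (C0 * (n + 1)) le_rfl
            have h12 : EL i (fun _ : List (Clause (j + 2) (n + 1)) => 2 * CT) ≤ 2 * CT :=
              EL_const_le (by positivity)
            have h13 : 2 * CT ≤ 2 ^ i * (2 * CT) := by nlinarith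
            have h14 : 2 ^ i * (2 * CT + 2 * (A / 4 + Γ * Cε + 12 * Γ * ((j + 2) * C0) ^ 2)) ≤
                A * 2 ^ i := by
              rw [mul_comm A]
              refine mul_le_mul_of_nonneg_left ?_ (by positivity)
              linarith
            linarith
        unfold DD
        have h15 : ∀ E : List (Clause (j + 2) (n + 1)), EL M
              (fun F : List (Clause (j + 3) (n + 1)) => avg (fun l : Fin (n + 1) × Bool =>
              (hit (cutL Finset.univ E) F - hit (cutLit (cutL Finset.univ E) l) F) ^ 2)) =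
              avg (fun l : Fin (n + 1) × Bool => EL M
              (fun F : List (Clause (j + 3) (n + 1)) =>
              (hit (cutL Finset.univ E) F - hit (cutLit (cutL Finset.univ E) l) F) ^ 2)) :=
          fun E => EL_avg_comm M _
        rw [EL_congr h15, EL_avg_comm]
        exact (avg_mono hlit).trans (avg_const_le (by positivity))
      · -- many clauses in the environment
        push Not at hi
        have h1 := DD_le_triv (n := n + 1) C1 (htriv (n + 1) (by omega)) hC1 i M
        refine h1.trans ?_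
        have h3 : ((n : ℝ) + 1) ≤ i / δ := by
          rw [le_div_iff₀ hδ]; linarith
        have h4 : ((n + 1 : ℕ) : ℝ) ^ 2 ≤ (i / δ) ^ 2 := by
          push_cast
          exact pow_le_pow_left₀ (by positivity) h3 2
        have h7 : (i : ℝ) ^ 2 ≤ 4 * 2 ^ i := by
          refine le_trans ?_ (sq_succ_le i)
          exact pow_le_pow_left₀ (by positivity) (by linarith) 2
        have h8 : C1 * ((n + 1 : ℕ) : ℝ) ^ 2 ≤ 4 * C1 / δ ^ 2 * 2 ^ i := by
          calc C1 * ((n + 1 : ℕ) : ℝ) ^ 2 ≤ C1 * (i / δ) ^ 2 := mul_le_mul_of_nonneg_left h4 hC1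
            _ = C1 / δ ^ 2 * (i : ℝ) ^ 2 := by rw [div_pow]; ring
            _ ≤ C1 / δ ^ 2 * (4 * 2 ^ i) := mul_le_mul_of_nonneg_left h7 (by positivity)
            _ = _ := by ring
        refine h8.trans ?_
        refine mul_le_mul_of_nonneg_right ?_ (by positivity)
        rw [hAdef]
        linarith

end Crest.Agent.R153
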