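import Mathlib
import Crest.Prelude.Def_RandomSAT
import Crest.Agent.Lib.RatPrimrec

-- ▼ part R153/Cuts
section

/-!
Row 153, part E: a real number with two recursively enumerable dyadic cuts is computable in the
sense of S0218.
-/

set_option autoImplicit false

namespace Crest.Agent.R153

/-- If the left and the right dyadic cut of `α ≥ 0` have computable certificate relations, then `α`
is computable in the sense of S0218. -/
theorem computable_of_cuts (α : ℝ) (hα : 0 ≤ α)
    (Lo Up : ℕ × ℕ × ℕ → Bool) (hLo : Computable Lo) (hUp : Computable Up)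
    (lo_sound : ∀ a k w : ℕ, Lo (a, k, w) = true → (a : ℝ) / 2 ^ k ≤ α)
    (lo_compl : ∀ a k : ℕ, (a : ℝ) / 2 ^ k < α → ∃ w, Lo (a, k, w) = true)
    (up_sound : ∀ a k w : ℕ, Up (a, k, w) = true → α ≤ (a : ℝ) / 2 ^ k)
    (up_compl : ∀ a k : ℕ, α < (a : ℝ) / 2 ^ k → ∃ w, Up (a, k, w) = true) :
    ∃ f : ℕ → ℕ, Computable f ∧ ∀ r : ℕ, |(f r : ℝ) / 2 ^ r - α| ≤ 1 / 2 ^ r := by
  classical
  -- the test: `t = pair a (pair w₁ w₂)`; accept when `a = 0` or `(a-1)/2^r ≤ α` is certified, and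
  -- `α ≤ (a+1)/2^r` is certified
  let test : ℕ → ℕ → Bool := fun r t =>
    (((t.unpair.1 == 0) || Lo (t.unpair.1 - 1, r, t.unpair.2.unpair.1)) &&
      Up (t.unpair.1 + 1, r, t.unpair.2.unpair.2))
  have hfst : Computable (fun p : ℕ × ℕ => p.2.unpair.1) :=
    (Primrec.fst.comp (Primrec.unpair.comp Primrec.snd)).to_comp
  have hsnd : Computable (fun p : ℕ × ℕ => p.2.unpair.2) :=
    (Primrec.snd.comp (Primrec.unpair.comp Primrec.snd)).to_comp
  have hw1 : Computable (fun p : ℕ × ℕ => p.2.unpair.2.unpair.1) :=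
    (Primrec.fst.comp (Primrec.unpair.comp
      (Primrec.snd.comp (Primrec.unpair.comp Primrec.snd)))).to_comp
  have hw2 : Computable (fun p : ℕ × ℕ => p.2.unpair.2.unpair.2) :=
    (Primrec.snd.comp (Primrec.unpair.comp
      (Primrec.snd.comp (Primrec.unpair.comp Primrec.snd)))).to_comp
  have htest : Computable₂ test := by
    have h0 : Computable (fun p : ℕ × ℕ => (p.2.unpair.1 == 0)) := by
      exact (Primrec.beq.to_comp).comp hfst (Computable.const 0)
    have h1 : Computable (fun p : ℕ × ℕ => Lo (p.2.unpair.1 - 1, p.1, p.2.unpair.2.unpair.1)) := by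
      refine hLo.comp (Computable.pair ?_ (Computable.pair Computable.fst hw1))
      exact (Primrec.nat_sub.to_comp).comp hfst (Computable.const 1)
    have h2 : Computable (fun p : ℕ × ℕ => Up (p.2.unpair.1 + 1, p.1, p.2.unpair.2.unpair.2)) := by
      refine hUp.comp (Computable.pair ?_ (Computable.pair Computable.fst hw2))
      exact (Primrec.nat_add.to_comp).comp hfst (Computable.const 1)
    exact (Primrec.and.to_comp).comp ((Primrec.or.to_comp).comp h0 h1) h2
  -- existence of a witness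
  have hex : ∀ r, ∃ t, test r t = true := by
    intro r
    have h2 : (0 : ℝ) < 2 ^ r := by positivity
    set a : ℕ := ⌊α * 2 ^ r⌋₊ with ha
    have hle : (a : ℝ) ≤ α * 2 ^ r := Nat.floor_le (by positivity)
    have hlt : α * 2 ^ r < a + 1 := Nat.lt_floor_add_one _
    obtain ⟨w2, hw2⟩ := up_compl (a + 1) r (by
      rw [lt_div_iff₀ h2]; push_cast; linarith)
    have hL : ∃ w1, ((a == 0) || Lo (a - 1, r, w1)) = true := by
      by_cases h0 : a = 0
      · exact ⟨0, by simp [h0]⟩
      · obtain ⟨w1, hw1⟩ := lo_compl (a - 1) r (by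
          rw [div_lt_iff₀ h2]
          have : ((a - 1 : ℕ) : ℝ) = a - 1 := by
            have : 1 ≤ a := Nat.one_le_iff_ne_zero.mpr h0
            push_cast [Nat.cast_sub this]; ring
          rw [this]; linarith)
        exact ⟨w1, by simp [hw1]⟩
    obtain ⟨w1, hw1⟩ := hL
    refine ⟨Nat.pair a (Nat.pair w1 w2), ?_⟩
    simp only [test, Nat.unpair_pair, Bool.and_eq_true]
    exact ⟨hw1, hw2⟩
  -- the search
  let g : ℕ → ℕ := fun r => Nat.find (hex r)
  have hg : Computable g := by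
    have hp : Partrec fun r : ℕ => Nat.rfind ((fun t : ℕ => Part.some (test r t)) : ℕ →. Bool) :=
      Partrec.rfind htest.partrec₂
    refine Partrec.of_eq hp ?_
    intro r
    have : g r ∈ Nat.rfind ((fun t : ℕ => Part.some (test r t)) : ℕ →. Bool) := by
      refine Nat.mem_rfind.mpr ⟨?_, ?_⟩
      · have := Nat.find_spec (hex r)
        simp [g, this]
      · intro m hm
        have := Nat.find_min (hex r) hm
        simp at this
        simp [this]
    exact Part.eq_some_iff.mpr this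
  refine ⟨fun r => (g r).unpair.1, ?_, ?_⟩
  · exact (Primrec.fst.comp Primrec.unpair).to_comp.comp hg
  · intro r
    have h2 : (0 : ℝ) < 2 ^ r := by positivity
    have hs : test r (g r) = true := Nat.find_spec (hex r)
    simp only [test, Bool.and_eq_true, Bool.or_eq_true, beq_iff_eq] at hs
    obtain ⟨h1, h3⟩ := hs
    show |(((g r).unpair.1 : ℕ) : ℝ) / 2 ^ r - α| ≤ 1 / 2 ^ r
    generalize (g r).unpair.1 = a at *
    have hup := up_sound _ _ _ h3
    push_cast at hup
    rw [abs_le]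
    have hsplit : ((a : ℝ) + 1) / 2 ^ r = a / 2 ^ r + 1 / 2 ^ r := by ring
    constructor
    · rw [hsplit] at hup; linarith
    · rcases h1 with h1 | h1
      · rw [h1]; simp
        have : (0 : ℝ) ≤ (2 ^ r)⁻¹ := by positivity
        linarith
      · have hlo := lo_sound _ _ _ h1
        by_cases h0 : a = 0
        · rw [h0]; simp
          have : (0 : ℝ) ≤ (2 ^ r)⁻¹ := by positivity
          linarith
        · have hc : ((a - 1 : ℕ) : ℝ) = a - 1 := by
            have : 1 ≤ a := Nat.one_le_iff_ne_zero.mpr h0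
            push_cast [Nat.cast_sub this]; ring
          rw [hc] at hlo
          have : ((a : ℝ) - 1) / 2 ^ r = a / 2 ^ r - 1 / 2 ^ r := by ring
          rw [this] at hlo
          linarith

end Crest.Agent.R153
end

-- ▼ part R153/CompCount
section

set_option autoImplicit false

/-! Row 153, part [E2]: the number of satisfiable 3-clause formulas is primitive recursive. -/

namespace Crest.Agent.R153

open Crest.ProbabilityR.RandomSAT

/-- `i`-th base `D` digit -/
def dg (D c i : ℕ) : ℕ := c / D ^ i % D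

/-- the code of a 3-clause (base `2n` digits are literals `2v+b`) has three distinct variables -/
def validB (n c : ℕ) : Prop :=
  dg (2 * n) c 0 / 2 ≠ dg (2 * n) c 1 / 2 ∧ dg (2 * n) c 0 / 2 ≠ dg (2 * n) c 2 / 2 ∧
    dg (2 * n) c 1 / 2 ≠ dg (2 * n) c 2 / 2

/-- assignment code `s` satisfies the `i`-th literal -/
def litB (n s c i : ℕ) : Prop := dg 2 s (dg (2 * n) c i / 2) = dg (2 * n) c i % 2

def satB (n s c : ℕ) : Prop := litB n s c 0 ∨ litB n s c 1 ∨ litB n s c 2

def formB (n m x : ℕ) : Prop :=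
  (∀ j < m, validB n (dg ((2 * n) ^ 3) x j)) ∧
    ∃ s < 2 ^ n, ∀ j < m, satB n s (dg ((2 * n) ^ 3) x j)

open Classical in
/-- number of satisfiable formulas with `m` clauses -/
noncomputable def satCount (n m : ℕ) : ℕ :=
  ((List.range (((2 * n) ^ 3) ^ m)).filter (fun x => formB n m x)).length

section primrec

open Primrec

theorem bex {β : Type*} [Primcodable β] {R : ℕ → β → Prop} (hR : PrimrecRel R) {f : β → ℕ}
    (hf : Primrec f) : PrimrecPred fun b => ∃ x < f b, R x b :=
  (hR.exists_mem_list.comp (list_range.comp hf) Primrec.id).of_eq (by simp)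

theorem ball {β : Type*} [Primcodable β] {R : ℕ → β → Prop} (hR : PrimrecRel R) {f : β → ℕ}
    (hf : Primrec f) : PrimrecPred fun b => ∀ x < f b, R x b :=
  (hR.forall_mem_list.comp (list_range.comp hf) Primrec.id).of_eq (by simp)

theorem dg_primrec {β : Type*} [Primcodable β] {D c i : β → ℕ} (hD : Primrec D) (hc : Primrec c)
    (hi : Primrec i) : Primrec (fun b => dg (D b) (c b) (i b)) :=
  nat_mod.comp (nat_div.comp hc (Crest.Agent.Lib.RatPrimrec.primrec_pow.comp hD hi)) hD

theorem validB_primrec {β : Type*} [Primcodable β] {n c : β → ℕ} (hn : Primrec n)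
    (hc : Primrec c) : PrimrecPred (fun b => validB (n b) (c b)) := by
  have h2n : Primrec (fun b => 2 * n b) := nat_mul.comp (const 2) hn
  have hd : ∀ i : ℕ, Primrec (fun b => dg (2 * n b) (c b) i / 2) := fun i =>
    nat_div.comp (dg_primrec h2n hc (const i)) (const 2)
  unfold validB
  exact ((Primrec.eq.comp (hd 0) (hd 1)).not).and
    (((Primrec.eq.comp (hd 0) (hd 2)).not).and ((Primrec.eq.comp (hd 1) (hd 2)).not))

theorem litB_primrec {β : Type*} [Primcodable β] {n s c : β → ℕ} (hn : Primrec n)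
    (hs : Primrec s) (hc : Primrec c) (i : ℕ) :
    PrimrecPred (fun b => litB (n b) (s b) (c b) i) := by
  have h2n : Primrec (fun b => 2 * n b) := nat_mul.comp (const 2) hn
  have hd : Primrec (fun b => dg (2 * n b) (c b) i) := dg_primrec h2n hc (const i)
  unfold litB
  exact Primrec.eq.comp (dg_primrec (const 2) hs (nat_div.comp hd (const 2)))
    (nat_mod.comp hd (const 2))

theorem satB_primrec {β : Type*} [Primcodable β] {n s c : β → ℕ} (hn : Primrec n)
    (hs : Primrec s) (hc : Primrec c) :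
    PrimrecPred (fun b => satB (n b) (s b) (c b)) :=
  (litB_primrec hn hs hc 0).or ((litB_primrec hn hs hc 1).or (litB_primrec hn hs hc 2))

theorem formB_primrec {β : Type*} [Primcodable β] {n m x : β → ℕ} (hn : Primrec n)
    (hm : Primrec m) (hx : Primrec x) :
    PrimrecPred (fun b => formB (n b) (m b) (x b)) := by
  have hB : Primrec (fun b => (2 * n b) ^ 3) :=
    Crest.Agent.Lib.RatPrimrec.primrec_pow.comp (nat_mul.comp (const 2) hn) (const 3)
  unfold formB
  refine PrimrecPred.and ?_ ?_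
  · have hR : PrimrecRel (fun (j : ℕ) (b : β) => validB (n b) (dg ((2 * n b) ^ 3) (x b) j)) :=
      validB_primrec (hn.comp snd) (dg_primrec (hB.comp snd) (hx.comp snd) fst)
    exact ball hR hm
  · have hR : PrimrecRel (fun (j : ℕ) (p : ℕ × β) =>
        satB (n p.2) p.1 (dg ((2 * n p.2) ^ 3) (x p.2) j)) :=
      satB_primrec (hn.comp (snd.comp snd)) (fst.comp snd)
        (dg_primrec (hB.comp (snd.comp snd)) (hx.comp (snd.comp snd)) fst)
    have h2 : PrimrecRel (fun (s : ℕ) (b : β) =>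
        ∀ j < m b, satB (n b) s (dg ((2 * n b) ^ 3) (x b) j)) :=
      ball (β := ℕ × β) hR (hm.comp snd)
    exact bex h2 (Crest.Agent.Lib.RatPrimrec.primrec_pow.comp (const 2) hn)

theorem satCount_primrec : Primrec₂ satCount := by
  classical
  have hR : PrimrecRel (fun (x : ℕ) (p : ℕ × ℕ) => formB p.1 p.2 x) :=
    formB_primrec (fst.comp snd) (snd.comp snd) fst
  have hN : Primrec (fun p : ℕ × ℕ => ((2 * p.1) ^ 3) ^ p.2) :=
    Crest.Agent.Lib.RatPrimrec.primrec_pow.comp
      (Crest.Agent.Lib.RatPrimrec.primrec_pow.comp (nat_mul.comp (const 2) fst) (const 3)) snd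
  have h := (list_length.comp ((PrimrecRel.listFilter hR).comp (list_range.comp hN) Primrec.id))
  refine h.of_eq fun p => ?_
  unfold satCount
  congr 1

end primrec

/-! ### The count equals the number of satisfiable formulas -/

section count

/-- digits of the code of a function -/
theorem dg_code {D k : ℕ} (f : Fin k → Fin D) (i : Fin k) :
    dg D ((finFunctionFinEquiv f : Fin (D ^ k)) : ℕ) i = f i := by
  have h := congrFun (finFunctionFinEquiv.symm_apply_apply f) i
  have h2 := congrArg Fin.val h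
  rw [← h2]
  rfl

theorem code_dg {D k : ℕ} (hD : 0 < D) (x : ℕ) (hx : x < D ^ k) :
    ((finFunctionFinEquiv (fun i : Fin k => (⟨dg D x i, Nat.mod_lt _ hD⟩ : Fin D)) :
      Fin (D ^ k)) : ℕ) = x := by
  have h := finFunctionFinEquiv.apply_symm_apply (⟨x, hx⟩ : Fin (D ^ k))
  have h2 := congrArg Fin.val h
  have h3 : (fun i : Fin k => (⟨dg D x i, Nat.mod_lt _ hD⟩ : Fin D)) =
      finFunctionFinEquiv.symm (⟨x, hx⟩ : Fin (D ^ k)) := rfl
  rw [h3]
  exact h2

/-- literal code -/
def litCode {n : ℕ} (v : Fin n) (b : Bool) : Fin (2 * n) :=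
  ⟨2 * v + (if b then 1 else 0), by have := v.2; split_ifs <;> omega⟩

theorem litCode_div {n : ℕ} (v : Fin n) (b : Bool) : (litCode v b : ℕ) / 2 = v := by
  unfold litCode; dsimp only; split_ifs <;> omega

theorem litCode_mod {n : ℕ} (v : Fin n) (b : Bool) :
    (litCode v b : ℕ) % 2 = if b then 1 else 0 := by
  unfold litCode; dsimp only; split_ifs <;> omega

/-- clause code -/
def clCode {n : ℕ} (c : Clause 3 n) : Fin ((2 * n) ^ 3) :=
  finFunctionFinEquiv (fun i => litCode (c.1.1 i) (c.2 i))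

theorem dg_clCode {n : ℕ} (c : Clause 3 n) (i : Fin 3) :
    dg (2 * n) (clCode c) i = litCode (c.1.1 i) (c.2 i) := dg_code _ _

theorem validB_clCode {n : ℕ} (c : Clause 3 n) : validB n (clCode c) := by
  have h0 := dg_clCode c 0
  have h1 := dg_clCode c 1
  have h2 := dg_clCode c 2
  simp only [Fin.val_zero, Fin.val_one, Fin.val_two] at h0 h1 h2
  unfold validB
  rw [h0, h1, h2, litCode_div, litCode_div, litCode_div]
  refine ⟨fun h => ?_, fun h => ?_, fun h => ?_⟩
  · exact absurd (c.1.2 (Fin.ext h)) (by decide)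
  · exact absurd (c.1.2 (Fin.ext h)) (by decide)
  · exact absurd (c.1.2 (Fin.ext h)) (by decide)

theorem clCode_injective {n : ℕ} : Function.Injective (clCode (n := n)) := by
  intro c c' h
  have key : ∀ i, c.1.1 i = c'.1.1 i ∧ c.2 i = c'.2 i := by
    intro i
    have h1 := dg_clCode c i
    have h2 := dg_clCode c' i
    rw [h, h2] at h1
    constructor
    · apply Fin.ext
      rw [← litCode_div (c.1.1 i) (c.2 i), ← h1, litCode_div]
    · have h3 := congrArg (· % 2) h1
      simp only [litCode_mod] at h3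
      cases hb : c.2 i <;> cases hb' : c'.2 i <;> simp_all
  apply Prod.ext
  · apply Subtype.ext
    funext i
    exact (key i).1
  · funext i
    exact (key i).2

/-- assignment code -/
def asCode {n : ℕ} (σ : Fin n → Bool) : Fin (2 ^ n) :=
  finFunctionFinEquiv (fun i => if σ i then 1 else 0)

theorem dg_asCode {n : ℕ} (σ : Fin n → Bool) (i : Fin n) :
    dg 2 (asCode σ) i = if σ i then 1 else 0 := by
  have := dg_code (fun i => if σ i then (1 : Fin 2) else 0) i
  unfold asCode
  rw [this]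
  split_ifs <;> rfl

theorem satB_iff {n : ℕ} (σ : Fin n → Bool) (c : Clause 3 n) :
    satB n (asCode σ) (clCode c) ↔ ClauseSat σ c := by
  have hlit : ∀ i : Fin 3, litB n (asCode σ) (clCode c) i ↔ σ (c.1.1 i) = c.2 i := by
    intro i
    unfold litB
    rw [dg_clCode, litCode_div, litCode_mod, dg_asCode]
    cases σ (c.1.1 i) <;> cases c.2 i <;> simp
  unfold satB ClauseSat
  rw [Fin.exists_fin_succ, Fin.exists_fin_two, ← hlit, ← hlit, ← hlit]
  rfl

theorem asCode_surj {n s : ℕ} (hs : s < 2 ^ n) : ∃ σ : Fin n → Bool, (asCode σ : ℕ) = s := by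
  refine ⟨fun i => decide (dg 2 s i = 1), ?_⟩
  conv_rhs => rw [← code_dg (D := 2) (k := n) (by norm_num) s hs]
  unfold asCode
  congr 2
  funext i
  have : dg 2 s i < 2 := Nat.mod_lt _ (by norm_num)
  apply Fin.ext
  by_cases h : dg 2 s i = 1
  · simp [h]
  · have h0 : dg 2 s i = 0 := by omega
    simp [h0]

theorem clCode_surj {n c : ℕ} (hc : c < (2 * n) ^ 3) (hv : validB n c) :
    ∃ C : Clause 3 n, (clCode C : ℕ) = c := by
  have hn : 0 < 2 * n := by
    rcases Nat.eq_zero_or_pos n with h | h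
    · subst h; simp at hc
    · omega
  have hd : ∀ i, dg (2 * n) c i < 2 * n := fun i => Nat.mod_lt _ hn
  let v : Fin 3 → Fin n := fun i => ⟨dg (2 * n) c i / 2, by have := hd i; omega⟩
  have hinj : Function.Injective v := by
    obtain ⟨h1, h2, h3⟩ := hv
    intro a b hab
    have hab' : dg (2 * n) c a / 2 = dg (2 * n) c b / 2 := congrArg Fin.val hab
    fin_cases a <;> fin_cases b <;> simp_all
  refine ⟨(⟨v, hinj⟩, fun i => decide (dg (2 * n) c i % 2 = 1)), ?_⟩
  conv_rhs => rw [← code_dg (D := 2 * n) (k := 3) hn c hc]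
  unfold clCode
  congr 2
  funext i
  apply Fin.ext
  unfold litCode
  simp only [v, decide_eq_true_eq]
  split_ifs with h <;> omega

/-- formula code -/
def fCode {n m : ℕ} (F : Fin m → Clause 3 n) : Fin (((2 * n) ^ 3) ^ m) :=
  finFunctionFinEquiv (fun j => clCode (F j))

theorem formB_fCode {n m : ℕ} (F : Fin m → Clause 3 n) :
    formB n m (fCode F) ↔ Satisfiable F := by
  have hdg : ∀ j : Fin m, dg ((2 * n) ^ 3) (fCode F) j = clCode (F j) := fun j => dg_code _ _
  unfold formB Satisfiable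
  constructor
  · rintro ⟨-, s, hs, h⟩
    obtain ⟨σ, rfl⟩ := asCode_surj hs
    refine ⟨σ, fun j => ?_⟩
    have := h j j.2
    rw [hdg] at this
    exact (satB_iff σ _).1 this
  · rintro ⟨σ, h⟩
    refine ⟨fun j hj => ?_, asCode σ, (asCode σ).2, fun j hj => ?_⟩
    · rw [hdg ⟨j, hj⟩]
      exact validB_clCode _
    · rw [hdg ⟨j, hj⟩]
      exact (satB_iff σ _).2 (h ⟨j, hj⟩)

theorem fCode_injective {n m : ℕ} : Function.Injective (fCode (n := n) (m := m)) := by
  intro F F' h
  have h2 := finFunctionFinEquiv.injective h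
  funext j
  exact clCode_injective (congrFun h2 j)

theorem fCode_surj {n m x : ℕ} (hx : x < ((2 * n) ^ 3) ^ m)
    (hv : ∀ j < m, validB n (dg ((2 * n) ^ 3) x j)) :
    ∃ F : Fin m → Clause 3 n, (fCode F : ℕ) = x := by
  rcases Nat.eq_zero_or_pos m with hm | hm
  · subst hm
    refine ⟨fun j => j.elim0, ?_⟩
    have := (fCode (n := n) (m := 0) (fun j => j.elim0)).2
    simp only [pow_zero, Nat.lt_one_iff] at this hx
    rw [this, hx]
  · have hn : 0 < (2 * n) ^ 3 := by
      rcases Nat.eq_zero_or_pos n with h | h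
      · subst h
        simp [hm.ne'] at hx
      · positivity
    have hC : ∀ j : Fin m, ∃ C : Clause 3 n, (clCode C : ℕ) = dg ((2 * n) ^ 3) x j := fun j =>
      clCode_surj (Nat.mod_lt _ hn) (hv j j.2)
    choose F hF using hC
    refine ⟨F, ?_⟩
    conv_rhs => rw [← code_dg (D := (2 * n) ^ 3) (k := m) hn x hx]
    unfold fCode
    congr 2
    funext j
    apply Fin.ext
    rw [hF j]

open Classical in
theorem card_sat (n m : ℕ) :
    (Finset.univ.filter (fun F : Fin m → Clause 3 n => Satisfiable F)).card = satCount n m := by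
  unfold satCount
  rw [← List.toFinset_card_of_nodup (List.nodup_range.filter _)]
  refine Finset.card_nbij (fun F => (fCode F : ℕ)) ?_ ?_ ?_
  · intro F hF
    have hF' : Satisfiable F := (Finset.mem_filter.1 hF).2
    have : (fCode F : ℕ) ∈ ((List.range (((2 * n) ^ 3) ^ m)).filter
        (fun x => formB n m x)).toFinset := by
      rw [List.mem_toFinset, List.mem_filter, List.mem_range, decide_eq_true_eq]
      exact ⟨(fCode F).2, (formB_fCode F).2 hF'⟩
    exact this
  · intro F _ F' _ h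
    exact fCode_injective (Fin.ext h)
  · intro x hx
    have hx' : x ∈ ((List.range (((2 * n) ^ 3) ^ m)).filter
        (fun x => formB n m x)).toFinset := hx
    rw [List.mem_toFinset, List.mem_filter, List.mem_range, decide_eq_true_eq] at hx'
    obtain ⟨hx1, hx2⟩ := hx'
    obtain ⟨F, rfl⟩ := fCode_surj hx1 hx2.1
    refine ⟨F, ?_, rfl⟩
    have : F ∈ Finset.univ.filter (fun F : Fin m → Clause 3 n => Satisfiable F) :=
      Finset.mem_filter.2 ⟨Finset.mem_univ _, (formB_fCode F).1 hx2⟩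
    exact this

/-- total number of formulas -/
def totCount (n m : ℕ) : ℕ := (n * (n - 1) * (n - 2) * 8) ^ m

theorem card_clause3 (n : ℕ) : Fintype.card (Clause 3 n) = n * (n - 1) * (n - 2) * 8 := by
  rw [Fintype.card_prod, Fintype.card_fun, Fintype.card_bool, Fintype.card_fin]
  rw [Fintype.card_congr (Equiv.subtypeInjectiveEquivEmbedding (Fin 3) (Fin n)),
    Fintype.card_embedding_eq, Fintype.card_fin, Fintype.card_fin]
  simp only [Nat.descFactorial]
  norm_num
  ring

theorem satProb_eq (n m : ℕ) : satProb 3 n m = (satCount n m : ℝ) / (totCount n m : ℝ) := by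
  classical
  unfold satProb Crest.FinProb.uniformProb totCount
  congr 1
  · rw [← card_sat]
    congr 2
  · rw [Fintype.card_fun, Fintype.card_fin, card_clause3]

theorem totCount_primrec : Primrec₂ totCount := by
  open Primrec in
  exact Crest.Agent.Lib.RatPrimrec.primrec_pow.comp
    (nat_mul.comp (nat_mul.comp (nat_mul.comp fst (nat_sub.comp fst (const 1)))
      (nat_sub.comp fst (const 2))) (const 8)) snd

end count

end Crest.Agent.R153
end

-- ▼ part R153/LeftCert

set_option autoImplicit false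

/-! Row 153: the left certificate of the 3-SAT threshold.

`Lo C (a, k, w)`, with `w = pair n m`: at least half of the formulas with `m` clauses on `n`
variables are satisfiable and `m / n - C / √n ≥ a / 2 ^ k`. -/

namespace Crest.Agent.R153

open Crest.ProbabilityR.RandomSAT Filter Topology

/-- the relation behind the left certificate -/
def LoRel (C : ℕ) (p : ℕ × ℕ × ℕ) : Prop :=
  3 ≤ p.2.2.unpair.1 ∧
    totCount p.2.2.unpair.1 p.2.2.unpair.2 ≤ 2 * satCount p.2.2.unpair.1 p.2.2.unpair.2 ∧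
    (C ^ 2 * p.2.2.unpair.1) * (2 ^ p.2.1) ^ 2 ≤
      (p.2.2.unpair.2 * 2 ^ p.2.1 - p.1 * p.2.2.unpair.1) ^ 2

open Classical in
/-- the left certificate -/
noncomputable def Lo (C : ℕ) (p : ℕ × ℕ × ℕ) : Bool := decide (LoRel C p)

theorem LoRel_primrec (C : ℕ) : PrimrecPred (LoRel C) := by
  have hn : Primrec (fun p : ℕ × ℕ × ℕ => p.2.2.unpair.1) :=
    Primrec.fst.comp (Primrec.unpair.comp (Primrec.snd.comp Primrec.snd))
  have hm : Primrec (fun p : ℕ × ℕ × ℕ => p.2.2.unpair.2) :=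
    Primrec.snd.comp (Primrec.unpair.comp (Primrec.snd.comp Primrec.snd))
  have ha : Primrec (fun p : ℕ × ℕ × ℕ => p.1) := Primrec.fst
  have hk : Primrec (fun p : ℕ × ℕ × ℕ => p.2.1) := Primrec.fst.comp Primrec.snd
  have h2k : Primrec (fun p : ℕ × ℕ × ℕ => 2 ^ p.2.1) :=
    Crest.Agent.Lib.RatPrimrec.primrec_pow.comp (Primrec.const 2) hk
  have hsq : ∀ {f : ℕ × ℕ × ℕ → ℕ}, Primrec f → Primrec (fun p => f p ^ 2) := fun hf =>
    Crest.Agent.Lib.RatPrimrec.primrec_pow.comp hf (Primrec.const 2)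
  unfold LoRel
  refine (Primrec.nat_le.comp (Primrec.const 3) hn).and
    ((Primrec.nat_le.comp (totCount_primrec.comp hn hm)
      (Primrec.nat_mul.comp (Primrec.const 2) (satCount_primrec.comp hn hm))).and ?_)
  exact Primrec.nat_le.comp
    (Primrec.nat_mul.comp (Primrec.nat_mul.comp (Primrec.const (C ^ 2)) hn) (hsq h2k))
    (hsq (Primrec.nat_sub.comp (Primrec.nat_mul.comp hm h2k) (Primrec.nat_mul.comp ha hn)))

theorem Lo_computable (C : ℕ) : Computable (Lo C) := by
  classical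
  have h := (LoRel_primrec C).decide
  have h' : Primrec (Lo C) := h.of_eq (fun p => by unfold Lo; congr)
  exact h'.to_comp

theorem Lo_iff (C a k n m : ℕ) : Lo C (a, k, Nat.pair n m) = true ↔
    3 ≤ n ∧ totCount n m ≤ 2 * satCount n m ∧
      (C ^ 2 * n) * (2 ^ k) ^ 2 ≤ (m * 2 ^ k - a * n) ^ 2 := by
  classical
  unfold Lo LoRel
  simp only [decide_eq_true_eq, Nat.unpair_pair]

theorem totCount_pos {n : ℕ} (hn : 3 ≤ n) (m : ℕ) : 0 < totCount n m := by
  unfold totCount
  have h1 : 0 < n - 1 := by omega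
  have h2 : 0 < n - 2 := by omega
  have h3 : 0 < n := by omega
  positivity

theorem half_iff {n : ℕ} (hn : 3 ≤ n) (m : ℕ) :
    totCount n m ≤ 2 * satCount n m ↔ (1 : ℝ) / 2 ≤ satProb 3 n m := by
  rw [satProb_eq]
  have h : (0 : ℝ) < totCount n m := by exact_mod_cast totCount_pos hn m
  rw [div_le_div_iff₀ (by norm_num) h]
  constructor
  · intro h1
    have : (totCount n m : ℝ) ≤ 2 * satCount n m := by exact_mod_cast h1
    linarith
  · intro h1
    have : (totCount n m : ℝ) ≤ 2 * satCount n m := by linarith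
    exact_mod_cast this

/-- threshold is nonnegative -/
theorem threshold_nonneg {k : ℕ} {α : ℝ} (hα : IsSharpThreshold (satProb k) α) : 0 ≤ α := by
  by_contra hlt
  push Not at hlt
  have h := (hα 0 le_rfl).2 hlt
  have h1 : (fun n : ℕ => satProb k n ⌊(0 : ℝ) * n⌋₊) = fun _ => 1 := by
    funext n
    rw [zero_mul, Nat.floor_zero]
    unfold satProb Crest.FinProb.uniformProb
    have hs : ∀ F : Fin 0 → Clause k n, Satisfiable F := fun F => ⟨fun _ => true, fun j => j.elim0⟩
    simp [hs]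
  rw [h1] at h
  exact zero_ne_one (tendsto_nhds_unique h tendsto_const_nhds)

theorem Lo_sound {C : ℕ} {α : ℝ}
    (hLC : ∀ n m : ℕ, 3 ≤ n → (1 : ℝ) / 2 ≤ satProb 3 n m → (m : ℝ) / n ≤ α + C / Real.sqrt n)
    (hC : 1 ≤ C) (a k w : ℕ) (h : Lo C (a, k, w) = true) : (a : ℝ) / 2 ^ k ≤ α := by
  rw [← Nat.pair_unpair w] at h
  generalize w.unpair.1 = n at h
  generalize w.unpair.2 = m at h
  obtain ⟨hn, hh, hq⟩ := (Lo_iff C a k n m).1 h
  have hP := (half_iff hn m).1 hh
  have hL := hLC n m hn hP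
  have hn0 : (0 : ℝ) < n := by
    have : 0 < n := by omega
    exact_mod_cast this
  have hs0 : 0 < Real.sqrt n := Real.sqrt_pos.2 hn0
  have h2 : (0 : ℝ) < 2 ^ k := by positivity
  -- the truncated subtraction is a real subtraction
  have hpos : a * n < m * 2 ^ k := by
    by_contra hle
    push Not at hle
    have h0 : m * 2 ^ k - a * n = 0 := Nat.sub_eq_zero_of_le hle
    rw [h0] at hq
    have : 0 < (C ^ 2 * n) * (2 ^ k) ^ 2 := by
      have : 0 < n := by omega
      positivity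
    simp at hq
    rcases hq with h1 | h1 <;> omega
  have hcast : ((m * 2 ^ k - a * n : ℕ) : ℝ) = m * 2 ^ k - a * n := by
    rw [Nat.cast_sub hpos.le]; push_cast; ring
  have hq' : ((C : ℝ) ^ 2 * n) * (2 ^ k) ^ 2 ≤ ((m : ℝ) * 2 ^ k - a * n) ^ 2 := by
    rw [← hcast]; exact_mod_cast hq
  have hd0 : (0 : ℝ) ≤ (m : ℝ) * 2 ^ k - a * n := by
    rw [← hcast]; positivity
  have hsq : ((C : ℝ) * Real.sqrt n * 2 ^ k) ^ 2 ≤ ((m : ℝ) * 2 ^ k - a * n) ^ 2 := by
    have : ((C : ℝ) * Real.sqrt n * 2 ^ k) ^ 2 = ((C : ℝ) ^ 2 * n) * (2 ^ k) ^ 2 := by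
      rw [mul_pow, mul_pow, Real.sq_sqrt hn0.le]
    rw [this]; exact hq'
  have hle : (C : ℝ) * Real.sqrt n * 2 ^ k ≤ (m : ℝ) * 2 ^ k - a * n :=
    (pow_le_pow_iff_left₀ (by positivity) hd0 (by norm_num)).1 hsq
  have h1 : (C : ℝ) / Real.sqrt n = C * Real.sqrt n / n := by
    rw [div_eq_div_iff hs0.ne' hn0.ne', mul_assoc, Real.mul_self_sqrt hn0.le]
  rw [h1] at hL
  have h3 : (a : ℝ) / 2 ^ k ≤ (m : ℝ) / n - C * Real.sqrt n / n := by
    rw [← sub_div, div_le_div_iff₀ h2 hn0]
    nlinarith [hle]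
  linarith

theorem Lo_complete (C : ℕ) {α : ℝ} (hα : IsSharpThreshold (satProb 3) α) (a k : ℕ)
    (h : (a : ℝ) / 2 ^ k < α) : ∃ w, Lo C (a, k, w) = true := by
  obtain ⟨c, hc1, hc2⟩ := exists_between h
  have ha0 : (0 : ℝ) ≤ (a : ℝ) / 2 ^ k := by positivity
  have hc0 : 0 ≤ c := ha0.trans hc1.le
  have hT := (hα c hc0).1 hc2
  have hev1 : ∀ᶠ n : ℕ in atTop, (1 : ℝ) / 2 ≤ satProb 3 n ⌊c * n⌋₊ :=
    (hT.eventually (lt_mem_nhds (show (1 : ℝ) / 2 < 1 by norm_num))).mono fun n hn => le_of_lt hn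
  have hlim : Tendsto (fun n : ℕ => c - 1 / (n : ℝ) - C / Real.sqrt n) atTop (𝓝 (c - 0 - 0)) := by
    refine (tendsto_const_nhds.sub tendsto_one_div_atTop_nhds_zero_nat).sub ?_
    exact Tendsto.const_div_atTop (Real.tendsto_sqrt_atTop.comp tendsto_natCast_atTop_atTop) _
  have hev2 : ∀ᶠ n : ℕ in atTop, (a : ℝ) / 2 ^ k < c - 1 / (n : ℝ) - C / Real.sqrt n := by
    refine hlim.eventually (lt_mem_nhds ?_)
    simpa using hc1
  obtain ⟨n, ⟨h1, h2⟩, h3⟩ := ((hev1.and hev2).and (eventually_ge_atTop 3)).exists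
  refine ⟨Nat.pair n ⌊c * n⌋₊, (Lo_iff _ _ _ _ _).2 ⟨h3, (half_iff h3 _).2 h1, ?_⟩⟩
  set m : ℕ := ⌊c * n⌋₊ with hm
  have hn0 : (0 : ℝ) < n := by
    have : 0 < n := by omega
    exact_mod_cast this
  have hs0 : 0 < Real.sqrt n := Real.sqrt_pos.2 hn0
  have h2k : (0 : ℝ) < 2 ^ k := by positivity
  have hmge : c * n - 1 ≤ m := (Nat.sub_one_lt_floor (c * n)).le
  have hmn : c - 1 / (n : ℝ) ≤ (m : ℝ) / n := by
    rw [le_div_iff₀ hn0]
    have : (c - 1 / (n : ℝ)) * n = c * n - 1 := by field_simp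
    rw [this]; exact hmge
  have h4 : (a : ℝ) / 2 ^ k + C / Real.sqrt n ≤ (m : ℝ) / n := by linarith
  have h5 : (C : ℝ) / Real.sqrt n = C * Real.sqrt n / n := by
    rw [div_eq_div_iff hs0.ne' hn0.ne', mul_assoc, Real.mul_self_sqrt hn0.le]
  rw [h5] at h4
  have h6 : (C : ℝ) * Real.sqrt n * 2 ^ k ≤ (m : ℝ) * 2 ^ k - a * n := by
    have h7 : (a : ℝ) / 2 ^ k ≤ ((m : ℝ) - C * Real.sqrt n) / n := by
      rw [sub_div]; linarith
    rw [div_le_div_iff₀ h2k hn0] at h7
    nlinarith [h7]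
  have hle : a * n ≤ m * 2 ^ k := by
    have h8 : (0 : ℝ) ≤ (C : ℝ) * Real.sqrt n * 2 ^ k := by positivity
    have h9 : (a : ℝ) * n ≤ (m : ℝ) * 2 ^ k := by linarith
    exact_mod_cast h9
  have hcast : ((m * 2 ^ k - a * n : ℕ) : ℝ) = m * 2 ^ k - a * n := by
    rw [Nat.cast_sub hle]; push_cast; ring
  have h10 : ((C : ℝ) * Real.sqrt n * 2 ^ k) ^ 2 ≤ ((m : ℝ) * 2 ^ k - a * n) ^ 2 :=
    pow_le_pow_left₀ (by positivity) h6 2
  have h11 : ((C : ℝ) * Real.sqrt n * 2 ^ k) ^ 2 = ((C : ℝ) ^ 2 * n) * (2 ^ k) ^ 2 := by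
    rw [mul_pow, mul_pow, Real.sq_sqrt hn0.le]
  rw [h11, ← hcast] at h10
  exact_mod_cast h10

/-- **Left certificate.**  From helper888's left cut statement. -/
theorem exists_left_certificate {α : ℝ} (hα : IsSharpThreshold (satProb 3) α)
    (hLC : ∃ C : ℝ, 0 ≤ C ∧ ∀ n m : ℕ, 3 ≤ n → (1 : ℝ) / 2 ≤ satProb 3 n m →
      (m : ℝ) / n ≤ α + C / Real.sqrt n) :
    ∃ Lo : ℕ × ℕ × ℕ → Bool, Computable Lo ∧
      (∀ a k w : ℕ, Lo (a, k, w) = true → (a : ℝ) / 2 ^ k ≤ α) ∧
      (∀ a k : ℕ, (a : ℝ) / 2 ^ k < α → ∃ w, Lo (a, k, w) = true) := by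
  obtain ⟨C, hC0, hC⟩ := hLC
  refine ⟨Lo (⌈C⌉₊ + 1), Lo_computable _, fun a k w h => ?_, fun a k h => Lo_complete _ hα a k h⟩
  refine Lo_sound (C := ⌈C⌉₊ + 1) (fun n m hn hP => (hC n m hn hP).trans ?_) (by omega) a k w h
  have h1 : C ≤ ((⌈C⌉₊ + 1 : ℕ) : ℝ) := by
    push_cast
    linarith [Nat.le_ceil C]
  have h2 : C / Real.sqrt n ≤ ((⌈C⌉₊ + 1 : ℕ) : ℝ) / Real.sqrt n :=
    div_le_div_of_nonneg_right h1 (Real.sqrt_nonneg _)
  linarith

end Crest.Agent.R153
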