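import Crest.Agent.R153.GridFinal
import Crest.Agent.R153.LeftCert
import Crest.Agent.R153.LeftCut
import Crest.Agent.R153.LevelDefs
import Mathlib
import Crest.Agent.R153.PressFin
import Crest.Agent.R153.Basic
import Crest.Agent.R141.KI0
import Crest.Agent.R153.SatLaw
import Crest.Agent.R141.KI

-- ▼ part R153/S0218Glue
section

/-!
Row 153: S0218 from S0217 (`k = 3`), the soundness of the right cut and the existence of negative
trials above the threshold.
-/

set_option autoImplicit false

namespace Crest.Agent.R153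

open Crest.ProbabilityR.RandomSAT

/-- The glue of S0218. -/
theorem s0218_of {α : ℝ} (hα : IsSharpThreshold (satProb 3) α)
    (hvar : ∃ C : ℝ, ∀ n : ℕ, 3 ≤ n →
      Summable (fun m : ℕ => satProb 3 n m) ∧
      Summable (fun m : ℕ => (2 * (m : ℝ) + 1) * satProb 3 n m) ∧
      (∑' m : ℕ, (2 * (m : ℝ) + 1) * satProb 3 n m)
          - (∑' m : ℕ, satProb 3 n m) ^ 2 ≤ C * n)
    (hU : ∀ c : ℝ, 0 < c → HasNegTrial c → α ≤ c)
    (hL : ∀ c : ℝ, 0 < c → α < c → HasNegTrial c) :
    ∃ f : ℕ → ℕ, Computable f ∧ ∀ r : ℕ, |(f r : ℝ) / 2 ^ r - α| ≤ 1 / 2 ^ r := by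
  have h0 := threshold_nonneg hα
  obtain ⟨Lo, hLo, lo1, lo2⟩ := exists_left_certificate hα (Wr.left_cut hα hvar)
  obtain ⟨Up, hUp, up1, up2⟩ := exists_right_certificate
  refine computable_of_cuts α h0 Lo Up hLo hUp lo1 lo2 (fun a k w h => ?_) (fun a k h => ?_)
  · obtain ⟨ha, hneg⟩ := up1 a k w h
    have ha' : (0 : ℝ) < a := by exact_mod_cast ha
    exact hU _ (by positivity) hneg
  · have hpos : (0 : ℝ) < (a : ℝ) / 2 ^ k := h0.trans_lt h
    have ha : 0 < a := by
      rcases Nat.eq_zero_or_pos a with h1 | h1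
      · rw [h1] at hpos; simp at hpos
      · exact h1
    exact up2 a k ha (hL _ hpos h)

end Crest.Agent.R153
end

-- ▼ part R153/Dict
section

/-! Row 153: dictionary between expectations over lists (`EL`) and uniform averages over
`Fin M → α`; exchangeability of `EL` (helper639). -/

set_option autoImplicit false

open Crest.ProbabilityR.RandomSAT

namespace Crest.Agent.R153

section general
variable {α : Type*} [Fintype α]

/-- `EL` is the uniform average over `Fin M → α` -/
theorem EL_eq_avg (M : ℕ) : ∀ f : List α → ℝ,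
    EL M f = avg (fun F : Fin M → α => f (List.ofFn F)) := by
  induction M with
  | zero =>
    intro f
    unfold avg
    simp [EL]
  | succ M ih =>
    intro f
    rw [EL_succ, avg_congr fun c => ih (fun F => f (c :: F))]
    unfold avg
    rw [← Finset.sum_div, div_div]
    congr 1
    · rw [← Finset.sum_product', Finset.univ_product_univ]
      refine Fintype.sum_equiv (Fin.consEquiv (fun _ : Fin (M + 1) => α)) _ _ ?_
      rintro ⟨c, F⟩
      simp [Fin.consEquiv, List.ofFn_succ]
    · rw [Fintype.card_fun, Fintype.card_fun, Fintype.card_fin, Fintype.card_fin, pow_succ]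
      push_cast; ring






end general

section sat
variable {k n : ℕ}

/-- the satisfiability probability as an expectation over lists, in terms of violated clauses -/
theorem satProb_eq_EL_mc (k n M : ℕ) :
    satProb k n M = EL M (fun F : List (Clause k n) => if mc F = 0 then (1 : ℝ) else 0) := by
  classical
  rw [EL_eq_avg]
  unfold satProb Crest.FinProb.uniformProb avg
  congr 1
  · rw [Finset.sum_boole]
    congr 2
    ext F
    simp only [Finset.mem_filter, Finset.mem_univ, true_and, Set.mem_ofPred_eq, mc_ofFn]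
    exact satisfiable_iff_minUnsat F



/-- average minimal number of violated clauses: list form and `Fin M → Clause k n` form -/
theorem EL_mc_eq (k n M : ℕ) :
    EL M (fun F : List (Clause k n) => (mc F : ℝ)) =
      avg (fun F : Fin M → Clause k n => (minUnsat F : ℝ)) := by
  rw [EL_eq_avg]
  exact avg_congr fun F => by rw [mc_ofFn]


end sat

end Crest.Agent.R153
end

-- ▼ part R153/RC2
section

/-! Row 153, RC2 (helper888): if the mean minimal number of violated clauses is linear at density
`c`, then at every density `c' > c` the pressure of soft 3-SAT is eventually at most `-1` for a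
large inverse temperature. -/

set_option autoImplicit false

open MeasureTheory Crest.ProbabilityR.Diluted Crest.ProbabilityR.RandomSAT Filter Topology
open Crest.Agent.R153.Wr

namespace Crest.Agent.R153.Br

section mcost

variable {N : ℕ} {C : Type*}

/-- minimal value of `h σ + Σ_{c ∈ F} v σ c` -/
noncomputable def mcost (v : (Fin N → Bool) → C → ℕ) (h : (Fin N → Bool) → ℕ) (F : List C) : ℕ :=
  Finset.univ.inf' Finset.univ_nonempty (fun σ => h σ + (F.map (v σ)).sum)

theorem mcost_le (v : (Fin N → Bool) → C → ℕ) (h : (Fin N → Bool) → ℕ) (F : List C)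
    (σ : Fin N → Bool) : mcost v h F ≤ h σ + (F.map (v σ)).sum :=
  Finset.inf'_le _ (Finset.mem_univ σ)

theorem exists_mcost (v : (Fin N → Bool) → C → ℕ) (h : (Fin N → Bool) → ℕ) (F : List C) :
    ∃ σ, h σ + (F.map (v σ)).sum = mcost v h F := by
  obtain ⟨σ, _, e⟩ := Finset.exists_mem_eq_inf' (Finset.univ_nonempty (α := Fin N → Bool))
    (fun σ => h σ + (F.map (v σ)).sum)
  exact ⟨σ, e.symm⟩

theorem mcost_cons (v : (Fin N → Bool) → C → ℕ) (h : (Fin N → Bool) → ℕ) (c : C) (F : List C) :
    mcost v h (c :: F) = mcost v (fun σ => h σ + v σ c) F := by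
  unfold mcost
  congr 1
  funext σ
  rw [List.map_cons, List.sum_cons]
  ring

theorem mcost_mono (v : (Fin N → Bool) → C → ℕ) {h h' : (Fin N → Bool) → ℕ}
    (hh : ∀ σ, h σ ≤ h' σ) (F : List C) : mcost v h F ≤ mcost v h' F := by
  obtain ⟨σ, e⟩ := exists_mcost v h' F
  have := mcost_le v h F σ
  have := hh σ
  omega

theorem mcost_add_le (v : (Fin N → Bool) → C → ℕ) {h h' : (Fin N → Bool) → ℕ}
    (hh : ∀ σ, h' σ ≤ h σ + 1) (F : List C) : mcost v h' F ≤ mcost v h F + 1 := by
  obtain ⟨σ, e⟩ := exists_mcost v h F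
  have := mcost_le v h' F σ
  have := hh σ
  omega

end mcost

variable {N : ℕ}

/-- with-repetition form of a clause -/
def toW {N : ℕ} (c : Clause 3 N) : WClause 3 (Fin N) := fun i => (c.1.1 i, c.2 i)

theorem wv_toW (σ : Fin N → Bool) (c : Clause 3 N) : wv σ (toW c) = viol σ c := by
  unfold wv viol toW ClauseSat
  by_cases h : ∃ i, σ (c.1.1 i) = c.2 i
  · rw [if_pos h, if_neg]
    push Not
    obtain ⟨i, hi⟩ := h
    refine ⟨i, ?_⟩
    simp [hi]
  · rw [if_neg h, if_pos]
    push Not at h
    intro i
    have := h i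
    revert this
    cases σ (c.1.1 i) <;> cases c.2 i <;> simp

theorem wv_le_one (σ : Fin N → Bool) (c : WClause 3 (Fin N)) : wv σ c ≤ 1 := by
  unfold wv; split_ifs <;> norm_num

theorem toW_injective : Function.Injective (toW (N := N)) := by
  intro c d h
  have h1 : ∀ i, (c.1.1 i, c.2 i) = (d.1.1 i, d.2 i) := fun i => congrFun h i
  refine Prod.ext (Subtype.ext (funext fun i => ?_)) (funext fun i => ?_)
  · exact (Prod.mk.inj (h1 i)).1
  · exact (Prod.mk.inj (h1 i)).2

theorem card_ratio (hN : 3 ≤ N) :
    (Fintype.card (Clause 3 N) : ℝ) = qd 3 N * (Fintype.card (WClause 3 (Fin N)) : ℝ) := by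
  have hn : (N : ℝ) ≠ 0 := by
    have : 0 < N := by omega
    positivity
  rw [card_clause]
  unfold qd
  simp only [Fintype.card_fun, Fintype.card_prod, Fintype.card_fin, Fintype.card_bool]
  push_cast
  field_simp
  norm_num

/-- averaging over with-repetition clauses -/
theorem avg_wr_ge (hN : 3 ≤ N) (G : WClause 3 (Fin N) → ℝ) (g0 : ℝ) (h0 : ∀ w, g0 ≤ G w)
    (h1 : ∀ c : Clause 3 N, G (toW c) ≤ g0 + 1) :
    avg (fun c : Clause 3 N => G (toW c)) - (1 - qd 3 N) ≤ avg G := by
  classical
  have hne : Nonempty (Clause 3 N) := ⟨(⟨fun i => ⟨i, by omega⟩, fun i j h => by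
    simpa [Fin.ext_iff] using h⟩, fun _ => true)⟩
  have hC : (0 : ℝ) < Fintype.card (Clause 3 N) := by exact_mod_cast Fintype.card_pos
  have hr := card_ratio hN
  have hq1 := qd_le_one 3 N
  have hW : (0 : ℝ) < Fintype.card (WClause 3 (Fin N)) := by
    have hneW : Nonempty (WClause 3 (Fin N)) := ⟨toW hne.some⟩
    exact_mod_cast Fintype.card_pos
  have hq0 : 0 < qd 3 N := by
    by_contra hcon
    push Not at hcon
    nlinarith
  -- sum over the image
  have hs : ∑ w, (G w - g0) ≥ ∑ c : Clause 3 N, (G (toW c) - g0) := by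
    rw [← Finset.sum_image (s := Finset.univ) (g := toW) (f := fun w => G w - g0)
      (fun a _ b _ h => toW_injective h)]
    exact Finset.sum_le_sum_of_subset_of_nonneg (Finset.subset_univ _)
      (fun w _ _ => by linarith [h0 w])
  rw [Finset.sum_sub_distrib, Finset.sum_sub_distrib, Finset.sum_const, Finset.sum_const,
    Finset.card_univ, Finset.card_univ, nsmul_eq_mul, nsmul_eq_mul] at hs
  have hA : avg (fun c : Clause 3 N => G (toW c)) ≤ g0 + 1 := by
    refine (avg_mono h1).trans (le_of_eq (avg_const _))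
  have eA : ∑ c : Clause 3 N, G (toW c) =
      avg (fun c : Clause 3 N => G (toW c)) * (Fintype.card (Clause 3 N) : ℝ) := by
    unfold avg; field_simp
  rw [eA] at hs
  generalize avg (fun c : Clause 3 N => G (toW c)) = A at *
  have eG : avg G = (∑ w, G w) / (Fintype.card (WClause 3 (Fin N)) : ℝ) := rfl
  rw [eG, le_div_iff₀ hW]
  rw [hr] at hs
  generalize (Fintype.card (WClause 3 (Fin N)) : ℝ) = W at *
  have : 0 ≤ (1 - qd 3 N) * W * (g0 + 1 - A) :=
    mul_nonneg (mul_nonneg (by linarith) hW.le) (by linarith)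
  nlinarith

/-- comparison of the mean minimal costs of the two models -/
theorem EL_wr_ge (hN : 3 ≤ N) (M : ℕ) : ∀ h : (Fin N → Bool) → ℕ,
    EL M (fun F : List (Clause 3 N) => (mcost viol h F : ℝ)) - M * (1 - qd 3 N) ≤
      EL M (fun F : List (WClause 3 (Fin N)) => (mcost wv h F : ℝ)) := by
  have hne : Nonempty (Clause 3 N) := ⟨(⟨fun i => ⟨i, by omega⟩, fun i j h => by
    simpa [Fin.ext_iff] using h⟩, fun _ => true)⟩
  have hneW : Nonempty (WClause 3 (Fin N)) := ⟨toW hne.some⟩
  induction M with
  | zero =>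
    intro h
    simp only [EL, Nat.cast_zero, zero_mul, sub_zero]
    apply le_of_eq
    congr 1
  | succ M ih =>
    intro h
    rw [EL_succ, EL_succ]
    simp only [mcost_cons]
    set G : WClause 3 (Fin N) → ℝ := fun w =>
      EL M (fun F : List (Clause 3 N) => (mcost viol (fun σ => h σ + wv σ w) F : ℝ)) with hG
    have h1 : avg (fun c : Clause 3 N => G (toW c)) - (1 - qd 3 N) ≤ avg G := by
      refine avg_wr_ge hN G (EL M (fun F : List (Clause 3 N) => (mcost viol h F : ℝ)))
        (fun w => EL_mono fun F => ?_) (fun c => ?_)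
      · exact_mod_cast mcost_mono viol (fun σ => Nat.le_add_right _ _) F
      · have e : EL M (fun F : List (Clause 3 N) => (mcost viol h F : ℝ)) + 1 =
            EL M (fun F : List (Clause 3 N) => (mcost viol h F : ℝ) + 1) := by
          rw [EL_add, EL_const]
        rw [e]
        refine EL_mono fun F => ?_
        exact_mod_cast mcost_add_le viol (fun σ => by
          have := wv_le_one σ (toW c); omega) F
    have h2 : avg G - M * (1 - qd 3 N) ≤ avg (fun w : WClause 3 (Fin N) =>
        EL M (fun F : List (WClause 3 (Fin N)) => (mcost wv (fun σ => h σ + wv σ w) F : ℝ))) := by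
      have e : avg G - M * (1 - qd 3 N) = avg (fun w => G w - M * (1 - qd 3 N)) := by
        rw [avg_sub, avg_const]
      rw [e]
      exact avg_mono fun w => ih _
    have h3 : (fun c : Clause 3 N => G (toW c)) = fun c : Clause 3 N =>
        EL M (fun F : List (Clause 3 N) => (mcost viol (fun σ => h σ + viol σ c) F : ℝ)) := by
      funext c
      simp only [hG, wv_toW]
    rw [h3] at h1
    push_cast
    linarith

theorem mcost_zero_eq_mc (F : List (Clause 3 N)) : mcost viol (fun _ => 0) F = mc F := by
  unfold mcost mc vc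
  simp

/-- mean minimal cost of `M` with-repetition clauses -/
noncomputable def aW (N M : ℕ) : ℝ :=
  EL M (fun F : List (WClause 3 (Fin N)) => (mcost wv (fun _ => 0) F : ℝ))

theorem aW_ge (hN : 3 ≤ N) (M : ℕ) :
    avg (fun F : Fin M → Clause 3 N => (minUnsat F : ℝ)) - M * (1 - qd 3 N) ≤ aW N M := by
  have := EL_wr_ge hN M (fun _ => 0)
  simp only [mcost_zero_eq_mc] at this
  rwa [EL_mc_eq] at this

theorem aW_nonneg (N M : ℕ) : 0 ≤ aW N M := EL_nonneg fun F => Nat.cast_nonneg _

theorem aW_mono (hN : 3 ≤ N) : Monotone (aW N) := by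
  have hneW : Nonempty (WClause 3 (Fin N)) := ⟨fun _ => (⟨0, by omega⟩, true)⟩
  refine monotone_nat_of_le_succ fun M => ?_
  unfold aW
  rw [EL_succ]
  rw [← avg_const (α := WClause 3 (Fin N))
    (EL M (fun F : List (WClause 3 (Fin N)) => (mcost wv (fun _ => 0) F : ℝ)))]
  refine avg_mono fun w => EL_mono fun F => ?_
  rw [mcost_cons]
  exact_mod_cast mcost_mono wv (fun σ => Nat.zero_le _) F

/-! ### the partition function -/

theorem logZ_le {β : ℝ} (hβ : 0 ≤ β) {M : ℕ} (F : Fin M → WClause 3 (Fin N)) :
    logZ β F ≤ N * Real.log 2 - β * (mcost wv (fun _ => 0) (List.ofFn F) : ℝ) := by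
  unfold logZ
  have hpos : 0 < ∑ σ : Fin N → Bool, Real.exp (-β * ∑ j, (wv σ (F j) : ℝ)) :=
    Finset.sum_pos (fun _ _ => Real.exp_pos _) Finset.univ_nonempty
  rw [Real.log_le_iff_le_exp hpos]
  have h1 : ∀ σ : Fin N → Bool, Real.exp (-β * ∑ j, (wv σ (F j) : ℝ)) ≤
      Real.exp (-(β * (mcost wv (fun _ => 0) (List.ofFn F) : ℝ))) := by
    intro σ
    apply Real.exp_le_exp.2
    have h2 := mcost_le wv (fun _ => 0) (List.ofFn F) σ
    rw [List.map_ofFn, List.sum_ofFn, zero_add] at h2
    have h3 : (mcost wv (fun _ => 0) (List.ofFn F) : ℝ) ≤ ∑ j, (wv σ (F j) : ℝ) := by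
      exact_mod_cast h2
    have := mul_le_mul_of_nonneg_left h3 hβ
    linarith
  refine (Finset.sum_le_sum fun σ _ => h1 σ).trans ?_
  rw [Finset.sum_const, Finset.card_univ, nsmul_eq_mul, Fintype.card_fun, Fintype.card_bool,
    Fintype.card_fin, sub_eq_add_neg, Real.exp_add, mul_comm (N : ℝ), Real.exp_mul,
    Real.exp_log (by norm_num)]
  push_cast
  rw [Real.rpow_natCast]

theorem logZ_ge {β : ℝ} (hβ : 0 ≤ β) {M : ℕ} (F : Fin M → WClause 3 (Fin N)) :
    -(β * M) ≤ logZ β F := by
  unfold logZ
  have hpos : 0 < ∑ σ : Fin N → Bool, Real.exp (-β * ∑ j, (wv σ (F j) : ℝ)) :=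
    Finset.sum_pos (fun _ _ => Real.exp_pos _) Finset.univ_nonempty
  rw [Real.le_log_iff_exp_le hpos]
  refine le_trans ?_ (Finset.single_le_sum (f := fun σ : Fin N → Bool =>
    Real.exp (-β * ∑ j, (wv σ (F j) : ℝ))) (fun _ _ => (Real.exp_pos _).le)
    (Finset.mem_univ (fun _ => true)))
  apply Real.exp_le_exp.2
  have h1 : ∑ j, (wv (fun _ => true) (F j) : ℝ) ≤ ∑ _j : Fin M, (1 : ℝ) :=
    Finset.sum_le_sum fun j _ => by exact_mod_cast wv_le_one _ _
  simp only [Finset.sum_const, Finset.card_univ, Fintype.card_fin, nsmul_eq_mul, mul_one] at h1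
  have := mul_le_mul_of_nonneg_left h1 hβ
  linarith

theorem avg_logZ_le {β : ℝ} (hβ : 0 ≤ β) (hN : 3 ≤ N) (M : ℕ) :
    avg (fun F : Fin M → WClause 3 (Fin N) => logZ β F) ≤ N * Real.log 2 - β * aW N M := by
  have hneW : Nonempty (WClause 3 (Fin N)) := ⟨fun _ => (⟨0, by omega⟩, true)⟩
  refine (avg_mono fun F => logZ_le hβ F).trans (le_of_eq ?_)
  rw [avg_sub, avg_const, avg_const_mul]
  congr 2
  unfold aW
  rw [EL_eq_avg]

theorem avg_logZ_ge {β : ℝ} (hβ : 0 ≤ β) (hN : 3 ≤ N) (M : ℕ) :
    -(β * M) ≤ avg (fun F : Fin M → WClause 3 (Fin N) => logZ β F) := by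
  have hneW : Nonempty (WClause 3 (Fin N)) := ⟨fun _ => (⟨0, by omega⟩, true)⟩
  refine le_trans (le_of_eq ?_) (avg_mono fun F => logZ_ge hβ F)
  rw [avg_const]

/-- upper bound for the pressure -/
theorem pressure_le {c' β : ℝ} (hc' : 0 ≤ c') (hβ : 0 ≤ β) (hN : 3 ≤ N) (m0 : ℕ) {t : ℝ}
    (ht : 0 < t) (hm : (m0 : ℝ) + t ≤ c' * N + 1) :
    pressure 3 c' (muSAT β) (Measure.dirac 0) N ≤
      Real.log 2 - β * ((1 - c' * N / t ^ 2) * aW N m0) / N := by
  have hN0 : (0 : ℝ) < N := by
    have : 0 < N := by omega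
    exact_mod_cast this
  have hlam : 0 ≤ c' * (N : ℝ) := by positivity
  rw [pressure_muSAT]
  have hlog : 0 ≤ Real.log 2 := Real.log_nonneg (by norm_num)
  have ha := aW_nonneg N m0
  -- summability
  have hsum : Summable (fun M : ℕ => pw (c' * N) M *
      avg (fun F : Fin M → WClause 3 (Fin N) => logZ β F)) := by
    have hb : Summable (fun M : ℕ => pw (c' * N) M * (N * Real.log 2 + β * M)) := by
      have := ((pw_summable (c' * N)).mul_left (N * Real.log 2)).add
        ((pw_moment_one (c' * N)).summable.mul_left β)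
      refine this.congr fun M => ?_
      ring
    refine Summable.of_norm_bounded hb fun M => ?_
    rw [norm_mul, Real.norm_of_nonneg (pw_nonneg hlam M)]
    refine mul_le_mul_of_nonneg_left ?_ (pw_nonneg hlam M)
    rw [Real.norm_eq_abs, abs_le]
    have h1 := avg_logZ_le hβ hN M
    have h2 := avg_logZ_ge hβ hN M
    have h3 : 0 ≤ β * aW N M := mul_nonneg hβ (aW_nonneg N M)
    have h4 : 0 ≤ (N : ℝ) * Real.log 2 := by positivity
    have h5 : 0 ≤ β * M := by positivity
    constructor <;> linarith
  have h5 : HasSum (fun i : ℕ => if i ∈ Finset.range m0 then pw (c' * N) i else 0)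
      (∑ i ∈ Finset.range m0, if i ∈ Finset.range m0 then pw (c' * N) i else 0) :=
    hasSum_sum_of_ne_finset_zero (fun b hb => if_neg hb)
  rw [Finset.sum_congr rfl fun i hi => if_pos hi] at h5
  have hR : HasSum (fun M : ℕ => (N * Real.log 2 - β * aW N m0) * pw (c' * N) M +
      β * aW N m0 * (if M ∈ Finset.range m0 then pw (c' * N) M else 0))
      ((N * Real.log 2 - β * aW N m0) * 1 +
        β * aW N m0 * ∑ i ∈ Finset.range m0, pw (c' * N) i) :=
    ((pw_hasSum _).mul_left _).add (h5.mul_left _)
  have key : ∑' M : ℕ, pw (c' * N) M * avg (fun F : Fin M → WClause 3 (Fin N) => logZ β F) ≤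
      (N * Real.log 2 - β * aW N m0) * 1 +
        β * aW N m0 * ∑ i ∈ Finset.range m0, pw (c' * N) i := by
    refine hasSum_le (fun M => ?_) hsum.hasSum hR
    have h1 := avg_logZ_le hβ hN M
    have hp := pw_nonneg hlam M
    by_cases hM : M ∈ Finset.range m0
    · rw [if_pos hM]
      have h3 : 0 ≤ β * aW N M := mul_nonneg hβ (aW_nonneg N M)
      have : pw (c' * N) M * avg (fun F : Fin M → WClause 3 (Fin N) => logZ β F) ≤
          pw (c' * N) M * (N * Real.log 2) := mul_le_mul_of_nonneg_left (by linarith) hp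
      linarith
    · rw [if_neg hM]
      have hM' : m0 ≤ M := by simpa using hM
      have h3 : β * aW N m0 ≤ β * aW N M := mul_le_mul_of_nonneg_left (aW_mono hN hM') hβ
      have : pw (c' * N) M * avg (fun F : Fin M → WClause 3 (Fin N) => logZ β F) ≤
          pw (c' * N) M * (N * Real.log 2 - β * aW N m0) :=
        mul_le_mul_of_nonneg_left (by linarith) hp
      linarith
  have h6 := pw_range_le hlam m0 ht hm
  have h7 : β * aW N m0 * ∑ i ∈ Finset.range m0, pw (c' * N) i ≤
      β * aW N m0 * (c' * N / t ^ 2) := mul_le_mul_of_nonneg_left h6 (mul_nonneg hβ ha)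
  have h8 := mul_le_mul_of_nonneg_left (key.trans (add_le_add le_rfl h7))
    (by positivity : (0 : ℝ) ≤ 1 / (N : ℝ))
  refine h8.trans (le_of_eq ?_)
  field_simp
  ring


end Crest.Agent.R153.Br
end

-- ▼ part R153/Levels
section

/-! Row 153: the occupation times of the energy levels (helper211), part G4.

`lenJ J F` = number of prefixes of `F` with minimal cost exactly `J`; `lossJ J c F` = number of
prefixes of `F` whose minimal cost is `≤ J`, but `> J` once the clause `c` is added.

`J * (lenJ J F)^2 ≤ Σ_i (lossJ (J-1) F_i (F without F_i))^2`. -/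

set_option autoImplicit false

open Crest.ProbabilityR.RandomSAT

namespace Crest.Agent.R153

section er
variable {α : Type*}

/-- `Σ_i g (F_i) (F without its i-th entry)` -/
def er (g : α → List α → ℝ) : List α → ℝ
  | [] => 0
  | c :: F => g c F + er (fun d G => g d (c :: G)) F

theorem er_nil (g : α → List α → ℝ) : er g [] = 0 := by simp only [er]

theorem er_cons (g : α → List α → ℝ) (c : α) (F : List α) :
    er g (c :: F) = g c F + er (fun d G => g d (c :: G)) F := by simp only [er]

theorem er_nonneg : ∀ (F : List α) {g : α → List α → ℝ}, (∀ c G, 0 ≤ g c G) → 0 ≤ er g F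
  | [], g, _ => by rw [er_nil]
  | c :: F, g, h => by
    rw [er_cons]
    exact add_nonneg (h c F) (er_nonneg F fun d G => h d (c :: G))

theorem er_append_ge : ∀ (A B : List α) {g : α → List α → ℝ}, (∀ c G, 0 ≤ g c G) →
    er (fun c G => g c (G ++ B)) A ≤ er g (A ++ B)
  | [], B, g, h => by
    rw [er_nil, List.nil_append]
    exact er_nonneg B h
  | a :: A, B, g, h => by
    rw [er_cons, List.cons_append, er_cons]
    have := er_append_ge A B (g := fun d G => g d (a :: G)) (fun d G => h d (a :: G))
    simp only [List.cons_append]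
    linarith

/-- exchangeability -/
theorem EL_er [Fintype α] : ∀ (M : ℕ) (g : α → List α → ℝ),
    EL (M + 1) (er g) = (M + 1 : ℝ) * avg (fun c => EL M (g c)) := by
  intro M
  induction M with
  | zero =>
    intro g
    rw [EL_succ]
    simp only [Nat.cast_zero, zero_add, one_mul]
    refine avg_congr fun c => ?_
    show er g [c] = g c []
    rw [er_cons, er_nil, add_zero]
  | succ M ih =>
    intro g
    rw [EL_succ]
    have h1 : ∀ c : α, EL (M + 1) (fun F => er g (c :: F)) =
        EL (M + 1) (g c) + (M + 1 : ℝ) * avg (fun d => EL M (fun G => g d (c :: G))) := by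
      intro c
      rw [EL_congr fun F => er_cons g c F, EL_add]
      congr 1
      exact ih (fun d G => g d (c :: G))
    rw [avg_congr h1, avg_add, avg_const_mul, avg_comm]
    have h2 : avg (fun d => avg (fun c => EL M (fun G => g d (c :: G)))) =
        avg (fun d => EL (M + 1) (g d)) := rfl
    rw [h2]
    push_cast
    ring

end er

variable {k n : ℕ}

/-- number of prefixes (from the empty one to `F` itself) with minimal cost exactly `J` -/
noncomputable def lenJ (J : ℕ) (F : List (Clause k n)) : ℕ :=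
  ((Finset.range (F.length + 1)).filter (fun m => mc (F.take m) = J)).card

/-- number of prefixes with minimal cost `≤ J` for which adding `c` gives minimal cost `> J` -/
noncomputable def lossJ (J : ℕ) (c : Clause k n) (F : List (Clause k n)) : ℕ :=
  ((Finset.range (F.length + 1)).filter
    (fun m => mc (F.take m) ≤ J ∧ J < mc (c :: F.take m))).card

theorem er_ge (σ : Asg n) (v : ℝ) : ∀ (A : List (Clause k n))
    {g : Clause k n → List (Clause k n) → ℝ}, (∀ c G, 0 ≤ g c G) →
    (∀ c G, (c :: G).Perm A → viol σ c = 1 → v ≤ g c G) →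
    v * (vc σ A : ℝ) ≤ er g A
  | [], g, _, _ => by simp [er_nil]
  | a :: A, g, h0, h => by
    rw [er_cons, vc_cons]
    push_cast
    have ih := er_ge σ v A (g := fun d G => g d (a :: G)) (fun d G => h0 d (a :: G))
      (fun c G hp hc => h c (a :: G) ((List.Perm.swap a c G).trans (hp.cons a)) hc)
    have h1 : v * (viol σ a : ℝ) ≤ g a A := by
      rcases Nat.lt_or_ge (viol σ a) 1 with hv | hv
      · have : viol σ a = 0 := by omega
        rw [this]
        simpa using h0 a A
      · have : viol σ a = 1 := le_antisymm (viol_le_one σ a) hv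
        rw [this]
        simpa using h a A (List.Perm.refl _) this
    linarith

theorem loss_ge {J : ℕ} (hJ : 1 ≤ J) (F : List (Clause k n)) (T : ℕ) (hTF : T ≤ F.length)
    (hlev : ∀ m, mc (F.take m) = J → T ≤ m) (σ : Asg n)
    (hσ : ∀ m, m ≤ F.length → mc (F.take m) = J → vc σ (F.take m) = J)
    (c : Clause k n) (G : List (Clause k n)) (hperm : (c :: G).Perm (F.take T))
    (hc : viol σ c = 1) : lenJ J F ≤ lossJ (J - 1) c (G ++ F.drop T) := by
  have hlen : G.length + 1 = T := by
    have := hperm.length_eq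
    rw [List.length_cons, List.length_take, min_eq_left hTF] at this
    exact this
  have hlen2 : (G ++ F.drop T).length + 1 = F.length := by
    rw [List.length_append, List.length_drop]; omega
  refine Finset.card_le_card_of_injOn (fun m => m - 1) ?_ ?_
  · intro m hm
    simp only [Finset.coe_filter, Finset.mem_range, Set.mem_ofPred_eq] at hm ⊢
    obtain ⟨hm1, hm2⟩ := hm
    have hTm : T ≤ m := hlev m hm2
    have e1 : F.take m = F.take T ++ (F.drop T).take (m - T) := by
      conv_lhs => rw [show m = T + (m - T) by omega]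
      rw [List.take_add]
    have e2 : (G ++ F.drop T).take (m - 1) = G ++ (F.drop T).take (m - T) := by
      rw [List.take_append, List.take_of_length_le (by omega)]
      congr 2
      omega
    have e3 : (c :: (G ++ (F.drop T).take (m - T))).Perm (F.take m) := by
      rw [e1, ← List.cons_append]
      exact hperm.append_right _
    have e4 := vc_perm σ e3
    rw [hσ m (by omega) hm2, vc_cons, hc] at e4
    refine ⟨by omega, ?_, ?_⟩
    · rw [e2]
      refine (mc_le σ _).trans ?_
      omega
    · rw [e2, mc_perm e3, hm2]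
      omega
  · intro m hm m' hm' h
    simp only [Finset.coe_filter, Finset.mem_range, Set.mem_ofPred_eq] at hm hm' h
    have h1 := hlev m hm.2
    have h2 := hlev m' hm'.2
    omega

theorem core_le {J : ℕ} (hJ : 1 ≤ J) (F : List (Clause k n)) :
    (J : ℝ) * (lenJ J F : ℝ) ^ 2 ≤ er (fun c G => (lossJ (J - 1) c G : ℝ) ^ 2) F := by
  have hnn : ∀ (c : Clause k n) (G : List (Clause k n)), (0 : ℝ) ≤ (lossJ (J - 1) c G : ℝ) ^ 2 :=
    fun c G => by positivity
  set S := (Finset.range (F.length + 1)).filter (fun m => mc (F.take m) = J) with hS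
  rcases S.eq_empty_or_nonempty with hemp | hne
  · have : lenJ J F = 0 := by
      unfold lenJ; rw [← hS, hemp, Finset.card_empty]
    rw [this]
    simpa using er_nonneg F hnn
  · set T := S.min' hne with hT
    set U := S.max' hne with hU
    have hTS : T ∈ S := S.min'_mem hne
    have hUS : U ∈ S := S.max'_mem hne
    have hTF : T ≤ F.length := by
      have := (Finset.mem_filter.1 hTS).1
      rw [Finset.mem_range] at this; omega
    have hTJ : mc (F.take T) = J := (Finset.mem_filter.1 hTS).2
    have hUJ : mc (F.take U) = J := (Finset.mem_filter.1 hUS).2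
    have hlev' : ∀ m, m ≤ F.length → mc (F.take m) = J → T ≤ m := by
      intro m hm1 hm2
      exact S.min'_le m (Finset.mem_filter.2 ⟨Finset.mem_range.2 (by omega), hm2⟩)
    have hlev : ∀ m, mc (F.take m) = J → T ≤ m := by
      intro m hm
      rcases le_or_gt m F.length with h | h
      · exact hlev' m h hm
      · exact hTF.trans h.le
    obtain ⟨σ, hσ0⟩ := exists_mc (F.take U)
    have hσ : ∀ m, m ≤ F.length → mc (F.take m) = J → vc σ (F.take m) = J := by
      intro m hm1 hm2
      apply le_antisymm
      · have hmU : m ≤ U := S.le_max' m (Finset.mem_filter.2 ⟨Finset.mem_range.2 (by omega), hm2⟩)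
        have : vc σ (F.take m) ≤ vc σ (F.take U) :=
          vc_sublist σ (List.take_sublist_take_left hmU)
        omega
      · have := mc_le σ (F.take m)
        omega
    have h1 := er_append_ge (F.take T) (F.drop T) hnn
    rw [List.take_append_drop] at h1
    refine le_trans ?_ h1
    have h2 := er_ge σ ((lenJ J F : ℝ) ^ 2) (F.take T)
      (g := fun c G => (lossJ (J - 1) c (G ++ F.drop T) : ℝ) ^ 2) (fun c G => hnn c _)
      (fun c G hp hc => by
        have := loss_ge hJ F T hTF hlev σ hσ c G hp hc
        have h3 : (lenJ J F : ℝ) ≤ (lossJ (J - 1) c (G ++ F.drop T) : ℝ) := by exact_mod_cast this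
        exact pow_le_pow_left₀ (Nat.cast_nonneg _) h3 2)
    rw [hσ T hTF hTJ] at h2
    linarith

/-- expectation form -/
theorem EL_core {J : ℕ} (hJ : 1 ≤ J) (M : ℕ) (A : ℝ)
    (hA : avg (fun c : Clause k n => EL M (fun F => (lossJ (J - 1) c F : ℝ) ^ 2)) ≤ A) :
    (J : ℝ) * EL (M + 1) (fun F : List (Clause k n) => (lenJ J F : ℝ) ^ 2) ≤ (M + 1) * A := by
  rw [← EL_const_mul]
  refine (EL_mono fun F => core_le hJ F).trans ?_
  have e := EL_er M (fun (c : Clause k n) F => (lossJ (J - 1) c F : ℝ) ^ 2)
  refine (le_of_eq e).trans ?_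
  exact mul_le_mul_of_nonneg_left hA (by positivity)

theorem EL_lenJ_le {J : ℕ} (hJ : 1 ≤ J) (M : ℕ) (A : ℝ)
    (hA : avg (fun c : Clause k n => EL M (fun F => (lossJ (J - 1) c F : ℝ) ^ 2)) ≤ A) :
    EL (M + 1) (fun F : List (Clause k n) => (lenJ J F : ℝ)) ≤
      Real.sqrt ((M + 1) * A) * (1 / Real.sqrt J) := by
  have h1 := EL_core hJ M A hA
  have hJ0 : (0 : ℝ) < J := by exact_mod_cast hJ
  have h2 := sq_EL_le (M + 1) (fun F : List (Clause k n) => (lenJ J F : ℝ))
  have h3 : EL (M + 1) (fun F : List (Clause k n) => (lenJ J F : ℝ)) ^ 2 ≤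
      ((M + 1) * A) / J := by
    rw [le_div_iff₀ hJ0]
    nlinarith
  refine (Real.le_sqrt_of_sq_le h3).trans (le_of_eq ?_)
  rw [Real.sqrt_div' _ hJ0.le]
  ring

theorem sum_inv_sqrt_le (D : ℕ) :
    ∑ J ∈ Finset.Icc 1 D, (1 / Real.sqrt J) ≤ 2 * Real.sqrt D := by
  induction D with
  | zero => simp
  | succ D ih =>
    rw [Finset.sum_Icc_succ_top (by omega)]
    have h0 : (0 : ℝ) < Real.sqrt ((D : ℝ) + 1) := Real.sqrt_pos.2 (by positivity)
    have h1 : Real.sqrt ((D : ℝ) + 1) ^ 2 = D + 1 := Real.sq_sqrt (by positivity)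
    have h2 : Real.sqrt (D : ℝ) ^ 2 = D := Real.sq_sqrt (by positivity)
    have h3 : 0 ≤ Real.sqrt (D : ℝ) := Real.sqrt_nonneg _
    have h4 : 1 / Real.sqrt ((D : ℝ) + 1) ≤ 2 * Real.sqrt ((D : ℝ) + 1) - 2 * Real.sqrt D := by
      rw [div_le_iff₀ h0]
      nlinarith [sq_nonneg (Real.sqrt ((D : ℝ) + 1) - Real.sqrt (D : ℝ))]
    push_cast
    linarith

/-- total time spent in the levels `1, …, D` -/
theorem EL_sum_lenJ_le (D M : ℕ) (A : ℝ)
    (hA : ∀ J, 1 ≤ J → J ≤ D →
      avg (fun c : Clause k n => EL M (fun F => (lossJ (J - 1) c F : ℝ) ^ 2)) ≤ A) :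
    EL (M + 1) (fun F : List (Clause k n) => ∑ J ∈ Finset.Icc 1 D, (lenJ J F : ℝ)) ≤
      2 * Real.sqrt ((M + 1) * A) * Real.sqrt D := by
  rw [EL_sum]
  calc ∑ J ∈ Finset.Icc 1 D, EL (M + 1) (fun F : List (Clause k n) => (lenJ J F : ℝ))
      ≤ ∑ J ∈ Finset.Icc 1 D, Real.sqrt ((M + 1) * A) * (1 / Real.sqrt J) :=
        Finset.sum_le_sum fun J hJ => by
          rw [Finset.mem_Icc] at hJ
          exact EL_lenJ_le hJ.1 M A (hA J hJ.1 hJ.2)
    _ = Real.sqrt ((M + 1) * A) * ∑ J ∈ Finset.Icc 1 D, (1 / Real.sqrt J) := by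
        rw [Finset.mul_sum]
    _ ≤ Real.sqrt ((M + 1) * A) * (2 * Real.sqrt D) :=
        mul_le_mul_of_nonneg_left (sum_inv_sqrt_le D) (Real.sqrt_nonneg _)
    _ = _ := by ring

/-- counting: the prefixes between `m₀` and `M` all have level in `1..D` unless `F.take m₀` is
satisfiable or the final level exceeds `D` -/
theorem sum_lenJ_ge (D m₀ : ℕ) (F : List (Clause k n)) (hm : m₀ ≤ F.length) :
    ((F.length : ℝ) - m₀) * (1 - (if mc (F.take m₀) = 0 then 1 else 0) - (mc F : ℝ) / (D + 1)) ≤
      ∑ J ∈ Finset.Icc 1 D, (lenJ J F : ℝ) := by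
  have hnn : (0 : ℝ) ≤ ∑ J ∈ Finset.Icc 1 D, (lenJ J F : ℝ) :=
    Finset.sum_nonneg fun J _ => Nat.cast_nonneg _
  have hlm : (0 : ℝ) ≤ (F.length : ℝ) - m₀ := by
    have : (m₀ : ℝ) ≤ F.length := by exact_mod_cast hm
    linarith
  have hD : (0 : ℝ) < (D : ℝ) + 1 := by positivity
  have hq : (0 : ℝ) ≤ (mc F : ℝ) / (D + 1) := by positivity
  by_cases h0 : mc (F.take m₀) = 0
  · rw [if_pos h0]
    refine le_trans ?_ hnn
    exact mul_nonpos_of_nonneg_of_nonpos hlm (by linarith)
  rw [if_neg h0]
  by_cases hF : D < mc F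
  · refine le_trans ?_ hnn
    refine mul_nonpos_of_nonneg_of_nonpos hlm ?_
    have : (1 : ℝ) ≤ (mc F : ℝ) / (D + 1) := by
      rw [le_div_iff₀ hD, one_mul]
      exact_mod_cast hF
    linarith
  push Not at hF
  have h1 : ((Finset.Icc m₀ F.length).card : ℝ) ≤ ∑ J ∈ Finset.Icc 1 D, (lenJ J F : ℝ) := by
    have h2 : (Finset.Icc m₀ F.length) ⊆ (Finset.Icc 1 D).biUnion (fun J =>
        (Finset.range (F.length + 1)).filter (fun m => mc (F.take m) = J)) := by
      intro m hm'
      rw [Finset.mem_Icc] at hm'
      rw [Finset.mem_biUnion]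
      refine ⟨mc (F.take m), ?_, ?_⟩
      · rw [Finset.mem_Icc]
        have h3 : mc (F.take m₀) ≤ mc (F.take m) :=
          mc_sublist (List.take_sublist_take_left hm'.1)
        have h4 : mc (F.take m) ≤ mc F := mc_sublist (List.take_sublist _ _)
        omega
      · rw [Finset.mem_filter, Finset.mem_range]
        exact ⟨by omega, rfl⟩
    have h5 := (Finset.card_le_card h2).trans Finset.card_biUnion_le
    have h6 : (((Finset.Icc m₀ F.length).card : ℕ) : ℝ) ≤
        ((∑ J ∈ Finset.Icc 1 D, lenJ J F : ℕ) : ℝ) := by exact_mod_cast h5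
    rw [Nat.cast_sum] at h6
    exact h6
  rw [Nat.card_Icc] at h1
  have h7 : ((F.length + 1 - m₀ : ℕ) : ℝ) = F.length + 1 - m₀ := by
    rw [Nat.cast_sub (by omega)]; push_cast; ring
  rw [h7] at h1
  have h8 : ((F.length : ℝ) - m₀) * (1 - 0 - (mc F : ℝ) / (D + 1)) ≤ (F.length : ℝ) - m₀ := by
    have : (1 - 0 - (mc F : ℝ) / (D + 1)) ≤ 1 := by linarith
    nlinarith
  linarith

end Crest.Agent.R153
private theorem rz_13566d4fbb : type_of% @_root_.Crest.Agent.R153.er.eq_def := @_root_.Crest.Agent.R153.er.eq_def -- L20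
private theorem rz_edbb3199b5 : type_of% @_root_.Crest.Agent.R153.er.eq_1 := @_root_.Crest.Agent.R153.er.eq_1 -- L20
end

-- ▼ part R153/GeomAbs
section

/-! Row 153: abstract geometric domination (helper857). -/

set_option autoImplicit false

namespace Crest.Agent.R153

section geomAbs

variable {α S : Type*} [Fintype α]

/-- number of visits with `b = 1` along the list of steps -/
noncomputable def visits (step : S → α → S) (b : S → ℝ) : S → List α → ℝ
  | s, [] => b s
  | s, c :: F => b s + visits step b (step s c) F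


theorem visits_dead (step : S → α → S) (b : S → ℝ) (dead : S → Prop)
    (hb : ∀ s, dead s → b s = 0) (hd : ∀ s c, dead s → dead (step s c)) :
    ∀ (F : List α) (s : S), dead s → visits step b s F = 0
  | [], s, h => hb s h
  | c :: F, s, h => by
    show b s + visits step b (step s c) F = 0
    rw [hb s h, visits_dead step b dead hb hd F _ (hd s c h), add_zero]

/-- first and second moments of the number of visits -/
theorem EL_visits (step : S → α → S) (b : S → ℝ) (alive : S → ℝ) (p : ℝ) (hp : 0 < p) (hp1 : p ≤ 1)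
    (hb : ∀ s, b s = 0 ∨ b s = 1) (hal : ∀ s, alive s = 0 ∨ alive s = 1)
    (hdead : ∀ s, alive s = 0 → b s = 0)
    (hstep : ∀ s c, alive s = 0 → alive (step s c) = 0)
    (hkill : ∀ s, b s = 1 → avg (fun c => alive (step s c)) ≤ 1 - p) (M : ℕ) :
    ∀ s : S, EL M (fun F => visits step b s F) ≤ alive s * (1 / p) ∧
      EL M (fun F => (visits step b s F) ^ 2) ≤ alive s * (2 / p ^ 2) := by
  have hb0 : ∀ s, 0 ≤ b s := fun s => by rcases hb s with h | h <;> rw [h] <;> norm_num
  have hp' : (1 : ℝ) ≤ 1 / p := by rw [le_div_iff₀ hp]; linarith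
  have hp2 : (1 : ℝ) ≤ 2 / p ^ 2 := by
    rw [le_div_iff₀ (by positivity)]; nlinarith
  have hzero : ∀ (M : ℕ) (s : S), alive s = 0 →
      EL M (fun F => visits step b s F) = 0 ∧ EL M (fun F => (visits step b s F) ^ 2) = 0 := by
    intro M s hs
    have hv : ∀ F : List α, visits step b s F = 0 := fun F =>
      visits_dead step b (fun s => alive s = 0) hdead hstep F s hs
    constructor
    · rw [EL_congr hv, EL_zero_fun]
    · rw [EL_congr (g := fun _ => (0 : ℝ)) (fun F => by rw [hv F]; norm_num), EL_zero_fun]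
  induction M with
  | zero =>
    intro s
    rcases hal s with hs | hs
    · have h := hzero 0 s hs
      rw [h.1, h.2, hs]; simp
    · show b s ≤ _ ∧ (b s) ^ 2 ≤ _
      rw [hs, one_mul, one_mul]
      rcases hb s with h | h <;> rw [h]
      · constructor <;> [linarith; (norm_num; linarith)]
      · constructor <;> [linarith; (norm_num; linarith)]
  | succ M ih =>
    intro s
    rcases hal s with hs | hs
    · have h := hzero (M + 1) s hs
      rw [h.1, h.2, hs]; simp
    rw [hs, one_mul, one_mul]
    have hne : avg (fun _ : α => (1 : ℝ)) ≤ 1 := avg_const_le zero_le_one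
    have ha1 : ∀ c, alive (step s c) ≤ 1 := fun c => by
      rcases hal (step s c) with h | h <;> rw [h] <;> norm_num
    have ha0 : ∀ c, 0 ≤ alive (step s c) := fun c => by
      rcases hal (step s c) with h | h <;> rw [h] <;> norm_num
    have hav0 : 0 ≤ avg (fun c => alive (step s c)) := avg_nonneg ha0
    have hav1 : avg (fun c => alive (step s c)) ≤ 1 := (avg_mono ha1).trans hne
    have e1 : EL (M + 1) (fun F => visits step b s F) =
        avg (fun c => EL M (fun F => b s + visits step b (step s c) F)) := rfl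
    have e2 : EL (M + 1) (fun F => (visits step b s F) ^ 2) =
        avg (fun c => EL M (fun F => (b s + visits step b (step s c) F) ^ 2)) := rfl
    have i1 : avg (fun c => EL M (fun F => visits step b (step s c) F)) ≤
        avg (fun c => alive (step s c)) * (1 / p) := by
      rw [← avg_mul_const]; exact avg_mono fun c => (ih (step s c)).1
    have i2 : avg (fun c => EL M (fun F => (visits step b (step s c) F) ^ 2)) ≤
        avg (fun c => alive (step s c)) * (2 / p ^ 2) := by
      rw [← avg_mul_const]; exact avg_mono fun c => (ih (step s c)).2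
    rcases hb s with h | h
    · constructor
      · rw [e1, h]
        simp only [zero_add]
        refine i1.trans ?_
        calc avg (fun c => alive (step s c)) * (1 / p) ≤ 1 * (1 / p) :=
              mul_le_mul_of_nonneg_right hav1 (by positivity)
          _ = 1 / p := one_mul _
      · rw [e2, h]
        simp only [zero_add]
        refine i2.trans ?_
        calc avg (fun c => alive (step s c)) * (2 / p ^ 2) ≤ 1 * (2 / p ^ 2) :=
              mul_le_mul_of_nonneg_right hav1 (by positivity)
          _ = 2 / p ^ 2 := one_mul _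
    · have hk := hkill s h
      have j1 : avg (fun c => EL M (fun F => b s + visits step b (step s c) F)) ≤
          1 + avg (fun c => EL M (fun F => visits step b (step s c) F)) := by
        rw [h]
        have : ∀ c, EL M (fun F => (1 : ℝ) + visits step b (step s c) F) ≤
            1 + EL M (fun F => visits step b (step s c) F) := fun c => by
          rw [EL_add]; have := EL_const_le (α := α) (M := M) (c := 1) zero_le_one; linarith
        refine (avg_mono this).trans ?_
        rw [avg_add]; linarith
      have j2 : avg (fun c => EL M (fun F => (b s + visits step b (step s c) F) ^ 2)) ≤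
          1 + 2 * avg (fun c => EL M (fun F => visits step b (step s c) F)) +
            avg (fun c => EL M (fun F => (visits step b (step s c) F) ^ 2)) := by
        rw [h]
        have : ∀ c, EL M (fun F => ((1 : ℝ) + visits step b (step s c) F) ^ 2) ≤
            1 + 2 * EL M (fun F => visits step b (step s c) F) +
              EL M (fun F => (visits step b (step s c) F) ^ 2) := fun c => by
          have e : ∀ F : List α, ((1 : ℝ) + visits step b (step s c) F) ^ 2 =
              (1 + 2 * visits step b (step s c) F) + (visits step b (step s c) F) ^ 2 := fun F => by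
            ring
          rw [EL_congr e, EL_add, EL_add, EL_const_mul]
          have := EL_const_le (α := α) (M := M) (c := 1) zero_le_one; linarith
        refine (avg_mono this).trans ?_
        rw [avg_add, avg_add, avg_const_mul]; linarith
      set q := avg (fun c => alive (step s c)) with hq
      have hpp : (1 : ℝ) / p * p = 1 := by field_simp
      have hp22 : (2 : ℝ) / p ^ 2 * p = 2 * (1 / p) := by field_simp
      have k1 : q * (1 / p) ≤ (1 - p) * (1 / p) := mul_le_mul_of_nonneg_right hk (by positivity)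
      have k2 : q * (2 / p ^ 2) ≤ (1 - p) * (2 / p ^ 2) :=
        mul_le_mul_of_nonneg_right hk (by positivity)
      constructor
      · rw [e1]; refine j1.trans ?_; nlinarith
      · rw [e2]; refine j2.trans ?_; nlinarith

/-- `E (visits ^ 2) ≤ 2 / p ^ 2` -/
theorem EL_visits_sq_le (step : S → α → S) (b : S → ℝ) (alive : S → ℝ) (p : ℝ) (hp : 0 < p)
    (hp1 : p ≤ 1)
    (hb : ∀ s, b s = 0 ∨ b s = 1) (hal : ∀ s, alive s = 0 ∨ alive s = 1)
    (hdead : ∀ s, alive s = 0 → b s = 0)
    (hstep : ∀ s c, alive s = 0 → alive (step s c) = 0)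
    (hkill : ∀ s, b s = 1 → avg (fun c => alive (step s c)) ≤ 1 - p) (M : ℕ) (s : S) :
    EL M (fun F => (visits step b s F) ^ 2) ≤ 2 / p ^ 2 := by
  refine (EL_visits step b alive p hp hp1 hb hal hdead hstep hkill M s).2.trans ?_
  have h2 : (0 : ℝ) ≤ 2 / p ^ 2 := by positivity
  rcases hal s with h | h <;> rw [h]
  · simpa using h2
  · simp

end geomAbs

end Crest.Agent.R153
end

-- ▼ part R153/SatFact
section

/-!
# Row 153: the 3-SAT interaction law has a nonnegative factorization (helper354)
-/

set_option autoImplicit false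

open MeasureTheory Crest.ProbabilityR.Diluted Crest.Agent.R141

namespace Crest.Agent.R153

/-- fair coin on `Bool` -/
noncomputable def coinB : Measure Bool :=
  (2 : ENNReal)⁻¹ • (Measure.dirac true + Measure.dirac false)

theorem coinB_singleton (b : Bool) : coinB {b} = 2⁻¹ := by
  unfold coinB
  cases b <;> simp

instance : IsProbabilityMeasure coinB := by
  constructor
  unfold coinB
  simp only [Measure.smul_apply, Measure.add_apply, measure_univ, smul_eq_mul]
  rw [one_add_one_eq_two]
  exact ENNReal.inv_mul_cancel (by norm_num) (by norm_num)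

/-- three fair coins -/
noncomputable def coin3 : Measure (Fin 3 → Bool) := Measure.pi fun _ => coinB

instance : IsProbabilityMeasure coin3 := by unfold coin3; infer_instance

theorem coin3_eq : coin3 = (8 : ENNReal)⁻¹ • ∑ J : Fin 3 → Bool, Measure.dirac J := by
  apply Measure.ext_of_singleton
  intro ω
  unfold coin3
  rw [Measure.pi_singleton]
  simp only [coinB_singleton, Finset.prod_const, Finset.card_univ, Fintype.card_fin,
    Measure.smul_apply, Measure.finsetSum_apply, smul_eq_mul]
  rw [Finset.sum_eq_single ω]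
  · simp only [Measure.dirac_apply, Set.indicator_of_mem, Set.mem_singleton_iff, Pi.one_apply,
      mul_one]
    rw [← ENNReal.inv_pow]
    norm_num
  · intro J _ hJ
    simp [hJ]
  · simp

theorem map_coin3 (β : ℝ) : coin3.map (satInter β) = muSAT β := by
  have hmeas : Measurable (satInter β) := (measurable_of_countable _)
  refine Measure.ext fun s hs => ?_
  rw [Measure.map_apply hmeas hs, coin3_eq, muSAT_eq]
  simp only [Measure.smul_apply, Measure.finsetSum_apply, smul_eq_mul]
  congr 1
  refine Finset.sum_congr rfl fun J _ => ?_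
  rw [Measure.dirac_apply' _ (hmeas hs), Measure.dirac_apply' _ hs]
  rfl

/-- The 3-SAT law has a factorization with nonnegative site functions. -/
theorem hasFactorizationNN_muSAT {β : ℝ} (hβ : 0 ≤ β) : HasFactorizationNN 3 (muSAT β) := by
  have hb0 : 0 ≤ 1 - Real.exp (-β) := by
    have : Real.exp (-β) ≤ 1 := Real.exp_le_one_iff.mpr (by linarith)
    linarith
  have hb1 : 1 - Real.exp (-β) < 1 := by
    have := Real.exp_pos (-β)
    linarith
  refine ⟨Fin 3 → Bool, inferInstance, coin3, inferInstance, fun _ => 1,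
    fun _ => Real.exp (-β) - 1, fun ℓ ω e => if e = ω ℓ then 1 else 0,
    measurable_const, measurable_const, fun ℓ => (measurable_of_countable _), ?_, ?_, ?_, ?_, ?_, ?_, ?_⟩
  · -- independence
    have := ProbabilityTheory.iIndepFun_pi (μ := fun _ : Fin 3 => coinB)
      (X := fun _ : Fin 3 => fun (c : Bool) (e : Bool) => (if e = c then (1 : ℝ) else 0))
      (fun _ => (measurable_of_countable _).aemeasurable)
    exact this
  · intro ℓ
    refine ⟨(measurable_of_countable _).aemeasurable, (measurable_of_countable _).aemeasurable, ?_⟩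
    have h : ∀ i : Fin 3, coin3.map (fun ω => fun e : Bool => if e = ω i then (1 : ℝ) else 0) =
        coinB.map (fun (c : Bool) (e : Bool) => (if e = c then (1 : ℝ) else 0)) := by
      intro i
      have h1 : coin3.map (fun ω => ω i) = coinB := by
        have := (measurePreserving_eval (fun _ : Fin 3 => coinB) i).map_eq
        exact this
      conv_rhs => rw [← h1]
      exact (Measure.map_map (g := fun (c : Bool) (e : Bool) => (if e = c then (1 : ℝ) else 0))
        (measurable_of_countable _) (measurable_pi_apply i)).symm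
    rw [h ℓ, h ⟨0, Fin.pos ℓ⟩]
  · exact ProbabilityTheory.indepFun_const_left _ _
  · refine Filter.Eventually.of_forall fun ω => ⟨one_pos, fun s => ?_⟩
    have hprod : |∏ ℓ : Fin 3, (if s ℓ = ω ℓ then (1 : ℝ) else 0)| ≤ 1 := by
      rw [Finset.abs_prod]
      refine Finset.prod_le_one (fun _ _ => abs_nonneg _) fun i _ => ?_
      split_ifs <;> simp
    rw [abs_mul]
    have hb : |Real.exp (-β) - 1| < 1 := by
      rw [abs_sub_comm, abs_of_nonneg hb0]; exact hb1
    calc |Real.exp (-β) - 1| * |∏ ℓ : Fin 3, (if s ℓ = ω ℓ then (1 : ℝ) else 0)|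
        ≤ |Real.exp (-β) - 1| * 1 := by
          exact mul_le_mul_of_nonneg_left hprod (abs_nonneg _)
      _ < 1 := by rw [mul_one]; exact hb
  · intro n _
    refine ⟨integrable_const _, ?_⟩
    rw [integral_const]
    refine smul_nonneg (by positivity) (pow_nonneg ?_ _)
    linarith
  · rw [← map_coin3 β]
    congr 1
    funext ω s
    unfold satInter
    by_cases h : s = ω
    · subst h
      simp
    · have : ∃ ℓ, s ℓ ≠ ω ℓ := by
        by_contra hcon
        push Not at hcon
        exact h (funext hcon)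
      obtain ⟨ℓ, hℓ⟩ := this
      have h0 : (∏ ℓ : Fin 3, (if s ℓ = ω ℓ then (1 : ℝ) else 0)) = 0 :=
        Finset.prod_eq_zero (Finset.mem_univ ℓ) (if_neg hℓ)
      rw [if_neg h]
      simp only [h0]
      simp
  · intro ℓ
    refine Filter.Eventually.of_forall fun ω e => ?_
    show (0 : ℝ) ≤ if e = ω ℓ then 1 else 0
    split_ifs <;> norm_num

end Crest.Agent.R153
end

-- ▼ part R153/SatKI

/-!
# Row 153: the key inequality for the 3-SAT law (helper354)
-/

set_option autoImplicit false

open MeasureTheory Crest.ProbabilityR.Diluted Crest.Agent.R141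

namespace Crest.Agent.R153

theorem kiProp_muSAT {β : ℝ} (hβ : 0 ≤ β) : KIProp 3 (muSAT β) :=
  kiProp_of_factorizationNN (by norm_num) (muSAT β) (integrable_muSAT β _)
    (hasFactorizationNN_muSAT hβ)

end Crest.Agent.R153
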