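import Crest.Agent.R153.Tail
import Crest.Agent.R153.LossSq

/-! Row 153 (S0217), task VAR: variance recursion and passage to `satProb`. -/

set_option autoImplicit false

open Crest.ProbabilityR.RandomSAT

namespace Crest.Agent.R153

theorem nonempty_clause_var {k n : ℕ} (hkn : k ≤ n) : Nonempty (Clause k n) :=
  ⟨(⟨Fin.castLE hkn, Fin.castLE_injective hkn⟩, fun _ => true)⟩

/-- loss is larger for a longer history -/
theorem loss_cutL_le {k n : ℕ} {X Y : Finset (Asg n)} (h : Y ⊆ X) (G F : List (Clause k n)) :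
    hit (cutL X G) F - hit (cutL Y G) F ≤ hit X (G ++ F) - hit Y (G ++ F) := by
  induction G generalizing X Y with
  | nil => exact le_rfl
  | cons c G ih =>
    have h1 := ih (cut_mono h c)
    have h2 := ne_mono h
    show hit (cutL (cut X c) G) F - hit (cutL (cut Y c) G) F ≤
      (ne X + hit (cut X c) (G ++ F)) - (ne Y + hit (cut Y c) (G ++ F))
    linarith

theorem cutLit_cutL {k n : ℕ} (X : Finset (Asg n)) (G : List (Clause k n)) (l : Fin n × Bool) :
    cutLit (cutL X G) l = cutL (cutLit X l) G := by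
  ext σ; simp only [mem_cutL, mem_cutLit]; tauto

/-- the variance of `hit` -/
noncomputable def VV {k n : ℕ} (M : ℕ) (X : Finset (Asg n)) : ℝ :=
  EL M (fun F : List (Clause k n) => (hit X F) ^ 2) -
    (EL M (fun F : List (Clause k n) => hit X F)) ^ 2

/-- second moment of the loss of a literal -/
noncomputable def LL {k n : ℕ} (M : ℕ) (X : Finset (Asg n)) : ℝ :=
  EL M (fun F : List (Clause k n) =>
    avg (fun l : Fin n × Bool => (hit X F - hit (cutLit X l) F) ^ 2))

theorem VV_succ_le {m n : ℕ} (hn : m + 1 ≤ n) (M : ℕ) (X : Finset (Asg n)) :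
    VV (k := m + 1) (M + 1) X ≤ avg (fun c : Clause (m + 1) n => VV (k := m + 1) M (cut X c)) +
      LL (k := m + 1) M X := by
  have := nonempty_clause_var hn
  set h : Clause (m + 1) n → ℝ := fun c =>
    EL M (fun F : List (Clause (m + 1) n) => hit (cut X c) F) with hh
  set a : ℝ := EL M (fun F : List (Clause (m + 1) n) => hit X F) with ha
  have e1 : EL (M + 1) (fun F : List (Clause (m + 1) n) => hit X F) = ne X + avg h := by
    rw [EL_succ]
    have : ∀ c : Clause (m + 1) n, EL M (fun F => hit X (c :: F)) = ne X + h c := by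
      intro c
      show EL M (fun F => ne X + hit (cut X c) F) = _
      rw [EL_add, EL_const]
    rw [avg_congr this, avg_add, avg_const]
  have e2 : EL (M + 1) (fun F : List (Clause (m + 1) n) => (hit X F) ^ 2) =
      (ne X) ^ 2 + 2 * ne X * avg h +
        avg (fun c : Clause (m + 1) n =>
          EL M (fun F : List (Clause (m + 1) n) => (hit (cut X c) F) ^ 2)) := by
    rw [EL_succ]
    have : ∀ c : Clause (m + 1) n, EL M (fun F => (hit X (c :: F)) ^ 2) =
        (ne X) ^ 2 + 2 * ne X * h c +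
          EL M (fun F : List (Clause (m + 1) n) => (hit (cut X c) F) ^ 2) := by
      intro c
      have e : (fun F : List (Clause (m + 1) n) => (hit X (c :: F)) ^ 2) = fun F =>
          ((ne X) ^ 2 + (2 * ne X) * hit (cut X c) F) + (hit (cut X c) F) ^ 2 := by
        funext F
        show (ne X + hit (cut X c) F) ^ 2 = _
        ring
      rw [e, EL_add, EL_add, EL_const, EL_const_mul]
    rw [avg_congr this, avg_add, avg_add, avg_const, avg_const_mul]
  have e3 : avg (fun c : Clause (m + 1) n => VV (k := m + 1) M (cut X c)) =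
      avg (fun c : Clause (m + 1) n =>
        EL M (fun F : List (Clause (m + 1) n) => (hit (cut X c) F) ^ 2)) -
        avg (fun c => h c ^ 2) := by
    rw [← avg_sub]; rfl
  have e4 : avg (fun c => (a - h c) ^ 2) = a ^ 2 - 2 * a * avg h + avg (fun c => h c ^ 2) := by
    have e : (fun c : Clause (m + 1) n => (a - h c) ^ 2) =
        fun c => (a ^ 2 + (-2 * a) * h c) + h c ^ 2 := by
      funext c; ring
    rw [e, avg_add, avg_add, avg_const, avg_const_mul]; ring
  have e5 : avg (fun c : Clause (m + 1) n => (a - h c) ^ 2) ≤ LL (k := m + 1) M X := by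
    have s1 : avg (fun c : Clause (m + 1) n => (a - h c) ^ 2) ≤
        avg (fun c : Clause (m + 1) n => EL M (fun F : List (Clause (m + 1) n) =>
          (hit X F - hit (cut X c) F) ^ 2)) := by
      refine avg_mono fun c => ?_
      rw [ha, hh, ← EL_sub]
      exact sq_EL_le _ _
    refine s1.trans ?_
    rw [← EL_avg_comm]
    unfold LL
    exact EL_mono fun F => avg_loss_sq_le_lit hn X F
  unfold VV at e3 ⊢
  rw [e1, e2, e3]
  nlinarith [sq_nonneg (a - avg h), e4, e5]

theorem EL_VV_le {m n : ℕ} (hn : m + 1 ≤ n) (D : ℝ)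
    (hD : ∀ M' : ℕ, LL (k := m + 1) (n := n) M' Finset.univ ≤ D) (M : ℕ) : ∀ g : ℕ,
    EL g (fun G : List (Clause (m + 1) n) => VV (k := m + 1) M (cutL Finset.univ G)) ≤ M * D := by
  have := nonempty_clause_var hn
  induction M with
  | zero =>
    intro g
    have : ∀ G : List (Clause (m + 1) n), VV (k := m + 1) 0 (cutL Finset.univ G) = 0 := by
      intro G
      unfold VV
      show (hit _ ([] : List (Clause (m + 1) n))) ^ 2 - (hit _ ([] : List (Clause (m + 1) n))) ^ 2 = 0
      ring
    rw [EL_congr this, EL_zero_fun]; simp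
  | succ M ih =>
    intro g
    have s1 : EL g (fun G : List (Clause (m + 1) n) => VV (k := m + 1) (M + 1) (cutL Finset.univ G))
        ≤ EL g (fun G : List (Clause (m + 1) n) =>
            avg (fun c : Clause (m + 1) n => VV (k := m + 1) M (cut (cutL Finset.univ G) c)) +
              LL (k := m + 1) M (cutL Finset.univ G)) :=
      EL_mono fun G => VV_succ_le hn M _
    rw [EL_add] at s1
    have s2 : EL g (fun G : List (Clause (m + 1) n) =>
        avg (fun c : Clause (m + 1) n => VV (k := m + 1) M (cut (cutL Finset.univ G) c))) ≤ M * D := by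
      have := ih (g + 1)
      rw [EL_append] at this
      have e : ∀ G : List (Clause (m + 1) n),
          avg (fun c : Clause (m + 1) n => VV (k := m + 1) M (cut (cutL Finset.univ G) c)) =
          EL 1 (fun G' => VV (k := m + 1) M (cutL Finset.univ (G ++ G'))) := by
        intro G
        rw [EL_one]
        refine avg_congr fun c => ?_
        rw [cutL_append]; rfl
      rw [EL_congr e]; exact this
    have s3 : EL g (fun G : List (Clause (m + 1) n) => LL (k := m + 1) M (cutL Finset.univ G)) ≤ D := by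
      refine le_trans ?_ (hD (g + M))
      unfold LL
      rw [EL_append]
      refine EL_mono fun G => EL_mono fun F => avg_mono fun l => ?_
      rw [cutLit_cutL]
      have h1 := loss_cutL_le (cutLit_subset Finset.univ l) G F
      have h2 := hit_mono (cutL_mono (cutLit_subset Finset.univ l) G) F
      exact pow_le_pow_left₀ (by linarith) h1 2
    push_cast
    linarith

/-- variance of `hit` is at most (number of clauses) x (second moment of the loss of a literal) -/
theorem var_hit_le {j n : ℕ} (hn : j + 3 ≤ n) (M : ℕ) (D : ℝ)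
    (hD : ∀ M' : ℕ, DD j n 0 M' ≤ D) :
    EL M (fun F : List (Clause (j + 3) n) => (hit Finset.univ F) ^ 2) -
      (EL M (fun F : List (Clause (j + 3) n) => hit Finset.univ F)) ^ 2 ≤ M * D :=
  EL_VV_le (m := j + 2) hn D hD M 0

/-- `EL` as a normalised sum over functions -/
theorem EL_eq_sum {α : Type*} [Fintype α] (M : ℕ) : ∀ f : List α → ℝ,
    EL M f = (∑ c : Fin M → α, f (List.ofFn c)) / (Fintype.card α : ℝ) ^ M := by
  induction M with
  | zero => intro f; simp [EL]
  | succ M ih =>
    intro f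
    rw [EL_succ, avg_congr fun c => ih (fun F => f (c :: F))]
    unfold avg
    rw [← Finset.sum_div, div_div, pow_succ]
    congr 1
    rw [← Finset.sum_product', Finset.univ_product_univ]
    refine Fintype.sum_equiv (Fin.consEquiv (fun _ : Fin (M + 1) => α)) _ _ ?_
    rintro ⟨c, F⟩
    simp [Fin.consEquiv, List.ofFn_succ]

theorem ne_cutL_ofFn {k n M : ℕ} (F : Fin M → Clause k n) [Decidable (Satisfiable F)] :
    ne (cutL Finset.univ (List.ofFn F)) = if Satisfiable F then 1 else 0 := by
  have h : (cutL Finset.univ (List.ofFn F)).Nonempty ↔ Satisfiable F := by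
    constructor
    · rintro ⟨σ, hσ⟩
      refine ⟨σ, fun i => (mem_cutL.1 hσ).2 _ ?_⟩
      rw [List.mem_ofFn]; exact ⟨i, rfl⟩
    · rintro ⟨σ, hσ⟩
      refine ⟨σ, mem_cutL.2 ⟨Finset.mem_univ _, fun c hc => ?_⟩⟩
      rw [List.mem_ofFn] at hc
      obtain ⟨i, rfl⟩ := hc
      exact hσ i
  split_ifs with hs
  · exact ne_of_nonempty (h.2 hs)
  · exact ne_eq_zero (fun hn => hs (h.1 hn))

theorem EL_ne_eq_satProb' {k n : ℕ} (M : ℕ) :
    EL M (fun F : List (Clause k n) => ne (cutL Finset.univ F)) = satProb k n M := by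
  classical
  rw [EL_eq_sum]
  unfold satProb Crest.FinProb.uniformProb
  congr 1
  · rw [Finset.sum_congr rfl fun F _ => ne_cutL_ofFn F, Finset.sum_boole]
    congr 2
  · rw [Fintype.card_fun, Fintype.card_fin]; push_cast; rfl



theorem hit_eq_sum {k n : ℕ} (X : Finset (Asg n)) (F : List (Clause k n)) :
    hit X F = ∑ t ∈ Finset.range (F.length + 1), ne (cutL X (F.take t)) := by
  induction F generalizing X with
  | nil => simp [hit, cutL]
  | cons c F ih =>
    rw [List.length_cons, Finset.sum_range_succ']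
    show ne X + hit (cut X c) F = _
    rw [ih (cut X c), add_comm]
    congr 1

theorem hit_sq_eq_sum {k n : ℕ} (X : Finset (Asg n)) (F : List (Clause k n)) :
    (hit X F) ^ 2 = ∑ t ∈ Finset.range (F.length + 1),
      (2 * (t : ℝ) + 1) * ne (cutL X (F.take t)) := by
  induction F generalizing X with
  | nil =>
    by_cases h : X.Nonempty
    · simp [hit, cutL, ne_of_nonempty h]
    · simp [hit, cutL, ne_eq_zero h]
  | cons c F ih =>
    rw [List.length_cons, Finset.sum_range_succ']
    show (ne X + hit (cut X c) F) ^ 2 = _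
    have e1 : ∑ t ∈ Finset.range (F.length + 1), (2 * ((t + 1 : ℕ) : ℝ) + 1) *
        ne (cutL X ((c :: F).take (t + 1))) =
        ∑ t ∈ Finset.range (F.length + 1), (2 * (t : ℝ) + 1) * ne (cutL (cut X c) (F.take t)) +
        2 * ∑ t ∈ Finset.range (F.length + 1), ne (cutL (cut X c) (F.take t)) := by
      rw [Finset.mul_sum, ← Finset.sum_add_distrib]
      refine Finset.sum_congr rfl fun t _ => ?_
      show (2 * ((t + 1 : ℕ) : ℝ) + 1) * ne (cutL (cut X c) (F.take t)) = _
      push_cast; ring
    rw [e1, ← ih (cut X c), ← hit_eq_sum]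
    by_cases h : X.Nonempty
    · have h0 : ne (cutL X (List.take 0 (c :: F))) = 1 := ne_of_nonempty h
      rw [h0, ne_of_nonempty h]; push_cast; ring
    · have h0 : ne (cutL X (List.take 0 (c :: F))) = 0 := ne_eq_zero h
      have h1 : hit (cut X c) F = 0 := by
        have : cut X c = ∅ := by
          rw [Finset.not_nonempty_iff_eq_empty] at h
          rw [h]; exact Finset.subset_empty.1 (cut_subset ∅ c)
        rw [this, hit_empty]
      rw [h0, ne_eq_zero h, h1]; push_cast; ring

theorem EL_take {α : Type*} [Fintype α] [Nonempty α] {t M : ℕ} (h : t ≤ M) (f : List α → ℝ) :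
    EL M (fun F => f (F.take t)) = EL t f := by
  obtain ⟨s, rfl⟩ := Nat.exists_eq_add_of_le h
  rw [EL_append]
  refine EL_congr' fun F hF => ?_
  rw [EL_congr (g := fun _ => f F) fun G => by rw [← hF, List.take_left]]
  exact EL_const _ _

theorem EL_hit_eq {k n : ℕ} (hkn : k ≤ n) (M : ℕ) :
    EL M (fun F : List (Clause k n) => hit Finset.univ F) =
      ∑ m ∈ Finset.range (M + 1), satProb k n m := by
  have := nonempty_clause_var hkn
  rw [EL_congr' (g := fun F => ∑ t ∈ Finset.range (M + 1), ne (cutL Finset.univ (F.take t)))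
    fun F hF => by rw [hit_eq_sum, hF], EL_sum]
  refine Finset.sum_congr rfl fun t ht => ?_
  rw [EL_take (f := fun F : List (Clause k n) => ne (cutL Finset.univ F))
    (Nat.lt_succ_iff.1 (Finset.mem_range.1 ht)), EL_ne_eq_satProb']

theorem EL_hit_sq_eq {k n : ℕ} (hkn : k ≤ n) (M : ℕ) :
    EL M (fun F : List (Clause k n) => (hit Finset.univ F) ^ 2) =
      ∑ m ∈ Finset.range (M + 1), (2 * (m : ℝ) + 1) * satProb k n m := by
  have := nonempty_clause_var hkn
  rw [EL_congr' (g := fun F => ∑ t ∈ Finset.range (M + 1),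
    (2 * (t : ℝ) + 1) * ne (cutL Finset.univ (F.take t)))
    fun F hF => by rw [hit_sq_eq_sum, hF], EL_sum]
  refine Finset.sum_congr rfl fun t ht => ?_
  rw [EL_const_mul, EL_take (f := fun F : List (Clause k n) => ne (cutL Finset.univ F))
    (Nat.lt_succ_iff.1 (Finset.mem_range.1 ht)), EL_ne_eq_satProb']

/-- uniform variance bound for the truncated hitting times -/
theorem var_hit_unif {j : ℕ} (h : ∃ A : ℝ, ∀ n : ℕ, j + 3 ≤ n → ∀ M : ℕ, DD j n 0 M ≤ A) :
    ∃ C : ℝ, ∀ n : ℕ, j + 3 ≤ n → ∃ M₀ : ℕ, ∀ M : ℕ, M₀ ≤ M →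
      EL M (fun F : List (Clause (j + 3) n) => (hit Finset.univ F) ^ 2) -
        (EL M (fun F : List (Clause (j + 3) n) => hit Finset.univ F)) ^ 2 ≤ C * n := by
  obtain ⟨A, hA⟩ := h
  obtain ⟨C0, CT, hC0, hCT, hT⟩ := exists_tail (j + 3) (by omega)
  refine ⟨2 * C0 * |A| + 2 * CT, fun n hn => ⟨C0 * n, fun M hM => ?_⟩⟩
  have := nonempty_clause_var hn
  have hn1 : (1 : ℝ) ≤ n := by
    have : 1 ≤ n := by omega
    exact_mod_cast this
  set Y : List (Clause (j + 3) n) → ℝ := fun F => hit Finset.univ (F.take (C0 * n)) with hY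
  set R : List (Clause (j + 3) n) → ℝ := fun F => hit Finset.univ F - Y F with hR
  have hYsq : EL M (fun F => Y F ^ 2) = EL (C0 * n) (fun F : List (Clause (j + 3) n) =>
      (hit Finset.univ F) ^ 2) :=
    EL_take (f := fun F : List (Clause (j + 3) n) => (hit Finset.univ F) ^ 2) hM
  have hY1 : EL M Y = EL (C0 * n) (fun F : List (Clause (j + 3) n) => hit Finset.univ F) :=
    EL_take (f := fun F : List (Clause (j + 3) n) => hit Finset.univ F) hM
  have hvarY := var_hit_le hn (C0 * n) A (hA n hn)
  rw [← hYsq, ← hY1] at hvarY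
  have hRsq : EL M (fun F => R F ^ 2) ≤ CT := hT n hn M Finset.univ
  have e1 : (fun F : List (Clause (j + 3) n) => (hit Finset.univ F) ^ 2) =
      fun F => (Y F ^ 2 + R F ^ 2) + 2 * (Y F * R F) := by
    funext F; simp only [hR]; ring
  have e2 : (fun F : List (Clause (j + 3) n) => hit Finset.univ F) = fun F => Y F + R F := by
    funext F; simp only [hR]; ring
  have e3 : EL M (fun F => (Y F - R F) ^ 2) =
      (EL M (fun F => Y F ^ 2) + EL M (fun F => R F ^ 2)) - 2 * EL M (fun F => Y F * R F) := by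
    rw [← EL_add, ← EL_const_mul, ← EL_sub]
    exact EL_congr fun F => by ring
  have e4 := sq_EL_le M (fun F => Y F - R F)
  rw [EL_sub, e3] at e4
  rw [e1, e2, EL_add, EL_add, EL_add, EL_const_mul]
  have h5 : ((C0 * n : ℕ) : ℝ) * A ≤ C0 * n * |A| := by
    push_cast
    exact mul_le_mul_of_nonneg_left (le_abs_self A) (by positivity)
  have h6 : 2 * CT ≤ 2 * CT * n := by nlinarith
  nlinarith [sq_nonneg (EL M R)]

theorem summable_satProb {k n : ℕ} (hkn : k ≤ n) :
    Summable (fun m : ℕ => satProb k n m) ∧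
      Summable (fun m : ℕ => (2 * (m : ℝ) + 1) * satProb k n m) := by
  set r : ℝ := 1 - 1 / 2 ^ k with hr
  have h2 : (1 : ℝ) ≤ 2 ^ k := one_le_pow₀ (by norm_num)
  have hr0 : 0 ≤ r := by
    rw [hr, sub_nonneg, div_le_one (by positivity)]; exact h2
  have hr1 : r < 1 := by
    have : (0 : ℝ) < 1 / 2 ^ k := by positivity
    linarith
  have hb : ∀ m : ℕ, satProb k n m ≤ 2 ^ n * r ^ m := by
    intro m
    rw [← EL_ne_eq_satProb']
    exact EL_ne_le hkn m Finset.univ
  have h0 : ∀ m : ℕ, 0 ≤ satProb k n m := by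
    intro m
    rw [← EL_ne_eq_satProb']
    exact EL_nonneg fun F => ne_nonneg _
  have hs1 : Summable (fun m : ℕ => (2 : ℝ) ^ n * r ^ m) :=
    (summable_geometric_of_lt_one hr0 hr1).mul_left _
  have hs2 : Summable (fun m : ℕ => (2 * (m : ℝ) + 1) * ((2 : ℝ) ^ n * r ^ m)) := by
    have hm : Summable (fun m : ℕ => (m : ℝ) ^ 1 * r ^ m) :=
      summable_pow_mul_geometric_of_norm_lt_one 1 (by rw [Real.norm_of_nonneg hr0]; exact hr1)
    have := (hm.mul_left (2 * (2 : ℝ) ^ n)).add hs1
    refine this.congr fun m => ?_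
    ring
  refine ⟨Summable.of_nonneg_of_le h0 hb hs1, Summable.of_nonneg_of_le
    (fun m => mul_nonneg (by positivity) (h0 m))
    (fun m => mul_le_mul_of_nonneg_left (hb m) (by positivity)) hs2⟩

/-- final step: S0217 from a uniform bound on `DD j n 0 M` -/
theorem s0217_of_DD {j : ℕ} (h : ∃ A : ℝ, ∀ n : ℕ, j + 3 ≤ n → ∀ M : ℕ, DD j n 0 M ≤ A) :
    ∃ C : ℝ, ∀ n : ℕ, j + 3 ≤ n →
      Summable (fun m : ℕ => satProb (j + 3) n m) ∧
      Summable (fun m : ℕ => (2 * (m : ℝ) + 1) * satProb (j + 3) n m) ∧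
      (∑' m : ℕ, (2 * (m : ℝ) + 1) * satProb (j + 3) n m)
          - (∑' m : ℕ, satProb (j + 3) n m) ^ 2 ≤ C * n := by
  obtain ⟨C, hC⟩ := var_hit_unif h
  refine ⟨C, fun n hn => ?_⟩
  obtain ⟨hs1, hs2⟩ := summable_satProb hn
  refine ⟨hs1, hs2, ?_⟩
  obtain ⟨M₀, hM⟩ := hC n hn
  have t1 := hs1.hasSum.tendsto_sum_nat
  have t2 := hs2.hasSum.tendsto_sum_nat
  have t3 := (t2.sub (t1.pow 2)).comp (Filter.tendsto_add_atTop_nat 1)
  refine le_of_tendsto t3 ?_
  filter_upwards [Filter.eventually_ge_atTop M₀] with M hMM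
  have := hM M hMM
  rw [EL_hit_eq hn, EL_hit_sq_eq hn] at this
  exact this

end Crest.Agent.R153
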