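import Crest.Agent.R153.Split
import Crest.Agent.R153.Frozen
import Crest.Agent.R153.Var
import Crest.Agent.R153.SatKI_Mg
import Crest.Agent.R153.LeftCert
import Crest.Agent.R153.Pattern
import Crest.Agent.R153.LossAbs
import Mathlib
import Crest.Agent.R153.RC1
import Crest.Agent.R141.Upper
import Crest.Agent.S0217

-- ▼ part R153/GDefs
section

/-!
Row 153, part A at all energy levels (note 5721 of the captain): states are cost functions
`h : Asg n → ℕ`, `J` is the level (threshold).  `J = 0` and `h ∈ {0, >0}` is the `Finset` version.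
Everything lives in the namespace `Crest.Agent.R153.G`; `avg`, `EL`, `Asg`, `fstLit`, `joinL`,
`joinR`, `pureL`, `redL`, `cnt`, `theta` are shared with the `Finset` version.
-/

set_option autoImplicit false

open Crest.ProbabilityR.RandomSAT

namespace Crest.Agent.R153.G

/-- states: cost functions on assignments -/
abbrev Cost (n : ℕ) := Asg n → ℕ

/-- add a clause: cost `1` for the assignments violating it -/
noncomputable def cut {k n : ℕ} (h : Cost n) (c : Clause k n) : Cost n :=
  haveI := Classical.decPred (fun σ : Asg n => ClauseSat σ c)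
  fun σ => h σ + if ClauseSat σ c then 0 else 1

/-- add a list of clauses -/
noncomputable def cutL {k n : ℕ} (h : Cost n) (E : List (Clause k n)) : Cost n :=
  E.foldl cut h

/-- add a (soft) literal -/
def cutLit {n : ℕ} (h : Cost n) (l : Fin n × Bool) : Cost n :=
  fun σ => h σ + if σ l.1 = l.2 then 0 else 1

/-- `1` if some assignment has cost `≤ J`, else `0` -/
noncomputable def ne (J : ℕ) {n : ℕ} (h : Cost n) : ℝ := by
  classical exact if ∃ σ, h σ ≤ J then 1 else 0

/-- number of prefixes of `F` (from the empty one to `F` itself) with minimal cost `≤ J` -/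
noncomputable def hit (J : ℕ) {k n : ℕ} : Cost n → List (Clause k n) → ℝ
  | h, [] => ne J h
  | h, c :: F => ne J h + hit J (cut h c) F

/-- frozen fraction: the proportion of literals `l` whose addition pushes the cost above `J` -/
noncomputable def phi1 (J : ℕ) {n : ℕ} (h : Cost n) : ℝ :=
  avg (fun l : Fin n × Bool => 1 - ne J (cutLit h l))

/-- probability that a uniform `m`-clause pushes the cost above `J` -/
noncomputable def phi (J m : ℕ) {n : ℕ} (h : Cost n) : ℝ :=
  avg (fun q : Clause m n => 1 - ne J (cut h q))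

/-- indicator that the cost is `≤ J` and the frozen fraction exceeds `ε` -/
noncomputable def frz (J : ℕ) (ε : ℝ) {n : ℕ} (h : Cost n) : ℝ := by
  classical exact if (∃ σ, h σ ≤ J) ∧ ε < phi1 J h then 1 else 0

/-- number of prefixes `F'` of `F` with cost `≤ J` and frozen fraction `> ε` -/
noncomputable def Teps (J : ℕ) (ε : ℝ) {k n : ℕ} : Cost n → List (Clause k n) → ℝ
  | h, [] => frz J ε h
  | h, c :: F => frz J ε h + Teps J ε (cut h c) F

/-- second moment of the loss caused by a random (soft) literal, at level `J`, in the process with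
`i` random `(j+2)`-clauses present at time `0` and `M` random `(j+3)`-clauses. -/
noncomputable def DD (J j n i M : ℕ) : ℝ :=
  EL (α := Clause (j + 2) n) i (fun E => EL (α := Clause (j + 3) n) M (fun F =>
    avg (fun l : Fin n × Bool =>
      (hit J (cutL (fun _ => 0) E) F - hit J (cutLit (cutL (fun _ => 0) E) l) F) ^ 2)))

section basic

variable {J k m n : ℕ}

open Classical in
theorem cut_apply (h : Cost n) (c : Clause k n) (σ : Asg n) :
    cut h c σ = h σ + if ClauseSat σ c then 0 else 1 := by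
  unfold cut
  congr

theorem cutLit_apply (h : Cost n) (l : Fin n × Bool) (σ : Asg n) :
    cutLit h l σ = h σ + if σ l.1 = l.2 then 0 else 1 := rfl

theorem cut_of_sat {h : Cost n} {c : Clause k n} {σ : Asg n} (hs : ClauseSat σ c) :
    cut h c σ = h σ := by
  rw [cut_apply, if_pos hs, add_zero]

theorem cut_of_not_sat {h : Cost n} {c : Clause k n} {σ : Asg n} (hs : ¬ ClauseSat σ c) :
    cut h c σ = h σ + 1 := by
  rw [cut_apply, if_neg hs]

theorem cutLit_of_eq {h : Cost n} {l : Fin n × Bool} {σ : Asg n} (hs : σ l.1 = l.2) :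
    cutLit h l σ = h σ := by
  rw [cutLit_apply, if_pos hs, add_zero]

theorem cutLit_of_ne {h : Cost n} {l : Fin n × Bool} {σ : Asg n} (hs : σ l.1 ≠ l.2) :
    cutLit h l σ = h σ + 1 := by
  rw [cutLit_apply, if_neg hs]

theorem le_cut (h : Cost n) (c : Clause k n) : h ≤ cut h c := fun σ => by
  rw [cut_apply]; exact Nat.le_add_right _ _

theorem cut_le_succ (h : Cost n) (c : Clause k n) (σ : Asg n) : cut h c σ ≤ h σ + 1 := by
  rw [cut_apply]; split_ifs <;> omega

theorem le_cutLit (h : Cost n) (l : Fin n × Bool) : h ≤ cutLit h l := fun σ => by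
  rw [cutLit_apply]; exact Nat.le_add_right _ _

theorem cutLit_le_succ (h : Cost n) (l : Fin n × Bool) (σ : Asg n) :
    cutLit h l σ ≤ h σ + 1 := by
  rw [cutLit_apply]; split_ifs <;> omega

theorem cut_mono {h g : Cost n} (hg : h ≤ g) (c : Clause k n) : cut h c ≤ cut g c := fun σ => by
  rw [cut_apply, cut_apply]; exact Nat.add_le_add_right (hg σ) _

theorem cutLit_mono {h g : Cost n} (hg : h ≤ g) (l : Fin n × Bool) : cutLit h l ≤ cutLit g l :=
  fun σ => Nat.add_le_add_right (hg σ) _

@[simp] theorem cutL_nil (h : Cost n) : cutL h ([] : List (Clause k n)) = h := rfl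

theorem cutL_cons (h : Cost n) (c : Clause k n) (E : List (Clause k n)) :
    cutL h (c :: E) = cutL (cut h c) E := rfl



theorem le_cutL (h : Cost n) (E : List (Clause k n)) : h ≤ cutL h E := by
  induction E generalizing h with
  | nil => exact le_rfl
  | cons c E ih => exact (le_cut h c).trans (ih _)


theorem cut_comm (h : Cost n) (c : Clause k n) (d : Clause m n) :
    cut (cut h c) d = cut (cut h d) c := by
  funext σ
  simp only [cut_apply]
  omega

theorem cutLit_cut_comm (h : Cost n) (l : Fin n × Bool) (d : Clause m n) :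
    cutLit (cut h d) l = cut (cutLit h l) d := by
  funext σ
  simp only [cut_apply, cutLit_apply]
  omega


theorem cutL_cut_comm (h : Cost n) (E : List (Clause k n)) (d : Clause m n) :
    cutL (cut h d) E = cut (cutL h E) d := by
  induction E generalizing h with
  | nil => rfl
  | cons c E ih => rw [cutL_cons, cutL_cons, ← ih, cut_comm]



/-- a clause costs at most its first literal -/
theorem cut_le_cutLit (h : Cost n) (q : Clause (m + 1) n) : cut h q ≤ cutLit h (fstLit q) := by
  intro σ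
  by_cases hs : σ (fstLit q).1 = (fstLit q).2
  · rw [cutLit_of_eq hs, cut_of_sat ⟨0, hs⟩]
  · rw [cutLit_of_ne hs]
    exact cut_le_succ h q σ

theorem ne_nonneg (h : Cost n) : 0 ≤ ne J h := by unfold ne; split_ifs <;> norm_num

theorem ne_le_one (h : Cost n) : ne J h ≤ 1 := by unfold ne; split_ifs <;> norm_num

theorem ne_of_exists {h : Cost n} (hh : ∃ σ, h σ ≤ J) : ne J h = 1 := by
  unfold ne; rw [if_pos hh]

theorem ne_eq_zero {h : Cost n} (hh : ¬ ∃ σ, h σ ≤ J) : ne J h = 0 := by
  unfold ne; rw [if_neg hh]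

theorem ne_eq_one_iff {h : Cost n} : ne J h = 1 ↔ ∃ σ, h σ ≤ J := by
  constructor
  · intro h1
    by_contra hc
    rw [ne_eq_zero hc] at h1
    exact zero_ne_one h1
  · exact ne_of_exists

theorem ne_zero_or_one (h : Cost n) : ne J h = 0 ∨ ne J h = 1 := by
  by_cases hh : ∃ σ, h σ ≤ J
  · right; exact ne_of_exists hh
  · left; exact ne_eq_zero hh

/-- a larger cost is less satisfiable -/
theorem ne_anti {h g : Cost n} (hg : h ≤ g) : ne J g ≤ ne J h := by
  by_cases hh : ∃ σ, g σ ≤ J
  · obtain ⟨σ, hσ⟩ := hh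
    rw [ne_of_exists ⟨σ, (hg σ).trans hσ⟩]
    exact ne_le_one g
  · rw [ne_eq_zero hh]; exact ne_nonneg h


@[simp] theorem hit_nil (h : Cost n) : hit J h ([] : List (Clause k n)) = ne J h := rfl

theorem hit_cons (h : Cost n) (c : Clause k n) (F : List (Clause k n)) :
    hit J h (c :: F) = ne J h + hit J (cut h c) F := rfl

theorem hit_nonneg (h : Cost n) (F : List (Clause k n)) : 0 ≤ hit J h F := by
  induction F generalizing h with
  | nil => exact ne_nonneg h
  | cons c F ih => exact add_nonneg (ne_nonneg h) (ih _)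

theorem hit_anti {h g : Cost n} (hg : h ≤ g) (F : List (Clause k n)) :
    hit J g F ≤ hit J h F := by
  induction F generalizing h g with
  | nil => exact ne_anti hg
  | cons c F ih => exact add_le_add (ne_anti hg) (ih (cut_mono hg c))

theorem hit_eq_zero {h : Cost n} (hh : ¬ ∃ σ, h σ ≤ J) (F : List (Clause k n)) :
    hit J h F = 0 := by
  induction F generalizing h with
  | nil => exact ne_eq_zero hh
  | cons c F ih =>
    rw [hit_cons, ne_eq_zero hh, zero_add]
    refine ih ?_
    rintro ⟨σ, hσ⟩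
    exact hh ⟨σ, (le_cut h c σ).trans hσ⟩

theorem hit_le_length (h : Cost n) (F : List (Clause k n)) : hit J h F ≤ F.length + 1 := by
  induction F generalizing h with
  | nil => simpa [hit] using ne_le_one (J := J) h
  | cons c F ih =>
    rw [hit_cons]
    have := ne_le_one (J := J) h
    have := ih (cut h c)
    push_cast [List.length_cons]
    linarith

theorem ne_le_hit (h : Cost n) (F : List (Clause k n)) : ne J h ≤ hit J h F := by
  cases F with
  | nil => exact le_rfl
  | cons c F =>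
    rw [hit_cons]
    linarith [hit_nonneg (J := J) (cut h c) F]

theorem frz_zero_or_one (ε : ℝ) (h : Cost n) : frz J ε h = 0 ∨ frz J ε h = 1 := by
  unfold frz; split_ifs <;> simp




end basic

end Crest.Agent.R153.G
private theorem rz_6452a449cd : type_of% @_root_.Crest.Agent.R153.G.hit.eq_def := @_root_.Crest.Agent.R153.G.hit.eq_def -- L37
private theorem rz_020c80f1f8 : type_of% @_root_.Crest.Agent.R153.G.hit.eq_1 := @_root_.Crest.Agent.R153.G.hit.eq_1 -- L37
end

-- ▼ part R153/AWeak
section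

/-! Row 153: linear growth of the minimal number of unsatisfied clauses above the threshold
(helper211), from the uniform bound on `G.DD J j n 0 M` (`M ≤ C0 * n`). -/

set_option autoImplicit false

open Crest.ProbabilityR.RandomSAT Filter Topology

namespace Crest.Agent.R153

variable {k n : ℕ}

namespace G

theorem cutL_eq_vc (h : Cost n) (F : List (Clause k n)) (σ : Asg n) :
    cutL h F σ = h σ + vc σ F := by
  induction F generalizing h with
  | nil => simp
  | cons c F ih =>
    rw [cutL_cons, ih, vc_cons]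
    by_cases hs : ClauseSat σ c
    · rw [cut_of_sat hs, viol_eq_zero.2 hs]; omega
    · rw [cut_of_not_sat hs, viol_eq_one.2 hs]; omega

theorem hit_eq_sum_take (J : ℕ) (h : Cost n) (F : List (Clause k n)) :
    hit J h F = ∑ m ∈ Finset.range (F.length + 1), ne J (cutL h (F.take m)) := by
  induction F generalizing h with
  | nil => simp
  | cons c F ih =>
    rw [List.length_cons, Finset.sum_range_succ', hit_cons, ih]
    simp only [List.take_succ_cons, List.take_zero, cutL_cons, cutL_nil]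
    ring

theorem ne_zero_state (J : ℕ) (F : List (Clause k n)) :
    ne J (cutL (fun _ => 0) F) = if mc F ≤ J then 1 else 0 := by
  by_cases h : mc F ≤ J
  · rw [if_pos h]
    obtain ⟨σ, hσ⟩ := mc_le_iff.1 h
    exact ne_of_exists ⟨σ, by rw [cutL_eq_vc]; omega⟩
  · rw [if_neg h]
    refine ne_eq_zero ?_
    rintro ⟨σ, hσ⟩
    rw [cutL_eq_vc] at hσ
    exact h (mc_le_iff.2 ⟨σ, by omega⟩)

theorem ne_clause_state (J : ℕ) (c : Clause k n) (F : List (Clause k n)) :
    ne J (cutL (cut (fun _ => 0) c) F) = if mc (c :: F) ≤ J then 1 else 0 := by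
  rw [← cutL_cons]
  exact ne_zero_state J (c :: F)

theorem lossJ_eq (J : ℕ) (c : Clause k n) (F : List (Clause k n)) :
    (lossJ J c F : ℝ) = hit J (fun _ => 0) F - hit J (cut (fun _ => 0) c) F := by
  rw [hit_eq_sum_take, hit_eq_sum_take, ← Finset.sum_sub_distrib]
  unfold lossJ
  rw [Finset.card_filter]
  push_cast
  refine Finset.sum_congr rfl fun m _ => ?_
  rw [ne_zero_state, ne_clause_state]
  have h : mc (F.take m) ≤ mc (c :: F.take m) := mc_sublist (List.sublist_cons_self _ _)
  by_cases h1 : mc (F.take m) ≤ J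
  · by_cases h2 : J < mc (c :: F.take m)
    · rw [if_pos ⟨h1, h2⟩, if_pos h1, if_neg (by omega)]; simp
    · rw [if_neg (fun h3 => h2 h3.2), if_pos h1, if_pos (by omega)]; simp
  · rw [if_neg (fun h3 => h1 h3.1), if_neg h1, if_neg (by omega)]; simp

/-- the second moment of the loss of a clause is at most `DD` -/
theorem avg_lossJ_le (j : ℕ) {n : ℕ} (hn : j + 3 ≤ n) (J M : ℕ) :
    avg (fun c : Clause (j + 3) n => EL M (fun F => (lossJ J c F : ℝ) ^ 2)) ≤ DD J j n 0 M := by
  rw [← EL_avg_comm]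
  unfold DD
  show _ ≤ EL M (fun F => _)
  refine EL_mono fun F => ?_
  show _ ≤ avg (fun l : Fin n × Bool =>
      (hit J (fun _ => 0) F - hit J (cutLit (fun _ => 0) l) F) ^ 2)
  rw [← avg_fstLit (m := j + 2) (by omega) (fun l : Fin n × Bool =>
      (hit J (fun _ => 0) F - hit J (cutLit (fun _ => 0) l) F) ^ 2)]
  refine avg_mono fun c => ?_
  rw [lossJ_eq]
  have h1 := hit_anti (J := J) (le_cut (fun _ => 0) c) F
  have h2 := hit_anti (J := J) (cut_le_cutLit (fun _ => 0) c) F
  exact pow_le_pow_left₀ (by linarith) (by linarith) 2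

end G

/-- quantitative lower bound for the mean minimal cost -/
theorem EL_mc_ge (j : ℕ) {n : ℕ} (hn : j + 3 ≤ n) {A : ℝ} (D M m₀ : ℕ) (hm : m₀ ≤ M + 1)
    (hA : ∀ J : ℕ, G.DD J j n 0 M ≤ A) :
    ((M + 1 : ℝ) - m₀) * (1 - satProb (j + 3) n m₀ -
      EL (M + 1) (fun F : List (Clause (j + 3) n) => (mc F : ℝ)) / (D + 1)) ≤
        2 * Real.sqrt ((M + 1) * A) * Real.sqrt D := by
  have hne : Nonempty (Clause (j + 3) n) := nonempty_clause_var hn
  have h1 := EL_sum_lenJ_le (k := j + 3) (n := n) D M A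
    (fun J _ _ => (G.avg_lossJ_le j hn (J - 1) M).trans (hA _))
  refine le_trans ?_ h1
  have h2 : EL (M + 1) (fun F : List (Clause (j + 3) n) =>
      ((M + 1 : ℝ) - m₀) * (1 - (if mc (F.take m₀) = 0 then 1 else 0) - (mc F : ℝ) / (D + 1))) ≤
      EL (M + 1) (fun F : List (Clause (j + 3) n) => ∑ J ∈ Finset.Icc 1 D, (lenJ J F : ℝ)) := by
    refine EL_mono' fun F hF => ?_
    have := sum_lenJ_ge D m₀ F (by omega)
    rw [hF] at this
    push_cast at this
    exact this
  refine le_trans (le_of_eq ?_) h2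
  rw [EL_const_mul, EL_sub, EL_sub, EL_const, EL_take hm
    (fun F : List (Clause (j + 3) n) => if mc F = 0 then (1 : ℝ) else 0), ← satProb_eq_EL_mc]
  congr 2
  have : (fun F : List (Clause (j + 3) n) => (mc F : ℝ) / (D + 1)) =
      fun F => (mc F : ℝ) * (1 / (D + 1)) := by
    funext F; ring
  rw [this, EL_mul_const]
  ring

/-- above the threshold, the mean minimal cost is linear -/
theorem aweak_list (j : ℕ) {α c : ℝ} (hα : IsSharpThreshold (satProb (j + 3)) α) (hc : α < c)
    (hDD : ∀ C0 : ℕ, ∃ A : ℝ, ∀ n : ℕ, j + 3 ≤ n → ∀ J M : ℕ, M ≤ C0 * n → G.DD J j n 0 M ≤ A) :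
    ∃ κ : ℝ, 0 < κ ∧ ∀ᶠ n : ℕ in atTop,
      κ * n ≤ EL ⌊c * n⌋₊ (fun F : List (Clause (j + 3) n) => (mc F : ℝ)) := by
  have hα0 := threshold_nonneg hα
  have hc0 : 0 < c := hα0.trans_lt hc
  obtain ⟨A', hA'⟩ := hDD ⌈c⌉₊
  set A : ℝ := max A' 1 with hAdef
  have hA1 : 1 ≤ A := le_max_right _ _
  set c' : ℝ := (α + c) / 2 with hc'
  have hαc' : α < c' := by rw [hc']; linarith
  have hc'c : c' < c := by rw [hc']; linarith
  have hc'0 : 0 ≤ c' := hα0.trans hαc'.le
  set g : ℝ := c - c' with hg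
  have hg0 : 0 < g := by rw [hg]; linarith
  -- the choice of δ : sqrt (c A δ) = g / 16
  set δ : ℝ := (g / 16) ^ 2 / (c * A) with hδ
  have hcA : 0 < c * A := mul_pos hc0 (by linarith)
  have hδ0 : 0 < δ := by rw [hδ]; positivity
  have hδe : c * A * δ = (g / 16) ^ 2 := by rw [hδ]; field_simp
  refine ⟨δ / 4, by positivity, ?_⟩
  have hsat : ∀ᶠ n : ℕ in atTop, satProb (j + 3) n ⌊c' * n⌋₊ < 1 / 4 :=
    ((hα c' hc'0).2 hαc').eventually (gt_mem_nhds (by norm_num))
  have hlarge : ∀ᶠ n : ℕ in atTop, 2 / g + 1 / c + (j + 3 : ℝ) < (n : ℝ) :=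
    (tendsto_natCast_atTop_atTop (R := ℝ)).eventually (eventually_gt_atTop _)
  filter_upwards [hsat, hlarge] with n hs hl
  have hn0 : (0 : ℝ) < n := lt_trans (by positivity) hl
  have hgn : 2 < g * n := by
    have : 2 / g < n := by
      have h1 : (0 : ℝ) < 1 / c := by positivity
      have h2 : (0 : ℝ) ≤ (j : ℝ) := Nat.cast_nonneg j
      linarith
    rw [div_lt_iff₀ hg0] at this
    linarith
  have hcn : 1 < c * n := by
    have : 1 / c < n := by
      have h1 : (0 : ℝ) < 2 / g := by positivity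
      have h2 : (0 : ℝ) ≤ (j : ℝ) := Nat.cast_nonneg j
      linarith
    rw [div_lt_iff₀ hc0] at this
    linarith
  have hjn : j + 3 ≤ n := by
    have h1 : (0 : ℝ) < 2 / g := by positivity
    have h2 : (0 : ℝ) < 1 / c := by positivity
    have : ((j + 3 : ℕ) : ℝ) < n := by push_cast; linarith
    exact_mod_cast this.le
  obtain ⟨M, hM⟩ : ∃ M, ⌊c * n⌋₊ = M + 1 := by
    have : 1 ≤ ⌊c * n⌋₊ := Nat.floor_pos.2 hcn.le
    exact ⟨⌊c * n⌋₊ - 1, by omega⟩
  have hMle : ((M : ℝ) + 1) ≤ c * n := by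
    have := Nat.floor_le (a := c * n) (by positivity)
    rw [hM] at this
    push_cast at this
    exact this
  have hMgt : c * n < (M : ℝ) + 1 + 1 := by
    have := Nat.lt_floor_add_one (c * n)
    rw [hM] at this
    push_cast at this
    exact this
  have hMC : M ≤ ⌈c⌉₊ * n := by
    have h1 : (M : ℝ) ≤ (⌈c⌉₊ : ℝ) * n := by
      have h2 : c ≤ (⌈c⌉₊ : ℝ) := Nat.le_ceil c
      have h3 : c * n ≤ (⌈c⌉₊ : ℝ) * n := mul_le_mul_of_nonneg_right h2 hn0.le
      linarith
    exact_mod_cast h1
  have hm0le : (⌊c' * n⌋₊ : ℝ) ≤ c' * n := Nat.floor_le (by positivity)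
  have hm : ⌊c' * n⌋₊ ≤ M + 1 := by
    rw [← hM]
    exact Nat.floor_le_floor (mul_le_mul_of_nonneg_right hc'c.le hn0.le)
  have key := EL_mc_ge j hjn ⌊δ * n⌋₊ M ⌊c' * n⌋₊ hm (A := A)
    (fun J => (hA' n hjn J M hMC).trans (le_max_left _ _))
  rw [hM]
  set E := EL (M + 1) (fun F : List (Clause (j + 3) n) => (mc F : ℝ)) with hE
  have hE0 : 0 ≤ E := EL_nonneg fun F => Nat.cast_nonneg _
  -- right side
  have hR : 2 * Real.sqrt ((M + 1) * A) * Real.sqrt ((⌊δ * n⌋₊ : ℕ) : ℝ) ≤ g / 8 * n := by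
    have h1 : Real.sqrt ((M + 1) * A) * Real.sqrt ((⌊δ * n⌋₊ : ℕ) : ℝ) =
        Real.sqrt (((M + 1) * A) * ((⌊δ * n⌋₊ : ℕ) : ℝ)) :=
      (Real.sqrt_mul (by positivity) _).symm
    have h2 : ((M + 1) * A) * ((⌊δ * n⌋₊ : ℕ) : ℝ) ≤ (g / 16 * n) ^ 2 := by
      have h3 : ((⌊δ * n⌋₊ : ℕ) : ℝ) ≤ δ * n := Nat.floor_le (by positivity)
      calc ((M + 1) * A) * ((⌊δ * n⌋₊ : ℕ) : ℝ) ≤ ((c * n) * A) * (δ * n) := by
            refine mul_le_mul ?_ h3 (Nat.cast_nonneg _) (by positivity)
            exact mul_le_mul_of_nonneg_right hMle (by linarith)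
        _ = (c * A * δ) * n ^ 2 := by ring
        _ = (g / 16 * n) ^ 2 := by rw [hδe]; ring
    have h4 : Real.sqrt (((M + 1) * A) * ((⌊δ * n⌋₊ : ℕ) : ℝ)) ≤ g / 16 * n := by
      rw [← Real.sqrt_sq (show 0 ≤ g / 16 * n by positivity)]
      exact Real.sqrt_le_sqrt h2
    rw [mul_assoc, h1]
    linarith
  have hL : g / 2 * n ≤ (M + 1 : ℝ) - (⌊c' * n⌋₊ : ℝ) := by
    have : g * n = c * n - c' * n := by rw [hg]; ring
    linarith
  have hL0 : (0 : ℝ) < (M + 1 : ℝ) - (⌊c' * n⌋₊ : ℝ) := lt_of_lt_of_le (by positivity) hL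
  -- the bracket is at most 1/4
  have hB : 1 - satProb (j + 3) n ⌊c' * n⌋₊ - E / ((⌊δ * n⌋₊ : ℕ) + 1 : ℝ) ≤ 1 / 4 := by
    by_contra hcon
    push Not at hcon
    have h5 : g / 2 * n * (1 / 4) < ((M + 1 : ℝ) - (⌊c' * n⌋₊ : ℝ)) *
        (1 - satProb (j + 3) n ⌊c' * n⌋₊ - E / ((⌊δ * n⌋₊ : ℕ) + 1 : ℝ)) := by
      calc g / 2 * n * (1 / 4) ≤ ((M + 1 : ℝ) - (⌊c' * n⌋₊ : ℝ)) * (1 / 4) :=
            mul_le_mul_of_nonneg_right hL (by norm_num)
        _ < _ := mul_lt_mul_of_pos_left hcon hL0
    have h6 := lt_of_lt_of_le h5 (key.trans hR)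
    linarith
  have hB2 : 1 / 2 ≤ E / ((⌊δ * n⌋₊ : ℕ) + 1 : ℝ) := by linarith
  have hD : δ * n < (⌊δ * n⌋₊ : ℕ) + 1 := Nat.lt_floor_add_one _
  have hDpos : (0 : ℝ) < ((⌊δ * n⌋₊ : ℕ) + 1 : ℝ) := by positivity
  rw [le_div_iff₀ hDpos] at hB2
  have : 0 < δ * n := by positivity
  linarith

/-- the same for formulas `Fin M → Clause` -/
theorem aweak_minUnsat (j : ℕ) {α c : ℝ} (hα : IsSharpThreshold (satProb (j + 3)) α) (hc : α < c)
    (hDD : ∀ C0 : ℕ, ∃ A : ℝ, ∀ n : ℕ, j + 3 ≤ n → ∀ J M : ℕ, M ≤ C0 * n → G.DD J j n 0 M ≤ A) :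
    ∃ κ : ℝ, 0 < κ ∧ ∀ᶠ n : ℕ in atTop,
      κ * n ≤ avg (fun F : Fin ⌊c * n⌋₊ → Clause (j + 3) n => (minUnsat F : ℝ)) := by
  obtain ⟨κ, hκ, h⟩ := aweak_list j hα hc hDD
  refine ⟨κ, hκ, h.mono fun n hn => hn.trans (le_of_eq (EL_mc_eq _ _ _))⟩

end Crest.Agent.R153
end

-- ▼ part R153/GElim
section

/-! Row 153, part A at all levels: deterministic elimination of a variable (cost functions). -/

set_option autoImplicit false

open Crest.ProbabilityR.RandomSAT

namespace Crest.Agent.R153.G

variable {J m n : ℕ}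

/-- `Y` is below `h` after forgetting `v` -/
def Below (v : Fin (n + 1)) (h : Cost (n + 1)) (Y : Cost n) : Prop :=
  ∀ σ : Asg (n + 1), Y (fun i => σ (v.succAbove i)) ≤ h σ

/-- `Z` is above the slice `v = b` of `h` -/
def Above (v : Fin (n + 1)) (b : Bool) (h : Cost (n + 1)) (Z : Cost n) : Prop :=
  ∀ τ : Asg n, h (v.insertNth b τ : Asg (n + 1)) ≤ Z τ

theorem Below.le_of_above {v : Fin (n + 1)} {b : Bool} {h : Cost (n + 1)} {Y Z : Cost n}
    (hY : Below v h Y) (hZ : Above v b h Z) : Y ≤ Z := by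
  intro τ
  have h1 := hY (v.insertNth b τ : Asg (n + 1))
  have h2 : (fun i => (v.insertNth b τ : Asg (n + 1)) (v.succAbove i)) = τ := by
    funext i; simp
  rw [h2] at h1
  exact h1.trans (hZ τ)

theorem ne_le_below {v : Fin (n + 1)} {h : Cost (n + 1)} {Y : Cost n} (hY : Below v h Y) :
    ne J h ≤ ne J Y := by
  by_cases hX : ∃ σ, h σ ≤ J
  · obtain ⟨σ, hσ⟩ := hX
    rw [ne_of_exists (h := Y) ⟨_, (hY σ).trans hσ⟩]
    exact ne_le_one h
  · rw [ne_eq_zero hX]
    exact ne_nonneg Y

theorem ne_above_le {v : Fin (n + 1)} {b : Bool} {h : Cost (n + 1)} {Z : Cost n}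
    (hZ : Above v b h Z) : ne J Z ≤ ne J (cutLit h (v, b)) := by
  by_cases hX : ∃ τ, Z τ ≤ J
  · obtain ⟨τ, hτ⟩ := hX
    have h1 : cutLit h (v, b) (v.insertNth b τ : Asg (n + 1)) ≤ J := by
      rw [cutLit_of_eq (by simp)]
      exact (hZ τ).trans hτ
    rw [ne_of_exists ⟨_, h1⟩]
    exact ne_le_one Z
  · rw [ne_eq_zero hX]
    exact ne_nonneg _

theorem ne_sub_le_hit_sub {k : ℕ} {A Y : Cost n} (h : Y ≤ A) (P : List (Clause k n)) :
    ne J Y - ne J A ≤ hit J Y P - hit J A P := by
  by_cases hA : ∃ σ, A σ ≤ J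
  · obtain ⟨σ, hσ⟩ := hA
    rw [ne_of_exists (h := A) ⟨σ, hσ⟩, ne_of_exists (h := Y) ⟨σ, (h σ).trans hσ⟩]
    have := hit_anti (J := J) h P
    linarith
  · rw [hit_eq_zero hA, ne_eq_zero hA]
    have := ne_le_hit (J := J) Y P
    linarith


theorem insertNth_comp (v : Fin (n + 1)) (b : Bool) (τ : Asg n) :
    (fun i => (v.insertNth b τ : Asg (n + 1)) (v.succAbove i)) = τ := by
  funext i; simp

theorem loss_elim (v : Fin (n + 1)) (b : Bool) (h : Cost (n + 1))
    (Y Z : Cost n) (hY : Below v h Y) (hZ : Above v b h Z)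
    (F : List (Clause (m + 1) (n + 1))) :
    hit J h F - hit J (cutLit h (v, b)) F ≤
      (1 + cnt v F) * (hit J Y (pureL v F) - hit J (cutL Z (redL v b F)) (pureL v F)) := by
  induction F generalizing h Y Z with
  | nil =>
    have h1 := ne_le_below (J := J) hY
    have h2 := ne_above_le (J := J) hZ
    show ne J h - ne J (cutLit h (v, b)) ≤ (1 + ((0 : ℕ) : ℝ)) * (ne J Y - ne J Z)
    push_cast
    linarith
  | cons c F ih =>
    have h1 := ne_le_below (J := J) hY
    have h2 := ne_above_le (J := J) hZ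
    have hZY : Y ≤ Z := hY.le_of_above hZ
    have hcnt : (0 : ℝ) ≤ cnt v F := Nat.cast_nonneg _
    revert c
    refine cases_clause v ?_ ?_
    · intro c
      have ih' := ih (cut h (joinL v c)) (cut Y c) (cut Z c) (by
          intro σ
          have h0 := hY σ
          by_cases hc : ClauseSat (fun i => σ (v.succAbove i)) c
          · rw [cut_of_sat hc, cut_of_sat ((clauseSat_joinL v c σ).2 hc)]
            exact h0
          · rw [cut_of_not_sat hc, cut_of_not_sat (fun hh => hc ((clauseSat_joinL v c σ).1 hh))]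
            exact Nat.succ_le_succ h0) (by
          intro τ
          have h0 := hZ τ
          have e0 := clauseSat_joinL v c (v.insertNth b τ : Asg (n + 1))
          rw [insertNth_comp] at e0
          by_cases hc : ClauseSat τ c
          · rw [cut_of_sat hc, cut_of_sat (e0.2 hc)]
            exact h0
          · rw [cut_of_not_sat hc, cut_of_not_sat (fun hh => hc (e0.1 hh))]
            exact Nat.succ_le_succ h0)
      rw [cnt_consL, pureL_consL, redL_consL]
      have e1 : hit J h (joinL v c :: F) = ne J h + hit J (cut h (joinL v c)) F := rfl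
      have e2 : hit J (cutLit h (v, b)) (joinL v c :: F) =
          ne J (cutLit h (v, b)) + hit J (cutLit (cut h (joinL v c)) (v, b)) F := by
        rw [cutLit_cut_comm]; rfl
      have e3 : hit J Y (c :: pureL v F) = ne J Y + hit J (cut Y c) (pureL v F) := rfl
      have e4 : hit J (cutL Z (redL v b F)) (c :: pureL v F) =
          ne J (cutL Z (redL v b F)) + hit J (cutL (cut Z c) (redL v b F)) (pureL v F) := by
        rw [cutL_cut_comm]; rfl
      rw [e1, e2, e3, e4]
      have h3 : ne J (cutL Z (redL v b F)) ≤ ne J Z := ne_anti (le_cutL _ _)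
      have h4 : 0 ≤ (cnt v F : ℝ) * (ne J Y - ne J (cutL Z (redL v b F))) := by
        apply mul_nonneg hcnt
        have := ne_anti (J := J) hZY
        linarith
      nlinarith
    · intro i s q
      by_cases hs : s = b
      · subst hs
        have ih' := ih (cut h (joinR v i s q)) Y Z (by
            intro σ
            exact (hY σ).trans (le_cut h _ σ)) (by
            intro τ
            rw [cut_of_sat ((clauseSat_joinR v i s q _).2 (Or.inl (by simp)))]
            exact hZ τ)
        rw [cnt_consR, pureL_consR, redL_consR_eq]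
        have e1 : hit J h (joinR v i s q :: F) = ne J h + hit J (cut h (joinR v i s q)) F := rfl
        have e2 : hit J (cutLit h (v, s)) (joinR v i s q :: F) =
            ne J (cutLit h (v, s)) + hit J (cutLit (cut h (joinR v i s q)) (v, s)) F := by
          rw [cutLit_cut_comm]; rfl
        rw [e1, e2]
        have h3 : ne J (cutL Z (redL v s F)) ≤ ne J Z := ne_anti (le_cutL _ _)
        have h5 := ne_sub_le_hit_sub (J := J) (hZY.trans (le_cutL Z (redL v s F))) (pureL v F)
        push_cast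
        linarith
      · have ih' := ih (cut h (joinR v i s q)) Y (cut Z q) (by
            intro σ
            exact (hY σ).trans (le_cut h _ σ)) (by
            intro τ
            have h0 := hZ τ
            have e0 := clauseSat_joinR v i s q (v.insertNth b τ : Asg (n + 1))
            rw [insertNth_comp] at e0
            by_cases hc : ClauseSat τ q
            · rw [cut_of_sat hc, cut_of_sat (e0.2 (Or.inr hc))]
              exact h0
            · rw [cut_of_not_sat hc]
              exact (cut_le_succ h _ _).trans (Nat.succ_le_succ h0))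
        rw [cnt_consR, pureL_consR, redL_consR_ne v hs]
        have e1 : hit J h (joinR v i s q :: F) = ne J h + hit J (cut h (joinR v i s q)) F := rfl
        have e2 : hit J (cutLit h (v, b)) (joinR v i s q :: F) =
            ne J (cutLit h (v, b)) + hit J (cutLit (cut h (joinR v i s q)) (v, b)) F := by
          rw [cutLit_cut_comm]; rfl
        rw [e1, e2, cutL_cons]
        have hsub : Z ≤ cutL (cut Z q) (redL v b F) := (le_cut Z q).trans (le_cutL _ _)
        have h3 : ne J (cutL (cut Z q) (redL v b F)) ≤ ne J Z := ne_anti hsub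
        have h5 := ne_sub_le_hit_sub (J := J) (hZY.trans hsub) (pureL v F)
        push_cast
        linarith

/-- environment: forgetting `v` -/
theorem below_cutL (v : Fin (n + 1)) (h : Cost (n + 1)) (Y : Cost n) (hY : Below v h Y)
    (E : List (Clause (m + 1) (n + 1))) : Below v (cutL h E) (cutL Y (pureL v E)) := by
  induction E generalizing h Y with
  | nil => exact hY
  | cons c E ih =>
    revert c
    refine cases_clause v ?_ ?_
    · intro c
      rw [pureL_consL, cutL_cons, cutL_cons]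
      refine ih _ _ ?_
      intro σ
      have h0 := hY σ
      by_cases hc : ClauseSat (fun i => σ (v.succAbove i)) c
      · rw [cut_of_sat hc, cut_of_sat ((clauseSat_joinL v c σ).2 hc)]
        exact h0
      · rw [cut_of_not_sat hc, cut_of_not_sat (fun hh => hc ((clauseSat_joinL v c σ).1 hh))]
        exact Nat.succ_le_succ h0
    · intro i s q
      rw [pureL_consR, cutL_cons]
      exact ih _ _ fun σ => (hY σ).trans (le_cut h _ σ)

/-- environment: slice `v = b` -/
theorem above_cutL (v : Fin (n + 1)) (b : Bool) (h : Cost (n + 1)) (Z : Cost n)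
    (hZ : Above v b h Z) (E : List (Clause (m + 1) (n + 1))) :
    Above v b (cutL h E) (cutL (cutL Z (pureL v E)) (redL v b E)) := by
  induction E generalizing h Z with
  | nil => exact hZ
  | cons c E ih =>
    revert c
    refine cases_clause v ?_ ?_
    · intro c
      rw [pureL_consL, redL_consL, cutL_cons, cutL_cons]
      refine ih _ _ ?_
      intro τ
      have h0 := hZ τ
      have e0 := clauseSat_joinL v c (v.insertNth b τ : Asg (n + 1))
      rw [insertNth_comp] at e0
      by_cases hc : ClauseSat τ c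
      · rw [cut_of_sat hc, cut_of_sat (e0.2 hc)]
        exact h0
      · rw [cut_of_not_sat hc, cut_of_not_sat (fun hh => hc (e0.1 hh))]
        exact Nat.succ_le_succ h0
    · intro i s q
      have e0 := fun τ => clauseSat_joinR v i s q (v.insertNth b τ : Asg (n + 1))
      by_cases hs : s = b
      · subst hs
        rw [pureL_consR, redL_consR_eq, cutL_cons]
        refine ih _ _ fun τ => ?_
        rw [cut_of_sat ((e0 τ).2 (Or.inl (by simp)))]
        exact hZ τ
      · rw [pureL_consR, redL_consR_ne v hs, cutL_cons, cutL_cons, ← cutL_cut_comm]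
        refine ih _ _ fun τ => ?_
        have h0 := hZ τ
        have e1 := e0 τ
        rw [insertNth_comp] at e1
        by_cases hc : ClauseSat τ q
        · rw [cut_of_sat hc, cut_of_sat (e1.2 (Or.inr hc))]
          exact h0
        · rw [cut_of_not_sat hc]
          exact (cut_le_succ h _ _).trans (Nat.succ_le_succ h0)

theorem below_zero (v : Fin (n + 1)) : Below v (fun _ => 0) (fun _ => 0) := fun _ => le_rfl

theorem above_zero (v : Fin (n + 1)) (b : Bool) : Above v b (fun _ => 0) (fun _ => 0) :=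
  fun _ => le_rfl


end Crest.Agent.R153.G
end

-- ▼ part R153/GChain
section

/-! Row 153, all energy levels: splitting the loss caused by a list of clauses into single losses
(helper784). -/

set_option autoImplicit false

open Crest.ProbabilityR.RandomSAT

namespace Crest.Agent.R153.G

variable {J j k m n : ℕ}

/-- loss of the clause `q` at state `h` -/
noncomputable def loss (J : ℕ) {k m n : ℕ} (h : Cost n) (q : Clause m n)
    (F : List (Clause k n)) : ℝ := hit J h F - hit J (cut h q) F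

/-- weighted sum of the squares of the single losses along the list `R` -/
noncomputable def chain (J : ℕ) {k m n : ℕ} :
    Cost n → List (Clause m n) → List (Clause k n) → ℝ
  | _, [], _ => 0
  | h, q :: R, F => 2 * loss J h q F ^ 2 + 2 * chain J (cut h q) R F

theorem chain_nonneg (h : Cost n) (R : List (Clause m n)) (F : List (Clause k n)) :
    0 ≤ chain J h R F := by
  induction R generalizing h with
  | nil => exact le_rfl
  | cons q R ih =>
    have := ih (cut h q)
    show 0 ≤ 2 * loss J h q F ^ 2 + 2 * chain J (cut h q) R F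
    positivity

theorem sq_le_chain (h : Cost n) (R : List (Clause m n)) (F : List (Clause k n)) :
    (hit J h F - hit J (cutL h R) F) ^ 2 ≤ chain J h R F := by
  induction R generalizing h with
  | nil => simp [chain]
  | cons q R ih =>
    have h1 := ih (cut h q)
    show _ ≤ 2 * loss J h q F ^ 2 + 2 * chain J (cut h q) R F
    rw [cutL_cons]
    have e : hit J h F - hit J (cutL (cut h q) R) F =
        loss J h q F + (hit J (cut h q) F - hit J (cutL (cut h q) R) F) := by
      unfold loss; ring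
    rw [e]
    nlinarith [sq_nonneg (loss J h q F - (hit J (cut h q) F - hit J (cutL (cut h q) R) F))]

/-- mean square of the loss of a uniform `(j+2)`-clause, after `i` uniform `(j+2)`-clauses, along
`a` uniform `(j+3)`-clauses -/
noncomputable def Lq (J j n i a : ℕ) : ℝ :=
  EL (α := Clause (j + 2) n) i (fun E => EL (α := Clause (j + 3) n) a (fun P =>
    avg (fun q : Clause (j + 2) n => loss J (cutL (fun _ => 0) E) q P ^ 2)))

/-- mean of `chain` -/
noncomputable def Wc (J j n i a e : ℕ) : ℝ :=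
  EL (α := Clause (j + 2) n) i (fun E => EL (α := Clause (j + 3) n) a (fun P =>
    EL (α := Clause (j + 2) n) e (fun R => chain J (cutL (fun _ => 0) E) R P)))

theorem cutL_zero_cons (q : Clause m n) (E : List (Clause m n)) :
    cutL (fun _ => 0) (q :: E) = cut (cutL (fun _ => 0) E) q := by
  rw [cutL_cons, cutL_cut_comm]

theorem Wc_succ (hn : j + 3 ≤ n) (i a e : ℕ) :
    Wc J j n i a (e + 1) = 2 * Lq J j n i a + 2 * Wc J j n (i + 1) a e := by
  have : Nonempty (Clause (j + 2) n) := nonempty_clause (by omega)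
  have : Nonempty (Clause (j + 3) n) := nonempty_clause hn
  have e1 : ∀ (E : List (Clause (j + 2) n)) (P : List (Clause (j + 3) n)),
      EL (α := Clause (j + 2) n) (e + 1) (fun R => chain J (cutL (fun _ => 0) E) R P) =
      2 * avg (fun q : Clause (j + 2) n => loss J (cutL (fun _ => 0) E) q P ^ 2) +
        2 * avg (fun q : Clause (j + 2) n => EL (α := Clause (j + 2) n) e (fun R =>
          chain J (cutL (fun _ => 0) (q :: E)) R P)) := by
    intro E P
    rw [EL_succ, ← avg_const_mul, ← avg_const_mul, ← avg_add]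
    refine avg_congr fun q => ?_
    rw [← EL_const_mul, ← EL_const (α := Clause (j + 2) n) e
      (2 * loss J (cutL (fun _ => 0) E) q P ^ 2), ← EL_add]
    refine EL_congr fun R => ?_
    rw [cutL_zero_cons]
    rfl
  unfold Wc Lq
  have e2 : ∀ E : List (Clause (j + 2) n),
      EL (α := Clause (j + 3) n) a (fun P => EL (α := Clause (j + 2) n) (e + 1)
        (fun R => chain J (cutL (fun _ => 0) E) R P)) =
      2 * EL (α := Clause (j + 3) n) a (fun P =>
        avg (fun q : Clause (j + 2) n => loss J (cutL (fun _ => 0) E) q P ^ 2)) +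
      2 * avg (fun q : Clause (j + 2) n => EL (α := Clause (j + 3) n) a (fun P =>
        EL (α := Clause (j + 2) n) e (fun R => chain J (cutL (fun _ => 0) (q :: E)) R P))) := by
    intro E
    rw [← EL_const_mul, ← EL_avg_comm, ← EL_const_mul, ← EL_add]
    exact EL_congr fun P => e1 E P
  rw [EL_congr e2, EL_add, EL_const_mul, EL_const_mul, EL_avg_comm]
  rfl

theorem Wc_le (hn : j + 3 ≤ n) (a : ℕ) (Λ : ℝ) (hΛ : 0 ≤ Λ)
    (hL : ∀ i, Lq J j n i a ≤ Λ * 2 ^ i) (e : ℕ) : ∀ i, Wc J j n i a e ≤ Λ * 2 ^ i * (4 ^ e - 1) := by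
  induction e with
  | zero =>
    intro i
    have : Wc J j n i a 0 = 0 := by
      unfold Wc
      show EL i (fun E => EL a (fun P => (0 : ℝ))) = 0
      rw [EL_congr fun E => EL_zero_fun a, EL_zero_fun]
    rw [this]; simp
  | succ e ih =>
    intro i
    rw [Wc_succ hn]
    have h1 := hL i
    have h2 := ih (i + 1)
    have h3 : (0 : ℝ) ≤ Λ * 2 ^ i := by positivity
    calc 2 * Lq J j n i a + 2 * Wc J j n (i + 1) a e
        ≤ 2 * (Λ * 2 ^ i) + 2 * (Λ * 2 ^ (i + 1) * (4 ^ e - 1)) := by linarith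
      _ = Λ * 2 ^ i * (4 ^ (e + 1) - 2) := by ring
      _ ≤ Λ * 2 ^ i * (4 ^ (e + 1) - 1) := by
        refine mul_le_mul_of_nonneg_left ?_ h3; linarith

end Crest.Agent.R153.G
private theorem rz_e6340abec5 : type_of% @_root_.Crest.Agent.R153.G.chain.eq_def := @_root_.Crest.Agent.R153.G.chain.eq_def -- L20
private theorem rz_11d5e369a6 : type_of% @_root_.Crest.Agent.R153.G.chain.eq_1 := @_root_.Crest.Agent.R153.G.chain.eq_1 -- L20
end

-- ▼ part R153/GStep
section

/-! Row 153, all energy levels: the vertex elimination step (helper784). -/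

set_option autoImplicit false

open Crest.ProbabilityR.RandomSAT

namespace Crest.Agent.R153.G

variable {J j k m n : ℕ}

/-- the variables not touched by the clauses of `E` -/
noncomputable def free {m n : ℕ} (E : List (Clause m n)) : Finset (Fin n) :=
  haveI := Classical.decPred (fun v : Fin n => ∀ c ∈ E, ∀ a, c.1.1 a ≠ v)
  Finset.univ.filter (fun v => ∀ c ∈ E, ∀ a, c.1.1 a ≠ v)

theorem mem_free {E : List (Clause m n)} {v : Fin n} :
    v ∈ free E ↔ ∀ c ∈ E, ∀ a, c.1.1 a ≠ v := by
  unfold free; simp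

/-- second moment of the loss caused by a random literal whose variable is not touched by the
`(j+2)`-clauses of the environment -/
noncomputable def DDu (J j n i M : ℕ) : ℝ :=
  EL (α := Clause (j + 2) n) i (fun E => EL (α := Clause (j + 3) n) M (fun F =>
    avg (fun l : Fin n × Bool => if l.1 ∈ free E then
      (hit J (cutL (fun _ => 0) E) F - hit J (cutLit (cutL (fun _ => 0) E) l) F) ^ 2 else 0)))

theorem cnt_eq_zero_of_free {E : List (Clause (m + 1) (n + 1))} {v : Fin (n + 1)}
    (hv : v ∈ free E) : cnt v E = 0 := by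
  induction E with
  | nil => rfl
  | cons c E ih =>
    rw [mem_free] at hv
    have h1 : v ∈ free E := mem_free.2 fun c' hc' => hv c' (List.mem_cons_of_mem _ hc')
    have h2 : ∀ a, c.1.1 a ≠ v := hv c List.mem_cons_self
    revert h2
    clear hv
    revert c
    refine cases_clause v ?_ ?_
    · intro c _
      rw [cnt_consL]; exact ih h1
    · intro i s q h2
      exact absurd (by simp [joinR]) (h2 i)

theorem redL_eq_nil {E : List (Clause (m + 1) (n + 1))} {v : Fin (n + 1)} (b : Bool)
    (hv : cnt v E = 0) : redL v b E = [] := by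
  induction E with
  | nil => rfl
  | cons c E ih =>
    revert hv
    revert c
    refine cases_clause v ?_ ?_
    · intro c hv
      rw [cnt_consL] at hv
      rw [redL_consL]; exact ih hv
    · intro i s q hv
      rw [cnt_consR] at hv
      exact absurd hv (Nat.succ_ne_zero _)

theorem length_pureL_le (v : Fin (n + 1)) (F : List (Clause (m + 1) (n + 1))) :
    (pureL v F).length ≤ F.length := by
  induction F with
  | nil => simp
  | cons c F ih =>
    revert c
    refine cases_clause v ?_ ?_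
    · intro c
      rw [pureL_consL, List.length_cons, List.length_cons]; omega
    · intro i s q
      rw [pureL_consR, List.length_cons]; omega

theorem one_add_sq_le_four_pow (c : ℕ) : ((1 : ℝ) + c) ^ 2 ≤ 4 ^ c := by
  have h : (1 : ℝ) + c ≤ 2 ^ c := by
    induction c with
    | zero => simp
    | succ c ih =>
      push_cast
      have : (1 : ℝ) ≤ 2 ^ c := one_le_pow₀ (by norm_num)
      rw [pow_succ]; linarith
  calc ((1 : ℝ) + c) ^ 2 ≤ (2 ^ c) ^ 2 := pow_le_pow_left₀ (by positivity) h 2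
    _ = 4 ^ c := by rw [← pow_mul, mul_comm, pow_mul]; norm_num

open Classical in
/-- the functional used in the elimination -/
noncomputable def Phi (J M : ℕ) {k m n : ℕ} (E : List (Clause m n)) (P : List (Clause k n))
    (R : List (Clause m n)) : ℝ :=
  if P.length ≤ M then chain J (cutL (fun _ => 0) E) R P else 0

theorem Phi_nonneg (M : ℕ) (E : List (Clause m n)) (P : List (Clause k n))
    (R : List (Clause m n)) : 0 ≤ Phi J M E P R := by
  unfold Phi; split_ifs
  · exact chain_nonneg _ _ _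
  · exact le_rfl

theorem loss_sq_le_Phi (v : Fin (n + 1)) (b : Bool) (M : ℕ)
    (E : List (Clause (j + 2) (n + 1))) (F : List (Clause (j + 3) (n + 1)))
    (hF : F.length = M) :
    (if v ∈ free E then (hit J (cutL (fun _ => 0) E) F -
      hit J (cutLit (cutL (fun _ => 0) E) (v, b)) F) ^ 2 else 0) ≤
      4 ^ (cnt v F) * ((0 : ℝ) ^ (cnt v E) * Phi J M (pureL v E) (pureL v F) (redL v b F)) := by
  split_ifs with hv
  · have h0 := cnt_eq_zero_of_free hv
    have hbel := below_cutL v (fun _ => 0) (fun _ => 0) (below_zero v) E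
    have habv := above_cutL v b (fun _ => 0) (fun _ => 0) (above_zero v b) E
    rw [redL_eq_nil b h0, cutL_nil] at habv
    have h1 := loss_elim (J := J) v b (cutL (fun _ => 0) E) _ _ hbel habv F
    rw [h0, pow_zero, one_mul]
    have hlen : (pureL v F).length ≤ M := hF ▸ length_pureL_le v F
    have hP : Phi J M (pureL v E) (pureL v F) (redL v b F) =
        chain J (cutL (fun _ => 0) (pureL v E)) (redL v b F) (pureL v F) := by
      unfold Phi; rw [if_pos hlen]
    rw [hP]
    have h2 := sq_le_chain (J := J) (cutL (fun _ => 0) (pureL v E)) (redL v b F) (pureL v F)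
    have h3 : 0 ≤ hit J (cutL (fun _ => 0) E) F -
        hit J (cutLit (cutL (fun _ => 0) E) (v, b)) F :=
      sub_nonneg.2 (hit_anti (le_cutLit _ _) F)
    calc _ ≤ ((1 + (cnt v F : ℝ)) * (hit J (cutL (fun _ => 0) (pureL v E)) (pureL v F) -
          hit J (cutL (cutL (fun _ => 0) (pureL v E)) (redL v b F)) (pureL v F))) ^ 2 :=
          pow_le_pow_left₀ h3 h1 2
      _ = (1 + (cnt v F : ℝ)) ^ 2 * (hit J (cutL (fun _ => 0) (pureL v E)) (pureL v F) -
          hit J (cutL (cutL (fun _ => 0) (pureL v E)) (redL v b F)) (pureL v F)) ^ 2 := by ring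
      _ ≤ _ := mul_le_mul (one_add_sq_le_four_pow _) h2 (sq_nonneg _) (by positivity)
  · have := Phi_nonneg (J := J) M (pureL v E) (pureL v F) (redL v b F)
    positivity

/-- the vertex elimination step -/
theorem DDu_succ_le (hn : j + 3 ≤ n) (M : ℕ) (Λ : ℝ) (hΛ : 0 ≤ Λ)
    (hL : ∀ i a, a ≤ M → Lq J j n i a ≤ Λ * 2 ^ i) (i : ℕ) :
    DDu J j (n + 1) i M ≤ Λ * 2 ^ i * (1 + 18 * theta (j + 2) n) ^ M := by
  have : Nonempty (Clause (j + 2) n) := nonempty_clause (by omega)
  have : Nonempty (Clause (j + 1) n) := nonempty_clause (by omega)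
  have hθ := theta_nonneg (j + 2) n
  have hθ' := theta_nonneg (j + 1) n
  have hθ1' := two_theta_le_one (m := j + 1) (n := n) (by omega)
  unfold DDu
  have hswap : EL (α := Clause (j + 2) (n + 1)) i (fun E => EL (α := Clause (j + 3) (n + 1)) M
      (fun F => avg (fun l : Fin (n + 1) × Bool => if l.1 ∈ free E then
      (hit J (cutL (fun _ => 0) E) F - hit J (cutLit (cutL (fun _ => 0) E) l) F) ^ 2 else 0))) =
      avg (fun l : Fin (n + 1) × Bool => EL (α := Clause (j + 2) (n + 1)) i
        (fun E => EL (α := Clause (j + 3) (n + 1)) M (fun F => if l.1 ∈ free E then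
      (hit J (cutL (fun _ => 0) E) F - hit J (cutLit (cutL (fun _ => 0) E) l) F) ^ 2 else 0))) := by
    rw [← EL_avg_comm]
    exact EL_congr fun E => EL_avg_comm M _
  rw [hswap]
  refine (avg_mono (g := fun _ => Λ * 2 ^ i * (1 + 18 * theta (j + 2) n) ^ M) ?_).trans
    (avg_const_le (by positivity))
  rintro ⟨v, b⟩
  -- bound by the functional
  have h1 : EL (α := Clause (j + 2) (n + 1)) i
        (fun E => EL (α := Clause (j + 3) (n + 1)) M (fun F => if v ∈ free E then
      (hit J (cutL (fun _ => 0) E) F - hit J (cutLit (cutL (fun _ => 0) E) (v, b)) F) ^ 2 else 0))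
      ≤ EL (α := Clause (j + 2) (n + 1)) i
        (fun E => EL (α := Clause (j + 3) (n + 1)) M (fun F =>
          4 ^ (cnt v F) * ((0 : ℝ) ^ (cnt v E) *
            Phi J M (pureL v E) (pureL v F) (redL v b F)))) :=
    EL_mono fun E => EL_mono' fun F hF => loss_sq_le_Phi v b M E F hF
  refine h1.trans ?_
  rw [EL_comm]
  have h2 : EL (α := Clause (j + 3) (n + 1)) M (fun F => EL (α := Clause (j + 2) (n + 1)) i
        (fun E => 4 ^ (cnt v F) * ((0 : ℝ) ^ (cnt v E) *
            Phi J M (pureL v E) (pureL v F) (redL v b F)))) =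
      EL (α := Clause (j + 3) (n + 1)) M (fun F => 4 ^ (cnt v F) *
        (fun P R => EL (α := Clause (j + 2) (n + 1)) i (fun E => (0 : ℝ) ^ (cnt v E) *
            Phi J M (pureL v E) P R)) (pureL v F) (redL v b F)) :=
    EL_congr fun F => EL_const_mul _ _ _
  rw [h2]
  refine (EL_pattern (m := j + 2) (by omega) v b 4 1 4 (by norm_num) (by norm_num) (by norm_num)
    M (Λ * 2 ^ i) (fun (P : List (Clause (j + 3) n)) (R : List (Clause (j + 2) n)) =>
      EL (α := Clause (j + 2) (n + 1)) i (fun E => (0 : ℝ) ^ (cnt v E) *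
            Phi J M (pureL v E) P R)) (by positivity) ?_).trans (le_of_eq ?_)
  swap
  · congr 2; ring
  intro a e
  rw [one_pow, mul_one]
  have h3 : EL (α := Clause (j + 3) n) a (fun P => EL (α := Clause (j + 2) n) e (fun R =>
      EL (α := Clause (j + 2) (n + 1)) i (fun E => (0 : ℝ) ^ (cnt v E) *
            Phi J M (pureL v E) P R))) =
      EL (α := Clause (j + 2) (n + 1)) i (fun E => (0 : ℝ) ^ (cnt v E) *
        (fun E' (_ : List (Clause (j + 1) n)) => EL (α := Clause (j + 3) n) a (fun P =>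
          EL (α := Clause (j + 2) n) e (fun R => Phi J M E' P R))) (pureL v E) (redL v b E)) := by
    rw [EL_congr fun P => EL_comm e i _, EL_comm]
    refine EL_congr fun E => ?_
    dsimp only
    rw [← EL_const_mul]
    refine EL_congr fun P => ?_
    rw [← EL_const_mul]
  show EL (α := Clause (j + 3) n) a (fun P => EL (α := Clause (j + 2) n) e (fun R =>
      EL (α := Clause (j + 2) (n + 1)) i (fun E => (0 : ℝ) ^ (cnt v E) *
            Phi J M (pureL v E) P R))) ≤ _
  rw [h3]
  refine (EL_pattern (m := j + 1) (by omega) v b 0 2 1 (by norm_num) (by norm_num) (by norm_num)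
    i (Λ * 4 ^ e) (fun (E' : List (Clause (j + 2) n)) (_ : List (Clause (j + 1) n)) =>
      EL (α := Clause (j + 3) n) a (fun P =>
          EL (α := Clause (j + 2) n) e (fun R => Phi J M E' P R))) (by positivity) ?_).trans ?_
  · intro i' e'
    rw [one_pow, mul_one, EL_congr fun E => EL_const e' _]
    by_cases ha : a ≤ M
    · have h4 : EL (α := Clause (j + 2) n) i' (fun E' => EL (α := Clause (j + 3) n) a (fun P =>
          EL (α := Clause (j + 2) n) e (fun R => Phi J M E' P R))) = Wc J j n i' a e := by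
        unfold Wc
        refine EL_congr fun E' => EL_congr' fun P hP => EL_congr fun R => ?_
        unfold Phi; rw [if_pos (hP ▸ ha)]
      rw [h4]
      refine (Wc_le hn a Λ hΛ (fun i => hL i a ha) e i').trans ?_
      have h5 : (0 : ℝ) ≤ Λ * 2 ^ i' := by positivity
      nlinarith
    · have h4 : EL (α := Clause (j + 2) n) i' (fun E' => EL (α := Clause (j + 3) n) a (fun P =>
          EL (α := Clause (j + 2) n) e (fun R => Phi J M E' P R))) = 0 := by
        rw [← EL_zero_fun (α := Clause (j + 2) n) i']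
        refine EL_congr fun E' => ?_
        rw [← EL_zero_fun (α := Clause (j + 3) n) a]
        refine EL_congr' fun P hP => ?_
        rw [← EL_zero_fun (α := Clause (j + 2) n) e]
        refine EL_congr fun R => ?_
        unfold Phi; rw [if_neg (hP ▸ ha)]
      rw [h4]
      positivity
  · have h6 : (1 - 2 * theta (j + 1) n) * 2 + theta (j + 1) n * (0 * 1) + theta (j + 1) n * 0 ≤ 2 := by
      linarith
    have h7 : 0 ≤ (1 - 2 * theta (j + 1) n) * 2 + theta (j + 1) n * (0 * 1) +
        theta (j + 1) n * 0 := by linarith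
    calc _ ≤ Λ * 4 ^ e * 2 ^ i :=
          mul_le_mul_of_nonneg_left (pow_le_pow_left₀ h7 h6 i) (by positivity)
      _ = Λ * 2 ^ i * 4 ^ e := by ring

end Crest.Agent.R153.G
end

-- ▼ part R153/GFrozen
section

/-!
Row 153, part A at all energy levels, task GFROZEN: killing probabilities against the frozen
fraction for cost functions.  If some assignment has cost `< J` nothing can be killed by one
clause or one literal; otherwise the assignments of cost `≤ J` all have cost exactly `J` and the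
`Finset` statements apply to `low J h`.
-/

set_option autoImplicit false

open Crest.ProbabilityR.RandomSAT

namespace Crest.Agent.R153.G

variable {J m n : ℕ}

/-- the assignments of cost `≤ J` -/
noncomputable def low (J : ℕ) {n : ℕ} (h : Cost n) : Finset (Asg n) :=
  Finset.univ.filter (fun σ => h σ ≤ J)

theorem mem_low {h : Cost n} {σ : Asg n} : σ ∈ low J h ↔ h σ ≤ J := by
  unfold low; simp

theorem low_nonempty {h : Cost n} : (low J h).Nonempty ↔ ∃ σ, h σ ≤ J := by
  constructor
  · rintro ⟨σ, hσ⟩; exact ⟨σ, mem_low.1 hσ⟩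
  · rintro ⟨σ, hσ⟩; exact ⟨σ, mem_low.2 hσ⟩

/-- if some cost is `< J`, no literal kills -/
theorem ne_cutLit_of_lt {h : Cost n} (hh : ∃ σ, h σ < J) (l : Fin n × Bool) :
    ne J (cutLit h l) = 1 := by
  obtain ⟨σ, hσ⟩ := hh
  exact ne_of_exists ⟨σ, (cutLit_le_succ h l σ).trans hσ⟩

/-- if some cost is `< J`, no clause kills -/
theorem ne_cut_of_lt {h : Cost n} (hh : ∃ σ, h σ < J) (q : Clause m n) :
    ne J (cut h q) = 1 := by
  obtain ⟨σ, hσ⟩ := hh
  exact ne_of_exists ⟨σ, (cut_le_succ h q σ).trans hσ⟩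

theorem ne_cutLit_of_ge {h : Cost n} (hh : ∀ σ, J ≤ h σ) (l : Fin n × Bool) :
    ne J (cutLit h l) = R153.ne (R153.cutLit (low J h) l) := by
  by_cases hc : ∃ σ, cutLit h l σ ≤ J
  · rw [ne_of_exists hc, ne_of_nonempty]
    obtain ⟨σ, hσ⟩ := hc
    have hl : σ l.1 = l.2 := by
      by_contra hne
      rw [cutLit_of_ne hne] at hσ
      have := hh σ
      omega
    refine ⟨σ, mem_cutLit.2 ⟨mem_low.2 ?_, hl⟩⟩
    rwa [cutLit_of_eq hl] at hσ
  · rw [ne_eq_zero hc, R153.ne_eq_zero]
    rintro ⟨σ, hσ⟩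
    obtain ⟨h1, h2⟩ := mem_cutLit.1 hσ
    refine hc ⟨σ, ?_⟩
    rw [cutLit_of_eq h2]
    exact mem_low.1 h1

theorem ne_cut_of_ge {h : Cost n} (hh : ∀ σ, J ≤ h σ) (q : Clause m n) :
    ne J (cut h q) = R153.ne (R153.cut (low J h) q) := by
  by_cases hc : ∃ σ, cut h q σ ≤ J
  · rw [ne_of_exists hc, ne_of_nonempty]
    obtain ⟨σ, hσ⟩ := hc
    have hl : ClauseSat σ q := by
      by_contra hne
      rw [cut_of_not_sat hne] at hσ
      have := hh σ
      omega
    refine ⟨σ, mem_cut.2 ⟨mem_low.2 ?_, hl⟩⟩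
    rwa [cut_of_sat hl] at hσ
  · rw [ne_eq_zero hc, R153.ne_eq_zero]
    rintro ⟨σ, hσ⟩
    obtain ⟨h1, h2⟩ := mem_cut.1 hσ
    refine hc ⟨σ, ?_⟩
    rw [cut_of_sat h2]
    exact mem_low.1 h1

theorem phi1_of_lt {h : Cost n} (hh : ∃ σ, h σ < J) : phi1 J h = 0 := by
  unfold phi1
  rw [← avg_zero (α := Fin n × Bool)]
  exact avg_congr fun l => by rw [ne_cutLit_of_lt hh, sub_self]

theorem phi_of_lt {h : Cost n} (hh : ∃ σ, h σ < J) : phi J m h = 0 := by
  unfold phi
  rw [← avg_zero (α := Clause m n)]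
  exact avg_congr fun q => by rw [ne_cut_of_lt hh, sub_self]

theorem phi1_of_ge {h : Cost n} (hh : ∀ σ, J ≤ h σ) : phi1 J h = R153.phi1 (low J h) := by
  unfold phi1 R153.phi1
  exact avg_congr fun l => by rw [ne_cutLit_of_ge hh]

theorem phi_of_ge {h : Cost n} (hh : ∀ σ, J ≤ h σ) : phi J m h = R153.phi m (low J h) := by
  unfold phi R153.phi
  exact avg_congr fun q => by rw [ne_cut_of_ge hh]

theorem phi1_nonneg (h : Cost n) : 0 ≤ phi1 J h := by
  unfold phi1
  exact avg_nonneg fun l => by linarith [ne_le_one (J := J) (cutLit h l)]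


theorem phi1_le_one (h : Cost n) : phi1 J h ≤ 1 := by
  unfold phi1
  refine (avg_mono fun l => ?_).trans (avg_const_le (α := Fin n × Bool) zero_le_one)
  linarith [ne_nonneg (J := J) (cutLit h l)]


/-- the frozen fraction increases with the cost -/
theorem phi1_mono {h g : Cost n} (hg : h ≤ g) : phi1 J h ≤ phi1 J g := by
  unfold phi1
  exact avg_mono fun l => by linarith [ne_anti (J := J) (cutLit_mono hg l)]


/-- a clause kills with probability at most `phi1 ^ m` -/
theorem phi_le_pow (J m : ℕ) (h : Cost n) (hh : ∃ σ, h σ ≤ J) : phi J m h ≤ phi1 J h ^ m := by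
  by_cases hlt : ∃ σ, h σ < J
  · rw [phi_of_lt hlt]
    exact pow_nonneg (phi1_nonneg h) m
  · push Not at hlt
    rw [phi_of_ge hlt, phi1_of_ge hlt]
    exact R153.phi_le_pow m _ (low_nonempty.2 hh)

/-- large frozen fraction: killing is likely -/
theorem phi_lower (J m : ℕ) (ε : ℝ) (hε : 0 < ε) (hn : (m : ℝ) ≤ ε * n) (h : Cost n)
    (hh : ∃ σ, h σ ≤ J) (hphi : ε < phi1 J h) : (ε / 2) ^ m ≤ phi J m h := by
  by_cases hlt : ∃ σ, h σ < J
  · rw [phi1_of_lt hlt] at hphi
    exact absurd hphi (not_lt.2 hε.le)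
  · push Not at hlt
    rw [phi1_of_ge hlt] at hphi
    rw [phi_of_ge hlt]
    exact R153.phi_lower m ε hε hn _ (low_nonempty.2 hh) hphi



end Crest.Agent.R153.G
end

-- ▼ part R153/GLossSq
section

/-! Row 153, part A at all energy levels, GLOSSSQ (helper638). -/

set_option autoImplicit false

open Crest.ProbabilityR.RandomSAT

namespace Crest.Agent.R153.G

section aux
variable {J k n : ℕ}

theorem hit_eq_hitA (F : List (Clause k n)) :
    ∀ X : Cost n, hit J X F = LossAbs.hitA cut (ne J) X F := by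
  induction F with
  | nil => intro X; rfl
  | cons c F ih =>
    intro X
    show ne J X + hit J (cut X c) F = ne J X + LossAbs.hitA cut (ne J) (cut X c) F
    rw [ih]

theorem Teps_eq_TA (ε : ℝ) (F : List (Clause k n)) :
    ∀ X : Cost n, Teps J ε X F = LossAbs.TA cut (frz J ε) X F := by
  induction F with
  | nil => intro X; rfl
  | cons c F ih =>
    intro X
    show frz J ε X + Teps J ε (cut X c) F = frz J ε X + LossAbs.TA cut (frz J ε) (cut X c) F
    rw [ih]

theorem ne_zero_of_le {h g : Cost n} (hg : h ≤ g) (h0 : ne J h = 0) : ne J g = 0 :=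
  le_antisymm ((ne_anti hg).trans h0.le) (ne_nonneg g)

theorem frz_one_iff (ε : ℝ) (h : Cost n) :
    frz J ε h = 1 ↔ (∃ σ, h σ ≤ J) ∧ ε < phi1 J h := by
  unfold frz; split_ifs with h1
  · exact ⟨fun _ => h1, fun _ => rfl⟩
  · exact ⟨fun h' => by norm_num at h', fun h' => absurd h' h1⟩

theorem ne_of_frz_one {ε : ℝ} {h : Cost n} (h1 : frz J ε h = 1) : ne J h = 1 :=
  ne_of_exists ((frz_one_iff ε h).1 h1).1

theorem frz_step (ε : ℝ) (h : Cost n) (c : Clause k n) (h1 : frz J ε h = ne J h) :
    frz J ε (cut h c) = ne J (cut h c) := by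
  rcases ne_zero_or_one (J := J) (cut h c) with h0 | h0
  · rcases frz_zero_or_one (J := J) ε (cut h c) with h2 | h2
    · rw [h0, h2]
    · rw [ne_of_frz_one h2] at h0; norm_num at h0
  · have hX : ne J h = 1 := by
      rcases ne_zero_or_one (J := J) h with h2 | h2
      · rw [ne_zero_of_le (le_cut h c) h2] at h0; norm_num at h0
      · exact h2
    rw [hX] at h1
    have h3 := (frz_one_iff ε h).1 h1
    rw [h0, frz_one_iff]
    exact ⟨ne_eq_one_iff.1 h0, h3.2.trans_le (phi1_mono (le_cut h c))⟩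

/-- the master inequality in the concrete setting -/
theorem avg_loss_sq_wt {j : ℕ} (ε a b c : ℝ) (wt : Fin n × Bool → ℝ)
    (hle : ∀ X : Cost n, (∃ σ, X σ ≤ J) → phi J (j + 2) X ≤
      a * avg (fun l : Fin n × Bool => wt l * (1 - ne J (cutLit X l))) + (b * frz J ε X + c))
    (X : Cost n) (F : List (Clause k n)) :
    avg (fun q : Clause (j + 2) n => (hit J X F - hit J (cut X q) F) ^ 2) ≤
      a * avg (fun l : Fin n × Bool => wt l * (hit J X F - hit J (cutLit X l) F) ^ 2) +
        (b * (Teps J ε X F) ^ 2 + c * (hit J X F) ^ 2) := by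
  simp only [hit_eq_hitA, Teps_eq_TA]
  refine LossAbs.avg_loss_sq_gen (al := ne J) (cutS := cut) ne_zero_or_one
    (fun X c h => ne_zero_of_le (le_cut X c) h)
    (fun q X => cut X q) (fun q X h => ne_zero_of_le (le_cut X q) h)
    (fun q X c => cut_comm X c q)
    (fun l X => cutLit X l) (fun l X h => ne_zero_of_le (le_cutLit X l) h)
    (fun l X c => cutLit_cut_comm X l c)
    (frz_zero_or_one ε) (frz_step ε) (fun X h => ne_of_frz_one h) a b c wt ?_ X F
  intro X hX
  simp only [hX]
  exact hle X (ne_eq_one_iff.1 hX)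

end aux


/-- variant of `avg_loss_sq_le` where only the literals of a set `U` of variables are used; the
complement of `U` has proportion at most `τ` -/
theorem avg_loss_sq_le_on {J j n k : ℕ} (ε τ : ℝ) (hε : 0 < ε) (hτ : 0 ≤ τ) (U : Finset (Fin n))
    (hU : ((Finset.univ \ U).card : ℝ) ≤ τ * n) (X : Cost n) (F : List (Clause k n)) :
    avg (fun q : Clause (j + 2) n => (hit J X F - hit J (cut X q) F) ^ 2) ≤
      2 ^ (j + 1) * (ε ^ (j + 1) * avg (fun l : Fin n × Bool =>
          if l.1 ∈ U then (hit J X F - hit J (cutLit X l) F) ^ 2 else 0) +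
        (Teps J ε X F) ^ 2 + τ ^ (j + 2) * (hit J X F) ^ 2) := by
  have key := avg_loss_sq_wt (J := J) (j := j) (k := k) ε (2 ^ (j + 1) * ε ^ (j + 1)) (2 ^ (j + 1))
    (2 ^ (j + 1) * τ ^ (j + 2)) (fun l : Fin n × Bool => if l.1 ∈ U then (1 : ℝ) else 0) ?_ X F
  · have e : ∀ l : Fin n × Bool, (if l.1 ∈ U then (1 : ℝ) else 0) *
        (hit J X F - hit J (cutLit X l) F) ^ 2 =
        if l.1 ∈ U then (hit J X F - hit J (cutLit X l) F) ^ 2 else 0 := by
      intro l; split_ifs <;> simp
    rw [avg_congr e] at key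
    refine key.trans (le_of_eq ?_)
    ring
  · intro Y hY
    have h1 := phi_le_pow J (j + 2) Y hY
    have h2 : 0 ≤ phi1 J Y := phi1_nonneg Y
    have h3 : phi1 J Y ≤ 1 := phi1_le_one Y
    set u := avg (fun l : Fin n × Bool => (if l.1 ∈ U then (1 : ℝ) else 0) * (1 - ne J (cutLit Y l)))
      with hu
    have hl0 : ∀ l : Fin n × Bool, 0 ≤ 1 - ne J (cutLit Y l) := fun l => by
      linarith [ne_le_one (J := J) (cutLit Y l)]
    have hl1 : ∀ l : Fin n × Bool, 1 - ne J (cutLit Y l) ≤ 1 := fun l => by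
      linarith [ne_nonneg (J := J) (cutLit Y l)]
    have hu0 : 0 ≤ u := avg_nonneg fun l => by
      split_ifs
      · rw [one_mul]; exact hl0 l
      · rw [zero_mul]
    have hu1 : u ≤ phi1 J Y := avg_mono fun l => by
      split_ifs
      · rw [one_mul]
      · rw [zero_mul]; exact hl0 l
    have ht : phi1 J Y ≤ u + τ := by
      have : phi1 J Y ≤ avg (fun l : Fin n × Bool =>
          (if l.1 ∈ U then (1 : ℝ) else 0) * (1 - ne J (cutLit Y l)) +
            (if l.1 ∈ U then (0 : ℝ) else 1)) := avg_mono fun l => by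
        split_ifs
        · rw [one_mul, add_zero]
        · rw [zero_mul, zero_add]; exact hl1 l
      rw [avg_add] at this
      refine this.trans (add_le_add le_rfl ?_)
      unfold avg
      have hc : (∑ l : Fin n × Bool, if l.1 ∈ U then (0 : ℝ) else 1) =
          2 * ((Finset.univ \ U).card : ℝ) := by
        have hx : ∀ x : Fin n, (if x ∈ U then (0 : ℝ) else 1) =
            if x ∈ Finset.univ \ U then 1 else 0 := fun x => by
          by_cases h : x ∈ U <;> simp [h]
        rw [Fintype.sum_prod_type]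
        simp only [hx, Fintype.sum_bool]
        rw [Finset.sum_add_distrib, Finset.sum_ite_mem, Finset.univ_inter, Finset.sum_const,
          nsmul_eq_mul, mul_one]
        ring
      rw [hc, Fintype.card_prod, Fintype.card_fin, Fintype.card_bool]
      rcases Nat.eq_zero_or_pos n with hn | hn
      · subst hn; simpa using hτ
      · have hn' : (0 : ℝ) < n := by exact_mod_cast hn
        push_cast
        rw [div_le_iff₀ (by positivity)]
        nlinarith
    have hpow : phi1 J Y ^ (j + 2) ≤ 2 ^ (j + 1) * (u ^ (j + 2) + τ ^ (j + 2)) :=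
      (pow_le_pow_left₀ h2 ht _).trans (add_pow_le hu0 hτ (j + 2))
    have h2pos : (0 : ℝ) < 2 ^ (j + 1) := by positivity
    have hub : u ^ (j + 2) ≤ ε ^ (j + 1) * u + frz J ε Y := by
      by_cases hf : ε < u
      · rw [(frz_one_iff ε Y).2 ⟨hY, hf.trans_le hu1⟩]
        have h4 : u ^ (j + 2) ≤ 1 := pow_le_one₀ hu0 (hu1.trans h3)
        have h5 : 0 ≤ ε ^ (j + 1) * u := mul_nonneg (pow_nonneg hε.le _) hu0
        linarith
      · push Not at hf
        have h4 : u ^ (j + 2) ≤ ε ^ (j + 1) * u := by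
          rw [pow_succ u (j + 1)]
          exact mul_le_mul_of_nonneg_right (pow_le_pow_left₀ hu0 hf _) hu0
        have h5 : 0 ≤ frz J ε Y := by
          rcases frz_zero_or_one ε Y with h | h <;> rw [h]
          exact zero_le_one
        linarith
    calc phi J (j + 2) Y ≤ phi1 J Y ^ (j + 2) := h1
      _ ≤ 2 ^ (j + 1) * (u ^ (j + 2) + τ ^ (j + 2)) := hpow
      _ ≤ 2 ^ (j + 1) * ((ε ^ (j + 1) * u + frz J ε Y) + τ ^ (j + 2)) := by
          apply mul_le_mul_of_nonneg_left _ h2pos.le
          linarith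
      _ = _ := by ring


end Crest.Agent.R153.G
end

-- ▼ part R153/GInduct
section

/-! Row 153, all energy levels: the induction on the number of variables (helper784). -/

set_option autoImplicit false

open Crest.ProbabilityR.RandomSAT

namespace Crest.Agent.R153.G

variable {J j k m n : ℕ}

theorem Teps_eq_visits_aux (ε : ℝ) (F : List (Clause k n)) :
    ∀ h : Cost n, Teps J ε h F = visits cut (frz J ε) h F := by
  induction F with
  | nil => intro h; rfl
  | cons c F ih =>
    intro h
    show frz J ε h + Teps J ε (cut h c) F = frz J ε h + visits cut (frz J ε) (cut h c) F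
    rw [ih]

/-- the number of steps with frozen fraction `> ε` is dominated by a geometric variable -/
theorem EL_Teps_sq_le_aux (k : ℕ) {n : ℕ} (ε : ℝ) (hε : 0 < ε) (hε1 : ε ≤ 1)
    (hn : (k : ℝ) ≤ ε * n) (hkn : k ≤ n) (M : ℕ) (h : Cost n) :
    EL M (fun F : List (Clause k n) => (Teps J ε h F) ^ 2) ≤ 2 / ((ε / 2) ^ k) ^ 2 := by
  have : Nonempty (Clause k n) := nonempty_clause hkn
  simp only [Teps_eq_visits_aux]
  refine EL_visits_sq_le cut (frz J ε) (ne J) ((ε / 2) ^ k) (by positivity)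
    (pow_le_one₀ (by positivity) (by linarith)) (frz_zero_or_one ε) ne_zero_or_one ?_ ?_ ?_ M h
  · intro g hg
    rcases frz_zero_or_one (J := J) ε g with h1 | h1
    · exact h1
    · rw [ne_of_frz_one h1] at hg; norm_num at hg
  · intro g c hg
    exact ne_zero_of_le (le_cut g c) hg
  · intro g hg
    have h1 := (frz_one_iff ε g).1 hg
    have h2 := phi_lower J k ε hε hn g h1.1 h1.2
    have h3 : phi J k g = 1 - avg (fun q : Clause k n => ne J (cut g q)) := by
      unfold phi; rw [avg_sub, avg_const]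
    rw [h3] at h2
    linarith

theorem card_univ_sdiff_free_le (E : List (Clause m n)) :
    (Finset.univ \ free E).card ≤ m * E.length := by
  classical
  have h1 : Finset.univ \ free E ⊆ (E.flatMap (fun c => List.ofFn c.1.1)).toFinset := by
    intro v hv
    rw [Finset.mem_sdiff, mem_free] at hv
    have h2 := hv.2
    push Not at h2
    obtain ⟨c, hc, a, ha⟩ := h2
    rw [List.mem_toFinset, List.mem_flatMap]
    exact ⟨c, hc, List.mem_ofFn.2 ⟨a, ha⟩⟩
  refine (Finset.card_le_card h1).trans ((List.toFinset_card_le _).trans ?_)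
  rw [List.length_flatMap]
  have h3 : (List.map (fun c : Clause m n => (List.ofFn c.1.1).length) E).sum = m * E.length := by
    induction E with
    | nil => simp
    | cons c E ih =>
      rw [List.map_cons, List.sum_cons, List.length_ofFn, List.length_cons, Nat.mul_succ]
      have : Finset.univ \ free E ⊆ (E.flatMap (fun c => List.ofFn c.1.1)).toFinset := by
        intro v hv
        rw [Finset.mem_sdiff, mem_free] at hv
        have h2 := hv.2
        push Not at h2
        obtain ⟨c, hc, a, ha⟩ := h2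
        rw [List.mem_toFinset, List.mem_flatMap]
        exact ⟨c, hc, List.mem_ofFn.2 ⟨a, ha⟩⟩
      rw [ih this, Nat.add_comm]
  exact h3.le

/-- the loss of a clause against the loss of untouched literals, averaged -/
theorem Lq_le (hn : j + 3 ≤ n) (ε : ℝ) (hε : 0 < ε) (hε1 : ε ≤ 1) (hnε : ((j + 3 : ℕ) : ℝ) ≤ ε * n)
    (i a : ℕ) :
    Lq J j n i a ≤ 2 ^ (j + 1) * (ε ^ (j + 1) * DDu J j n i a + 2 / ((ε / 2) ^ (j + 3)) ^ 2 +
      ((j + 2) * i / n * (a + 1)) ^ 2) := by
  have : Nonempty (Clause (j + 2) n) := nonempty_clause (by omega)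
  have : Nonempty (Clause (j + 3) n) := nonempty_clause hn
  have hn0 : (0 : ℝ) < n := by
    have : 0 < n := by omega
    exact_mod_cast this
  have hpt : ∀ (E : List (Clause (j + 2) n)), E.length = i → ∀ (P : List (Clause (j + 3) n)),
      P.length = a →
      avg (fun q : Clause (j + 2) n => loss J (cutL (fun _ => 0) E) q P ^ 2) ≤
      2 ^ (j + 1) * (ε ^ (j + 1) * avg (fun l : Fin n × Bool => if l.1 ∈ free E then
        (hit J (cutL (fun _ => 0) E) P - hit J (cutLit (cutL (fun _ => 0) E) l) P) ^ 2 else 0) +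
        (Teps J ε (cutL (fun _ => 0) E) P) ^ 2 + ((j + 2) * i / n * (a + 1)) ^ 2) := by
    intro E hE P hP
    set τ : ℝ := ((Finset.univ \ free E).card : ℝ) / n with hτ
    have hτ0 : 0 ≤ τ := by positivity
    have hτ1 : τ ≤ 1 := by
      rw [hτ, div_le_one hn0]
      have : (Finset.univ \ free E).card ≤ (Finset.univ : Finset (Fin n)).card :=
        Finset.card_le_card Finset.sdiff_subset
      rw [Finset.card_univ, Fintype.card_fin] at this
      exact_mod_cast this
    have hτ2 : τ ≤ (j + 2) * i / n := by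
      rw [hτ]
      refine div_le_div_of_nonneg_right ?_ hn0.le
      have := card_univ_sdiff_free_le E
      rw [hE] at this
      exact_mod_cast this
    have h1 := avg_loss_sq_le_on (J := J) (j := j) ε τ hε hτ0 (free E)
      (by rw [hτ, div_mul_cancel₀ _ hn0.ne']) (cutL (fun _ => 0) E) P
    refine h1.trans ?_
    refine mul_le_mul_of_nonneg_left ?_ (by positivity)
    refine add_le_add le_rfl ?_
    have h2 : τ ^ (j + 2) ≤ ((j + 2) * i / n) ^ 2 := by
      calc τ ^ (j + 2) = τ ^ j * τ ^ 2 := by rw [pow_add]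
        _ ≤ 1 * ((j + 2) * i / n) ^ 2 :=
          mul_le_mul (pow_le_one₀ hτ0 hτ1) (pow_le_pow_left₀ hτ0 hτ2 2) (by positivity)
            zero_le_one
        _ = _ := one_mul _
    have h3 : hit J (cutL (fun _ => 0) E) P ≤ a + 1 := by
      have := hit_le_length (J := J) (cutL (fun _ => 0) E) P
      rwa [hP] at this
    have h4 := hit_nonneg (J := J) (cutL (fun _ => 0) E) P
    rw [mul_pow]
    exact mul_le_mul h2 (pow_le_pow_left₀ h4 h3 2) (by positivity) (by positivity)
  unfold Lq
  refine (EL_mono' fun E hE => EL_mono' fun P hP => hpt E hE P hP).trans ?_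
  have hT : EL (α := Clause (j + 2) n) i (fun E => EL (α := Clause (j + 3) n) a (fun P =>
      (Teps J ε (cutL (fun _ => 0) E) P) ^ 2)) ≤ 2 / ((ε / 2) ^ (j + 3)) ^ 2 := by
    refine (EL_mono fun E => EL_Teps_sq_le_aux (J := J) (j + 3) ε hε hε1 hnε hn a
      (cutL (fun _ => 0) E)).trans ?_
    exact EL_const_le (by positivity)
  have heq : EL (α := Clause (j + 2) n) i (fun E => EL (α := Clause (j + 3) n) a (fun P =>
      2 ^ (j + 1) * (ε ^ (j + 1) * avg (fun l : Fin n × Bool => if l.1 ∈ free E then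
        (hit J (cutL (fun _ => 0) E) P - hit J (cutLit (cutL (fun _ => 0) E) l) P) ^ 2 else 0) +
        (Teps J ε (cutL (fun _ => 0) E) P) ^ 2 + ((j + 2) * i / n * (a + 1)) ^ 2))) =
      2 ^ (j + 1) * (ε ^ (j + 1) * DDu J j n i a +
        EL (α := Clause (j + 2) n) i (fun E => EL (α := Clause (j + 3) n) a (fun P =>
          (Teps J ε (cutL (fun _ => 0) E) P) ^ 2)) + ((j + 2) * i / n * (a + 1)) ^ 2) := by
    have e1 : ∀ E : List (Clause (j + 2) n), EL (α := Clause (j + 3) n) a (fun P =>
      2 ^ (j + 1) * (ε ^ (j + 1) * avg (fun l : Fin n × Bool => if l.1 ∈ free E then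
        (hit J (cutL (fun _ => 0) E) P - hit J (cutLit (cutL (fun _ => 0) E) l) P) ^ 2 else 0) +
        (Teps J ε (cutL (fun _ => 0) E) P) ^ 2 + ((j + 2) * i / n * (a + 1)) ^ 2)) =
        2 ^ (j + 1) * (ε ^ (j + 1) * EL (α := Clause (j + 3) n) a (fun P =>
          avg (fun l : Fin n × Bool => if l.1 ∈ free E then
        (hit J (cutL (fun _ => 0) E) P - hit J (cutLit (cutL (fun _ => 0) E) l) P) ^ 2 else 0)) +
        EL (α := Clause (j + 3) n) a (fun P => (Teps J ε (cutL (fun _ => 0) E) P) ^ 2) +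
        ((j + 2) * i / n * (a + 1)) ^ 2) := by
      intro E
      rw [EL_const_mul, EL_add, EL_add, EL_const_mul, EL_const]
    rw [EL_congr e1, EL_const_mul, EL_add, EL_add, EL_const_mul, EL_const]
    rfl
  rw [heq]
  refine mul_le_mul_of_nonneg_left ?_ (by positivity)
  linarith


/-- trivial bound -/
theorem DDu_le_sq (J j n i M : ℕ) : DDu J j n i M ≤ ((M : ℝ) + 1) ^ 2 := by
  unfold DDu
  refine (EL_mono (g := fun _ => ((M : ℝ) + 1) ^ 2) fun E => ?_).trans
    (EL_const_le (by positivity))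
  refine (EL_mono' (g := fun _ => ((M : ℝ) + 1) ^ 2) fun F hF => ?_).trans
    (EL_const_le (by positivity))
  refine (avg_mono (g := fun _ => ((M : ℝ) + 1) ^ 2) fun l => ?_).trans
    (avg_const_le (by positivity))
  split_ifs
  · have h1 := hit_le_length (J := J) (cutL (fun _ => 0) E) F
    have h2 := hit_nonneg (J := J) (cutLit (cutL (fun _ => 0) E) l) F
    have h3 : 0 ≤ hit J (cutL (fun _ => 0) E) F -
        hit J (cutLit (cutL (fun _ => 0) E) l) F := sub_nonneg.2 (hit_anti (le_cutLit _ _) F)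
    rw [hF] at h1
    exact pow_le_pow_left₀ h3 (by linarith) 2
  · positivity

theorem sq_le_two_mul_two_pow (i : ℕ) : ((i : ℝ)) ^ 2 ≤ 2 * 2 ^ i := by
  have h : i ^ 2 ≤ 2 * 2 ^ i := by
    rcases Nat.lt_or_ge i 4 with h | h
    · interval_cases i <;> norm_num
    · induction i, h using Nat.le_induction with
      | base => norm_num
      | succ i hi ih =>
        rw [pow_succ 2 i]
        nlinarith
  exact_mod_cast h

theorem succ_sq_le_four_mul_two_pow (s : ℕ) : ((s : ℝ) + 1) ^ 2 ≤ 4 * 2 ^ s := by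
  have h : (s + 1) ^ 2 ≤ 4 * 2 ^ s := by
    rcases Nat.lt_or_ge s 3 with h | h
    · interval_cases s <;> norm_num
    · induction s, h using Nat.le_induction with
      | base => norm_num
      | succ i hi ih =>
        rw [pow_succ 2 i]
        nlinarith
  exact_mod_cast h

/-- one step of the recursion, with constants -/
theorem DDu_step (C0 : ℕ) (K ε : ℝ) (hK : K = Real.exp (18 * ((j : ℝ) + 3) * C0))
    (hε : 0 < ε) (hε1 : ε ≤ 1) (hεK : K * 2 ^ (j + 1) * ε ≤ 1 / 2)
    (hn : j + 3 ≤ n) (hnε : ((j + 3 : ℕ) : ℝ) ≤ ε * n) (M : ℕ)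
    (hM : (M : ℝ) ≤ C0 * (2 * (n + 1))) (B : ℝ) (hB : 0 ≤ B)
    (h : ∀ i a, a ≤ M → DDu J j n i a ≤ B * 2 ^ i) :
    ∀ i a, a ≤ M → DDu J j (n + 1) i a ≤ (B / 2 + K * 2 ^ (j + 1) *
      (2 / ((ε / 2) ^ (j + 3)) ^ 2 + ((j + 2) * (4 * C0 + 1)) ^ 2 * 2)) * 2 ^ i := by
  intro i a ha
  have hn0 : (0 : ℝ) < n := by
    have : 0 < n := by omega
    exact_mod_cast this
  have hn1 : (1 : ℝ) ≤ n := by
    have : 1 ≤ n := by omega
    exact_mod_cast this
  set D : ℝ := 2 / ((ε / 2) ^ (j + 3)) ^ 2 + ((j + 2) * (4 * C0 + 1)) ^ 2 * 2 with hD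
  have hD0 : 0 ≤ D := by positivity
  set Λ : ℝ := 2 ^ (j + 1) * (ε ^ (j + 1) * B + D) with hΛ
  have hΛ0 : 0 ≤ Λ := by positivity
  have hL : ∀ i' a', a' ≤ a → Lq J j n i' a' ≤ Λ * 2 ^ i' := by
    intro i' a' ha'
    have h1 := Lq_le (J := J) hn ε hε hε1 hnε i' a'
    have h2 := h i' a' (ha'.trans ha)
    have h3 : (1 : ℝ) ≤ 2 ^ i' := one_le_pow₀ (by norm_num)
    have h4 : ((j + 2 : ℝ) * i' / n * (a' + 1)) ^ 2 ≤
        ((j + 2) * (4 * C0 + 1)) ^ 2 * 2 * 2 ^ i' := by
      have e : ((j + 2 : ℝ) * i' / n * (a' + 1)) = ((j + 2) * ((a' + 1) / n)) * i' := by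
        field_simp
      have e2 : ((a' : ℝ) + 1) / n ≤ 4 * C0 + 1 := by
        rw [div_le_iff₀ hn0]
        have : (a' : ℝ) ≤ M := by exact_mod_cast ha'.trans ha
        have h5 : (0 : ℝ) ≤ C0 := Nat.cast_nonneg _
        nlinarith
      rw [e, mul_pow]
      have h6 : (((j : ℝ) + 2) * ((a' + 1) / n)) ^ 2 ≤ ((j + 2) * (4 * C0 + 1)) ^ 2 :=
        pow_le_pow_left₀ (by positivity) (mul_le_mul_of_nonneg_left e2 (by positivity)) 2
      calc _ ≤ (((j : ℝ) + 2) * (4 * C0 + 1)) ^ 2 * (2 * 2 ^ i') :=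
            mul_le_mul h6 (sq_le_two_mul_two_pow i') (by positivity) (by positivity)
        _ = _ := by ring
    refine h1.trans ?_
    rw [hΛ, mul_assoc]
    refine mul_le_mul_of_nonneg_left ?_ (by positivity)
    have h5 : ε ^ (j + 1) * DDu J j n i' a' ≤ ε ^ (j + 1) * (B * 2 ^ i') :=
      mul_le_mul_of_nonneg_left h2 (by positivity)
    have h6 : 2 / ((ε / 2) ^ (j + 3)) ^ 2 ≤ 2 / ((ε / 2) ^ (j + 3)) ^ 2 * 2 ^ i' :=
      le_mul_of_one_le_right (by positivity) h3
    calc _ ≤ ε ^ (j + 1) * (B * 2 ^ i') + 2 / ((ε / 2) ^ (j + 3)) ^ 2 * 2 ^ i' +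
          ((j + 2) * (4 * C0 + 1)) ^ 2 * 2 * 2 ^ i' := by linarith
      _ = (ε ^ (j + 1) * B + D) * 2 ^ i' := by rw [hD]; ring
  have h1 := DDu_succ_le hn a Λ hΛ0 hL i
  have hθ : theta (j + 2) n = ((j : ℝ) + 3) / (2 * (n + 1)) := by
    unfold theta; push_cast; ring
  have hexp : (1 + 18 * theta (j + 2) n) ^ a ≤ K := by
    have h2 : 1 + 18 * theta (j + 2) n ≤ Real.exp (18 * theta (j + 2) n) := by
      have := Real.add_one_le_exp (18 * theta (j + 2) n)
      linarith
    have h3 : (0 : ℝ) ≤ theta (j + 2) n := theta_nonneg _ _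
    calc (1 + 18 * theta (j + 2) n) ^ a ≤ (Real.exp (18 * theta (j + 2) n)) ^ a :=
          pow_le_pow_left₀ (by positivity) h2 a
      _ = Real.exp (18 * theta (j + 2) n * a) := by rw [← Real.exp_nat_mul]; ring_nf
      _ ≤ K := by
        rw [hK]
        refine Real.exp_le_exp.2 ?_
        have h4 : (a : ℝ) ≤ C0 * (2 * (n + 1)) := le_trans (by exact_mod_cast ha) hM
        calc 18 * theta (j + 2) n * a ≤ 18 * theta (j + 2) n * (C0 * (2 * (n + 1))) :=
              mul_le_mul_of_nonneg_left h4 (by positivity)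
          _ = 18 * ((j : ℝ) + 3) * C0 := by rw [hθ]; field_simp
  have hK0 : 0 < K := by rw [hK]; exact Real.exp_pos _
  have hε2 : ε ^ (j + 1) ≤ ε := by
    calc ε ^ (j + 1) = ε ^ j * ε := pow_succ _ _
      _ ≤ 1 * ε := mul_le_mul_of_nonneg_right (pow_le_one₀ hε.le hε1) hε.le
      _ = ε := one_mul _
  refine h1.trans ?_
  calc Λ * 2 ^ i * (1 + 18 * theta (j + 2) n) ^ a ≤ Λ * 2 ^ i * K :=
        mul_le_mul_of_nonneg_left hexp (by positivity)
    _ = (K * 2 ^ (j + 1) * ε ^ (j + 1) * B + K * 2 ^ (j + 1) * D) * 2 ^ i := by rw [hΛ]; ring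
    _ ≤ (B / 2 + K * 2 ^ (j + 1) * D) * 2 ^ i := by
      refine mul_le_mul_of_nonneg_right (add_le_add ?_ le_rfl) (by positivity)
      calc K * 2 ^ (j + 1) * ε ^ (j + 1) * B ≤ K * 2 ^ (j + 1) * ε * B :=
            mul_le_mul_of_nonneg_right (mul_le_mul_of_nonneg_left hε2 (by positivity)) hB
        _ ≤ 1 / 2 * B := mul_le_mul_of_nonneg_right hεK hB
        _ = B / 2 := by ring

theorem exists_DDu_le (j C0 : ℕ) : ∃ A : ℝ, 0 ≤ A ∧ ∀ n : ℕ, j + 3 ≤ n → ∀ J M : ℕ, M ≤ C0 * n →
    DDu J j n 0 M ≤ A := by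
  set K : ℝ := Real.exp (18 * ((j : ℝ) + 3) * C0) with hK
  have hK0 : 0 < K := by rw [hK]; exact Real.exp_pos _
  set ε : ℝ := min 1 (1 / (K * 2 ^ (j + 1) * 2)) with hεd
  have hε : 0 < ε := lt_min one_pos (by positivity)
  have hε1 : ε ≤ 1 := min_le_left _ _
  have hεK : K * 2 ^ (j + 1) * ε ≤ 1 / 2 := by
    have h1 : ε ≤ 1 / (K * 2 ^ (j + 1) * 2) := min_le_right _ _
    calc K * 2 ^ (j + 1) * ε ≤ K * 2 ^ (j + 1) * (1 / (K * 2 ^ (j + 1) * 2)) :=
          mul_le_mul_of_nonneg_left h1 (by positivity)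
      _ = 1 / 2 := by field_simp
  set D : ℝ := K * 2 ^ (j + 1) *
      (2 / ((ε / 2) ^ (j + 3)) ^ 2 + ((j + 2) * (4 * C0 + 1)) ^ 2 * 2) with hD
  have hD0 : 0 ≤ D := by positivity
  obtain ⟨n1, hn1⟩ := exists_nat_ge (((j + 3 : ℕ) : ℝ) / ε)
  set N1 : ℕ := 2 * (n1 + (j + 3)) with hN1
  refine ⟨2 * D + 4 * (2 * C0 + 1) ^ 2 + (C0 * N1 + 1) ^ 2, by positivity, ?_⟩
  intro N hN J M hM
  rcases Nat.lt_or_ge N N1 with hlt | hge
  · refine (DDu_le_sq J j N 0 M).trans ?_
    have h1 : (M : ℝ) ≤ C0 * N1 := by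
      have : M ≤ C0 * N1 := hM.trans (Nat.mul_le_mul_left _ hlt.le)
      exact_mod_cast this
    have h2 : ((M : ℝ) + 1) ^ 2 ≤ (C0 * N1 + 1) ^ 2 :=
      pow_le_pow_left₀ (by positivity) (by linarith) 2
    have h3 : (0 : ℝ) ≤ 4 * (2 * (C0 : ℝ) + 1) ^ 2 := by positivity
    linarith
  · -- iterate from `n0 = N - N / 2` to `N`
    set s : ℕ := N / 2 with hs
    set n0 : ℕ := N - s with hn0
    have hn0a : n1 ≤ n0 := by omega
    have hn0b : j + 3 ≤ n0 := by omega
    have hn0c : N ≤ 2 * n0 := by omega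
    have hiter : ∀ t : ℕ, n0 + t ≤ N → ∀ i a, a ≤ M →
        DDu J j (n0 + t) i a ≤ (2 * D + ((M : ℝ) + 1) ^ 2 / 2 ^ t) * 2 ^ i := by
      intro t
      induction t with
      | zero =>
        intro _ i a ha
        rw [Nat.add_zero, pow_zero, div_one]
        have h1 := DDu_le_sq J j n0 i a
        have h2 : ((a : ℝ) + 1) ^ 2 ≤ ((M : ℝ) + 1) ^ 2 := by
          have : (a : ℝ) ≤ M := by exact_mod_cast ha
          exact pow_le_pow_left₀ (by positivity) (by linarith) 2
        have h3 : (1 : ℝ) ≤ 2 ^ i := one_le_pow₀ (by norm_num)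
        calc DDu J j n0 i a ≤ 2 * D + ((M : ℝ) + 1) ^ 2 := by linarith
          _ ≤ _ := le_mul_of_one_le_right (by positivity) h3
      | succ t ih =>
        intro ht i a ha
        have h1 := DDu_step (J := J) C0 K ε hK hε hε1 hεK (n := n0 + t) (by omega) (by
            have h2 : ((j + 3 : ℕ) : ℝ) ≤ ε * n1 := by
              rwa [div_le_iff₀ hε, mul_comm] at hn1
            refine h2.trans (mul_le_mul_of_nonneg_left ?_ hε.le)
            exact_mod_cast (by omega : n1 ≤ n0 + t)) M (by
            have h2 : M ≤ C0 * (2 * (n0 + t + 1)) :=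
              hM.trans (Nat.mul_le_mul_left _ (by omega))
            exact_mod_cast h2) (2 * D + ((M : ℝ) + 1) ^ 2 / 2 ^ t) (by positivity)
            (ih (by omega)) i a ha
        refine h1.trans (le_of_eq ?_)
        rw [← hD, pow_succ]
        ring
    have h1 := hiter s (by omega) 0 M le_rfl
    rw [show n0 + s = N by omega, pow_zero, mul_one] at h1
    refine h1.trans ?_
    have h2 : ((M : ℝ) + 1) ^ 2 / 2 ^ s ≤ 4 * (2 * (C0 : ℝ) + 1) ^ 2 := by
      rw [div_le_iff₀ (by positivity)]
      have h3 : (M : ℝ) + 1 ≤ (2 * C0 + 1) * (s + 1) := by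
        have h4 : M + 1 ≤ (2 * C0 + 1) * (s + 1) := by
          have h5 : M ≤ C0 * (2 * s + 1) := hM.trans (Nat.mul_le_mul_left _ (by omega))
          nlinarith
        exact_mod_cast h4
      calc ((M : ℝ) + 1) ^ 2 ≤ ((2 * C0 + 1) * (s + 1)) ^ 2 :=
            pow_le_pow_left₀ (by positivity) h3 2
        _ = (2 * (C0 : ℝ) + 1) ^ 2 * ((s : ℝ) + 1) ^ 2 := by ring
        _ ≤ (2 * (C0 : ℝ) + 1) ^ 2 * (4 * 2 ^ s) :=
            mul_le_mul_of_nonneg_left (succ_sq_le_four_mul_two_pow s) (by positivity)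
        _ = _ := by ring
    have h3 : (0 : ℝ) ≤ (C0 * N1 + 1) ^ 2 := by positivity
    linarith

theorem free_nil : free ([] : List (Clause m n)) = Finset.univ := by
  ext v; rw [mem_free]; simp

/-- the second moment of the loss of a uniform literal is bounded, at every level -/
theorem exists_DD_le (j C0 : ℕ) : ∃ A : ℝ, 0 ≤ A ∧ ∀ n : ℕ, j + 3 ≤ n → ∀ J M : ℕ, M ≤ C0 * n →
    DD J j n 0 M ≤ A := by
  obtain ⟨A, hA, h⟩ := exists_DDu_le j C0
  refine ⟨A, hA, fun n hn J M hM => (le_of_eq ?_).trans (h n hn J M hM)⟩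
  unfold DD DDu
  show EL (α := Clause (j + 3) n) M (fun F => avg (fun l : Fin n × Bool =>
      (hit J (cutL (fun _ => 0) ([] : List (Clause (j + 2) n))) F -
        hit J (cutLit (cutL (fun _ => 0) ([] : List (Clause (j + 2) n))) l) F) ^ 2)) =
    EL (α := Clause (j + 3) n) M (fun F => avg (fun l : Fin n × Bool =>
      if l.1 ∈ free ([] : List (Clause (j + 2) n)) then
      (hit J (cutL (fun _ => 0) ([] : List (Clause (j + 2) n))) F -
        hit J (cutLit (cutL (fun _ => 0) ([] : List (Clause (j + 2) n))) l) F) ^ 2 else 0))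
  simp only [free_nil, Finset.mem_univ, if_true]


end Crest.Agent.R153.G
end

-- ▼ part R153/AWeakFinal
section

/-! Row 153: linear growth of the minimal number of unsatisfied clauses above the threshold,
unconditional (helper211). -/

set_option autoImplicit false

open Crest.ProbabilityR.RandomSAT Filter Topology

namespace Crest.Agent.R153

/-- above a sharp threshold, the mean minimal number of unsatisfied clauses is linear -/
theorem aweak (j : ℕ) {α c : ℝ} (hα : IsSharpThreshold (satProb (j + 3)) α) (hc : α < c) :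
    ∃ κ : ℝ, 0 < κ ∧ ∀ᶠ n : ℕ in atTop,
      κ * n ≤ avg (fun F : Fin ⌊c * n⌋₊ → Clause (j + 3) n => (minUnsat F : ℝ)) :=
  aweak_minUnsat j hα hc fun C0 => by
    obtain ⟨A, _, hA⟩ := G.exists_DD_le j C0
    exact ⟨A, hA⟩

/-- the case of clause length `3` -/
theorem aweak3 {α c : ℝ} (hα : IsSharpThreshold (satProb 3) α) (hc : α < c) :
    ∃ κ : ℝ, 0 < κ ∧ ∀ᶠ n : ℕ in atTop,
      κ * n ≤ avg (fun F : Fin ⌊c * n⌋₊ → Clause 3 n => (minUnsat F : ℝ)) :=
  aweak 0 hα hc

end Crest.Agent.R153
end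

-- ▼ part R153/RC2Log
section

/-!
Row 153, RC2 at inverse temperatures `b log 2`: above the threshold the pressure of soft 3-SAT is
eventually at most `-1` for some natural `b`.
-/

set_option autoImplicit false

open MeasureTheory Crest.ProbabilityR.Diluted Crest.ProbabilityR.RandomSAT Filter Topology
open Crest.Agent.R153.Wr

namespace Crest.Agent.R153.Br

/-- RC2 for all large real inverse temperatures. -/
theorem rc2_real {c c' κ : ℝ} (hc : 0 ≤ c) (hcc : c < c') (hκ : 0 < κ)
    (hE : ∀ᶠ n : ℕ in atTop,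
      κ * n ≤ avg (fun F : Fin ⌊c * n⌋₊ → Clause 3 n => (minUnsat F : ℝ)))
    {β : ℝ} (hβ0 : 0 ≤ β) (hβ : (Real.log 2 + 1) * (4 / κ) < β) :
    ∀ᶠ N : ℕ in atTop, pressure 3 c' (muSAT β) (Measure.dirac 0) N ≤ -1 := by
  have hc'0 : 0 < c' := hc.trans_lt hcc
  have hd : 0 < c' - c := by linarith
  -- lower bounds on N
  have hl1 : ∀ᶠ N : ℕ in atTop, 2 * c' / (c' - c) ^ 2 < (N : ℝ) :=
    tendsto_natCast_atTop_atTop.eventually_gt_atTop _
  have hl2 : ∀ᶠ N : ℕ in atTop, 6 * c / κ < (N : ℝ) :=
    tendsto_natCast_atTop_atTop.eventually_gt_atTop _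
  filter_upwards [hE, hl1, hl2, eventually_ge_atTop 3] with N h1 h2 h3 hN
  have hN0 : (0 : ℝ) < N := by
    have : 0 < N := by omega
    exact_mod_cast this
  have hm : ((⌊c * N⌋₊ : ℕ) : ℝ) ≤ c * N := Nat.floor_le (by positivity)
  have ht : 0 < (c' - c) * N := by positivity
  have key := pressure_le hc'0.le hβ0 hN ⌊c * N⌋₊ ht (by nlinarith)
  -- the energy
  have hq := qd_three_ge N hN
  have h4 := aW_ge hN ⌊c * N⌋₊
  have h5 : ((⌊c * N⌋₊ : ℕ) : ℝ) * (1 - qd 3 N) ≤ 3 * c := by
    have h6 : (1 - qd 3 N) ≤ 3 / N := by linarith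
    have h7 : 0 ≤ 1 - qd 3 N := by linarith [qd_le_one 3 N]
    calc ((⌊c * N⌋₊ : ℕ) : ℝ) * (1 - qd 3 N) ≤ (c * N) * (3 / N) :=
          mul_le_mul hm h6 h7 (by positivity)
      _ = 3 * c := by field_simp
  have h6 : κ / 2 * N ≤ aW N ⌊c * N⌋₊ := by
    have : 6 * c < κ * N := by
      rw [div_lt_iff₀ hκ] at h3; linarith
    linarith
  have h7 : c' * N / ((c' - c) * N) ^ 2 ≤ 1 / 2 := by
    rw [div_lt_iff₀ (by positivity)] at h2
    rw [div_le_iff₀ (by positivity)]
    nlinarith
  have h8 : κ / 4 * N ≤ (1 - c' * N / ((c' - c) * N) ^ 2) * aW N ⌊c * N⌋₊ := by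
    calc κ / 4 * N = (1 / 2) * (κ / 2 * N) := by ring
      _ ≤ _ := mul_le_mul (by linarith) h6 (by positivity) (by linarith)
  have h9 : Real.log 2 + 1 ≤ β * ((1 - c' * N / ((c' - c) * N) ^ 2) * aW N ⌊c * N⌋₊) / N := by
    rw [le_div_iff₀ hN0]
    have h10 : (Real.log 2 + 1) * (4 / κ) * (κ / 4 * N) ≤
        β * ((1 - c' * N / ((c' - c) * N) ^ 2) * aW N ⌊c * N⌋₊) :=
      mul_le_mul hβ.le h8 (by positivity) hβ0
    have h11 : (Real.log 2 + 1) * (4 / κ) * (κ / 4 * N) = (Real.log 2 + 1) * N := by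
      field_simp
    linarith
  linarith

/-- above the threshold, for some `b`, the pressure at `b log 2` is eventually at most `-1` -/
theorem rc2_log {α c : ℝ} (hα : IsSharpThreshold (satProb 3) α) (hc : α < c) :
    ∃ b : ℕ, ∀ᶠ N : ℕ in atTop,
      pressure 3 c (muSAT ((b : ℝ) * Real.log 2)) (Measure.dirac 0) N ≤ -1 := by
  obtain ⟨c1, h1, h2⟩ := exists_between hc
  obtain ⟨κ, hκ, h⟩ := aweak3 hα h1
  have hlog : 0 < Real.log 2 := Real.log_pos (by norm_num)
  obtain ⟨b, hb⟩ := exists_nat_gt ((Real.log 2 + 1) * (4 / κ) / Real.log 2)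
  refine ⟨b, rc2_real ((threshold_nonneg hα).trans h1.le) h2 hκ h (by positivity) ?_⟩
  rwa [div_lt_iff₀ hlog] at hb

end Crest.Agent.R153.Br
end

-- ▼ part R153/S0218Cond

/-!
Row 153: S0218 from the lower bound half (`PartL`) of row 141.
-/

set_option autoImplicit false

namespace Crest.Agent.R153

open MeasureTheory Filter Topology Crest.ProbabilityR.RandomSAT Crest.ProbabilityR.Diluted
open Crest.Agent.R141

/-- Soundness of the right cut: a negative trial bounds the threshold. -/
theorem le_of_hasNegTrial {α : ℝ} (hα : IsSharpThreshold (satProb 3) α) {c : ℝ} (hc : 0 < c)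
    (h : HasNegTrial c) : α ≤ c := by
  by_contra hcon
  push Not at hcon
  obtain ⟨b, r, m, X, hm, hX, hlt⟩ := h
  have hβ : 0 ≤ (b : ℝ) * Real.log 2 :=
    mul_nonneg (Nat.cast_nonneg b) (Real.log_nonneg (by norm_num))
  set B := trialFunctional 3 c (muSAT ((b : ℝ) * Real.log 2)) (Measure.dirac 0) r m X with hB
  have hU : PartU 3 c (muSAT ((b : ℝ) * Real.log 2)) (Measure.dirac 0) :=
    partU_of_KI 3 (by norm_num) c hc.le _ _ (integrable_muSAT _ _) (integrable_dirac (by simp))
      (kiProp_muSAT hβ)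
  have h1 := Wr.rc1 hα hc.le hcon hβ (ε := -B / 2) (by linarith)
  obtain ⟨N, h2, h3⟩ := (h1.and (eventually_ge_atTop 1)).exists
  have h4 := hU N h3 r m X hm hX
  linarith

/-- Completeness of the right cut: above the threshold there is a negative trial. -/
theorem hasNegTrial_of_lt {α : ℝ} (hα : IsSharpThreshold (satProb 3) α) {c : ℝ}
    (hL : PartL 3 c) (hc : α < c) : HasNegTrial c := by
  obtain ⟨b, hb⟩ := Br.rc2_log hα hc
  obtain ⟨r, m, X, hm, hX, hle⟩ := partL_sat hL ((b : ℝ) * Real.log 2) (-1) hb.frequently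
    (ε := 1 / 2) (by norm_num)
  exact ⟨b, r, m, X, hm, hX, by linarith⟩

/-- S0218 from `PartL`. -/
theorem s0218_of_partL (hL : ∀ c : ℝ, 0 < c → PartL 3 c) (α : ℝ)
    (hα : IsSharpThreshold (satProb 3) α) :
    ∃ f : ℕ → ℕ, Computable f ∧ ∀ r : ℕ, |(f r : ℝ) / 2 ^ r - α| ≤ 1 / 2 ^ r :=
  s0218_of hα (Crest.Agent.S0217.result 3 le_rfl)
    (fun _ hc h => le_of_hasNegTrial hα hc h)
    (fun c hc h => hasNegTrial_of_lt hα (hL c hc) h)

end Crest.Agent.R153
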