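import Crest.Agent.R153.Basic

/-! Row 153 (S0217): removing a variable `v` from clauses (helper852). -/

set_option autoImplicit false

open Crest.ProbabilityR.RandomSAT

namespace Crest.Agent.R153

variable {m n : ℕ}

/-- clause without `v`, read in `n + 1` variables -/
def joinL (v : Fin (n + 1)) (c : Clause m n) : Clause m (n + 1) :=
  (⟨fun i => v.succAbove (c.1.1 i), fun _ _ h => c.1.2 (Fin.succAbove_right_injective h)⟩, c.2)

/-- clause with `v` at place `i` with required value `s`, the rest being `q` -/
def joinR (v : Fin (n + 1)) (i : Fin (m + 1)) (s : Bool) (q : Clause m n) :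
    Clause (m + 1) (n + 1) :=
  (⟨i.insertNth v (fun a => v.succAbove (q.1.1 a)), by
    intro a b h
    refine Fin.succAboveCases i ?_ (fun a' => ?_) a h <;>
      refine Fin.succAboveCases i ?_ (fun b' => ?_) b
    · intro _; rfl
    · intro h
      simp only [Fin.insertNth_apply_same, Fin.insertNth_apply_succAbove] at h
      exact absurd h.symm (Fin.succAbove_ne v _)
    · intro h
      simp only [Fin.insertNth_apply_same, Fin.insertNth_apply_succAbove] at h
      exact absurd h (Fin.succAbove_ne v _)
    · intro h
      simp only [Fin.insertNth_apply_succAbove] at h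
      rw [q.1.2 (Fin.succAbove_right_injective h)]⟩,
   i.insertNth s q.2)

/-- assemble a clause -/
def join (v : Fin (n + 1)) :
    Clause (m + 1) n ⊕ (Fin (m + 1) × Bool × Clause m n) → Clause (m + 1) (n + 1)
  | Sum.inl c => joinL v c
  | Sum.inr (i, s, q) => joinR v i s q

theorem join_injective (v : Fin (n + 1)) : Function.Injective (join (m := m) v) := by
  rintro (c | ⟨i, s, q⟩) (c' | ⟨i', s', q'⟩) h
  · congr 1
    have h1 : (joinL v c).1.1 = (joinL v c').1.1 := congrArg (fun x => x.1.1) h
    have h2 : (joinL v c).2 = (joinL v c').2 := congrArg (fun x => x.2) h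
    refine Prod.ext (Subtype.ext (funext fun a => ?_)) h2
    exact Fin.succAbove_right_injective (congrFun h1 a)
  · exfalso
    have h1 : (joinL v c).1.1 = (joinR v i' s' q').1.1 := congrArg (fun x => x.1.1) h
    have := congrFun h1 i'
    simp only [joinL, joinR, Fin.insertNth_apply_same] at this
    exact Fin.succAbove_ne v _ this
  · exfalso
    have h1 : (joinR v i s q).1.1 = (joinL v c').1.1 := congrArg (fun x => x.1.1) h
    have := congrFun h1 i
    simp only [joinL, joinR, Fin.insertNth_apply_same] at this
    exact Fin.succAbove_ne v _ this.symm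
  · have h1 : (joinR v i s q).1.1 = (joinR v i' s' q').1.1 := congrArg (fun x => x.1.1) h
    have h2 : (joinR v i s q).2 = (joinR v i' s' q').2 := congrArg (fun x => x.2) h
    have hi : i = i' := by
      apply (joinR v i' s' q').1.2
      have e1 : (joinR v i' s' q').1.1 i = v := by
        rw [← h1]; simp [joinR]
      have e2 : (joinR v i' s' q').1.1 i' = v := by simp [joinR]
      rw [e1, e2]
    subst hi
    have hs : s = s' := by
      have := congrFun h2 i
      simpa [joinR] using this
    subst hs
    have hq : q = q' := by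
      refine Prod.ext (Subtype.ext (funext fun a => ?_)) (funext fun a => ?_)
      · have := congrFun h1 (i.succAbove a)
        simp only [joinR, Fin.insertNth_apply_succAbove] at this
        exact Fin.succAbove_right_injective this
      · have := congrFun h2 (i.succAbove a)
        simpa only [joinR, Fin.insertNth_apply_succAbove] using this
    rw [hq]

theorem join_surjective (v : Fin (n + 1)) : Function.Surjective (join (m := m) v) := by
  intro c
  by_cases hv : ∃ i, c.1.1 i = v
  · obtain ⟨i, hi⟩ := hv
    have hne : ∀ a : Fin m, ∃ y, v.succAbove y = c.1.1 (i.succAbove a) := by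
      intro a
      apply Fin.exists_succAbove_eq
      rw [← hi]
      intro h
      exact Fin.succAbove_ne i a (c.1.2 h)
    choose y hy using hne
    refine ⟨Sum.inr (i, c.2 i, (⟨y, ?_⟩, fun a => c.2 (i.succAbove a))), ?_⟩
    · intro a b hab
      have : c.1.1 (i.succAbove a) = c.1.1 (i.succAbove b) := by rw [← hy, ← hy, hab]
      exact Fin.succAbove_right_injective (c.1.2 this)
    · refine Prod.ext (Subtype.ext (funext fun a => ?_)) (funext fun a => ?_)
      · refine Fin.succAboveCases i ?_ (fun a' => ?_) a
        · simp [join, joinR, hi]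
        · simp [join, joinR, hy]
      · refine Fin.succAboveCases i ?_ (fun a' => ?_) a
        · simp [join, joinR]
        · simp [join, joinR]
  · push Not at hv
    have hne : ∀ a, ∃ y, v.succAbove y = c.1.1 a := fun a => Fin.exists_succAbove_eq (hv a)
    choose y hy using hne
    refine ⟨Sum.inl (⟨y, ?_⟩, c.2), ?_⟩
    · intro a b hab
      have : c.1.1 a = c.1.1 b := by rw [← hy, ← hy, hab]
      exact c.1.2 this
    · refine Prod.ext (Subtype.ext (funext fun a => ?_)) rfl
      simp [join, joinL, hy]

/-- the decomposition of clauses with respect to the variable `v` -/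
noncomputable def splitE (v : Fin (n + 1)) :
    Clause (m + 1) (n + 1) ≃ Clause (m + 1) n ⊕ (Fin (m + 1) × Bool × Clause m n) :=
  (Equiv.ofBijective (join v) ⟨join_injective v, join_surjective v⟩).symm

theorem join_splitE (v : Fin (n + 1)) (c : Clause (m + 1) (n + 1)) : join v (splitE v c) = c :=
  (Equiv.ofBijective (join v) ⟨join_injective v, join_surjective v⟩).apply_symm_apply c

theorem splitE_join (v : Fin (n + 1)) (x : Clause (m + 1) n ⊕ (Fin (m + 1) × Bool × Clause m n)) :
    splitE v (join v x) = x :=
  (Equiv.ofBijective (join v) ⟨join_injective v, join_surjective v⟩).symm_apply_apply x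

/-- clauses of `F` not containing `v` (read in `n` variables) -/
noncomputable def pureL (v : Fin (n + 1)) (F : List (Clause (m + 1) (n + 1))) :
    List (Clause (m + 1) n) :=
  F.filterMap (fun c => (splitE v c).elim some (fun _ => none))

/-- shortened clauses: clauses of `F` containing the literal of `v` falsified by `v = b`, with that
literal removed -/
noncomputable def redL (v : Fin (n + 1)) (b : Bool) (F : List (Clause (m + 1) (n + 1))) :
    List (Clause m n) :=
  F.filterMap (fun c => (splitE v c).elim (fun _ => none)
    (fun x => if x.2.1 = b then none else some x.2.2))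

/-- number of clauses of `F` containing `v` -/
noncomputable def cnt (v : Fin (n + 1)) (F : List (Clause (m + 1) (n + 1))) : ℕ :=
  (F.filter (fun c => (splitE v c).isRight)).length

theorem cases_clause (v : Fin (n + 1)) {p : Clause (m + 1) (n + 1) → Prop}
    (h1 : ∀ c, p (joinL v c)) (h2 : ∀ i s q, p (joinR v i s q)) (c : Clause (m + 1) (n + 1)) :
    p c := by
  rw [← join_splitE v c]
  rcases splitE v c with c' | ⟨i, s, q⟩
  · exact h1 c'
  · exact h2 i s q

theorem splitE_joinL (v : Fin (n + 1)) (c : Clause (m + 1) n) :
    splitE v (joinL v c) = Sum.inl c := splitE_join v (Sum.inl c)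

theorem splitE_joinR (v : Fin (n + 1)) (i : Fin (m + 1)) (s : Bool) (q : Clause m n) :
    splitE v (joinR v i s q) = Sum.inr (i, s, q) := splitE_join v (Sum.inr (i, s, q))

@[simp] theorem pureL_nil (v : Fin (n + 1)) :
    pureL v ([] : List (Clause (m + 1) (n + 1))) = [] := rfl

@[simp] theorem redL_nil (v : Fin (n + 1)) (b : Bool) :
    redL v b ([] : List (Clause (m + 1) (n + 1))) = [] := rfl

@[simp] theorem cnt_nil (v : Fin (n + 1)) :
    cnt v ([] : List (Clause (m + 1) (n + 1))) = 0 := rfl

@[simp] theorem pureL_consL (v : Fin (n + 1)) (c : Clause (m + 1) n)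
    (F : List (Clause (m + 1) (n + 1))) : pureL v (joinL v c :: F) = c :: pureL v F := by
  simp [pureL, splitE_joinL]

@[simp] theorem pureL_consR (v : Fin (n + 1)) (i : Fin (m + 1)) (s : Bool) (q : Clause m n)
    (F : List (Clause (m + 1) (n + 1))) : pureL v (joinR v i s q :: F) = pureL v F := by
  simp [pureL, splitE_joinR]

@[simp] theorem redL_consL (v : Fin (n + 1)) (b : Bool) (c : Clause (m + 1) n)
    (F : List (Clause (m + 1) (n + 1))) : redL v b (joinL v c :: F) = redL v b F := by
  simp [redL, splitE_joinL]

theorem redL_consR_eq (v : Fin (n + 1)) (b : Bool) (i : Fin (m + 1)) (q : Clause m n)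
    (F : List (Clause (m + 1) (n + 1))) : redL v b (joinR v i b q :: F) = redL v b F := by
  simp [redL, splitE_joinR]

theorem redL_consR_ne (v : Fin (n + 1)) {b s : Bool} (h : s ≠ b) (i : Fin (m + 1))
    (q : Clause m n) (F : List (Clause (m + 1) (n + 1))) :
    redL v b (joinR v i s q :: F) = q :: redL v b F := by
  simp [redL, splitE_joinR, h]

@[simp] theorem cnt_consL (v : Fin (n + 1)) (c : Clause (m + 1) n)
    (F : List (Clause (m + 1) (n + 1))) : cnt v (joinL v c :: F) = cnt v F := by
  simp [cnt, splitE_joinL]

@[simp] theorem cnt_consR (v : Fin (n + 1)) (i : Fin (m + 1)) (s : Bool) (q : Clause m n)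
    (F : List (Clause (m + 1) (n + 1))) : cnt v (joinR v i s q :: F) = cnt v F + 1 := by
  simp [cnt, splitE_joinR]

theorem clauseSat_joinL (v : Fin (n + 1)) (c : Clause m n) (σ : Asg (n + 1)) :
    ClauseSat σ (joinL v c) ↔ ClauseSat (fun i => σ (v.succAbove i)) c := Iff.rfl

theorem clauseSat_joinR (v : Fin (n + 1)) (i : Fin (m + 1)) (s : Bool) (q : Clause m n)
    (σ : Asg (n + 1)) :
    ClauseSat σ (joinR v i s q) ↔ σ v = s ∨ ClauseSat (fun i => σ (v.succAbove i)) q := by
  unfold ClauseSat
  constructor
  · rintro ⟨a, ha⟩
    revert ha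
    refine Fin.succAboveCases i ?_ (fun a' => ?_) a
    · intro ha
      left
      simpa [joinR] using ha
    · intro ha
      right
      refine ⟨a', ?_⟩
      simpa [joinR] using ha
  · rintro (h | ⟨a, ha⟩)
    · refine ⟨i, ?_⟩
      simpa [joinR] using h
    · refine ⟨i.succAbove a, ?_⟩
      simpa [joinR] using ha

theorem card_clause (m n : ℕ) : Fintype.card (Clause m n) = n.descFactorial m * 2 ^ m := by
  rw [Fintype.card_prod]
  congr 1
  · rw [Fintype.card_congr (Equiv.subtypeInjectiveEquivEmbedding (Fin m) (Fin n)),
      Fintype.card_embedding_eq]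
    simp
  · simp

/-- `θ = (m+1) / (2 (n+1))` -/
noncomputable def theta (m n : ℕ) : ℝ := (m + 1 : ℝ) / (2 * (n + 1))

/-- law of the decomposition of a uniform clause -/
theorem avg_split (hmn : m ≤ n) (v : Fin (n + 1)) (f : Clause (m + 1) (n + 1) → ℝ) :
    avg f = (1 - 2 * theta m n) * avg (fun c : Clause (m + 1) n => f (joinL v c)) +
      theta m n * (avg (fun x : Fin (m + 1) × Clause m n => f (joinR v x.1 true x.2)) +
        avg (fun x : Fin (m + 1) × Clause m n => f (joinR v x.1 false x.2))) := by
  have hsum : ∑ c, f c = ∑ c : Clause (m + 1) n, f (joinL v c) +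
      (∑ x : Fin (m + 1) × Clause m n, f (joinR v x.1 true x.2) +
        ∑ x : Fin (m + 1) × Clause m n, f (joinR v x.1 false x.2)) := by
    rw [← Equiv.sum_comp (splitE (m := m) v).symm f, Fintype.sum_sum_type]
    congr 1
    rw [Fintype.sum_prod_type]
    simp only [Fintype.sum_prod_type, Fintype.sum_bool]
    rw [← Finset.sum_add_distrib]
    rfl
  have hD : (0 : ℝ) < (n.descFactorial m : ℝ) := by
    exact_mod_cast Nat.descFactorial_pos.2 hmn
  have hc1 : (Fintype.card (Clause (m + 1) (n + 1)) : ℝ) =
      (n + 1) * n.descFactorial m * 2 ^ (m + 1) := by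
    rw [card_clause, Nat.succ_descFactorial_succ]; push_cast; ring
  have hc2 : (Fintype.card (Clause (m + 1) n) : ℝ) =
      (n - m) * n.descFactorial m * 2 ^ (m + 1) := by
    rw [card_clause, Nat.descFactorial_succ]; push_cast [Nat.cast_sub hmn]; ring
  have hc3 : (Fintype.card (Fin (m + 1) × Clause m n) : ℝ) =
      (m + 1) * (n.descFactorial m * 2 ^ m) := by
    rw [Fintype.card_prod, card_clause, Fintype.card_fin]; push_cast; ring
  unfold avg
  rw [hsum, hc1, hc2, hc3]
  have hn1 : (0 : ℝ) < n + 1 := by positivity
  have hm1 : (0 : ℝ) < m + 1 := by positivity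
  have h2 : (0 : ℝ) < 2 ^ m := by positivity
  rcases Nat.eq_or_lt_of_le hmn with h | h
  · have hemp : ∑ c : Clause (m + 1) n, f (joinL v c) = 0 := by
      have : IsEmpty (Clause (m + 1) n) := by
        rw [← Fintype.card_eq_zero_iff, card_clause, Nat.descFactorial_eq_zero_iff_lt.2 (by omega),
          zero_mul]
      exact Finset.sum_of_isEmpty _
    rw [hemp]
    unfold theta
    field_simp
    ring
  · have hnm : (0 : ℝ) < (n : ℝ) - m := by
      have : (m : ℝ) < n := by exact_mod_cast h
      linarith
    unfold theta
    field_simp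
    ring

end Crest.Agent.R153
private theorem rz_10ad82f3dc : type_of% @_root_.Crest.Agent.R153.join.eq_1 := @_root_.Crest.Agent.R153.join.eq_1 -- L37
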